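import Mathlib.Analysis.Calculus.ContDiff.Defs
import Mathlib.Analysis.Complex.Basic
import Mathlib.Analysis.SpecialFunctions.Trigonometric.Basic

/-!
Definitions for symplectic ball packings in `ℂⁿ`.
-/

namespace Vale.Agent.P209

open scoped ContDiff

/-- The standard symplectic form `∑ dx_j ∧ dy_j` on `ℂⁿ`. -/
def omega (n : ℕ) (a b : Fin n → ℂ) : ℝ :=
  ∑ j, ((a j).re * (b j).im - (a j).im * (b j).re)

/-- The capacity function `z ↦ π ∑ |z_j|²`. -/
noncomputable def cap (n : ℕ) (z : Fin n → ℂ) : ℝ :=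
  Real.pi * ∑ j, ‖z j‖ ^ 2

/-- The closed ball of capacity `R`. -/
def ball (n : ℕ) (R : ℝ) : Set (Fin n → ℂ) := {z | cap n z ≤ R}

/-- The open ball of capacity `R`. -/
def openBall (n : ℕ) (R : ℝ) : Set (Fin n → ℂ) := {z | cap n z < R}

/-- `f` is a symplectic embedding of the closed ball of capacity `R`: on some open
neighbourhood it is smooth, injective, and pulls the standard form back to itself. -/
def IsSymplecticBallEmbedding (n : ℕ) (R : ℝ) (f : (Fin n → ℂ) → (Fin n → ℂ)) : Prop :=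
  ∃ U : Set (Fin n → ℂ), IsOpen U ∧ ball n R ⊆ U ∧ ContDiffOn ℝ ∞ f U ∧ Set.InjOn f U ∧
    ∀ z ∈ U, ∀ a b, omega n (fderiv ℝ f z a) (fderiv ℝ f z b) = omega n a b

/-- The disjoint union of the closed balls of capacities `Rs i` embeds symplectically into
the open ball of capacity `R`. -/
def Packs (n k : ℕ) (R : ℝ) (Rs : Fin k → ℝ) : Prop :=
  ∃ f : Fin k → (Fin n → ℂ) → (Fin n → ℂ),
    (∀ i, IsSymplecticBallEmbedding n (Rs i) (f i) ∧
      f i '' ball n (Rs i) ⊆ openBall n R) ∧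
    ∀ i j, i ≠ j → Disjoint (f i '' ball n (Rs i)) (f j '' ball n (Rs j))

end Vale.Agent.P209
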