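import Mathlib

/-!
An explicit area preserving injective map `ℂ → (0,1) × (0,∞)` with `y ≤ π|z|² + ε`.
-/

namespace Vale.Agent.P209

open Complex
open scoped ContDiff Real

/-- The area form on `ℂ`. -/
def om (a b : ℂ) : ℝ := a.re * b.im - a.im * b.re

theorem om_map (L : ℂ →L[ℝ] ℂ) (a b : ℂ) : om (L a) (L b) = om (L 1) (L I) * om a b := by
  have key : ∀ c : ℂ, L c = c.re • L 1 + c.im • L I := fun c => by
    conv_lhs => rw [← re_add_im c]
    rw [show (c.re : ℂ) + c.im * I = c.re • (1 : ℂ) + c.im • I by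
      simp [Complex.real_smul], map_add, map_smul, map_smul]
  rw [key a, key b]
  simp only [om, add_re, add_im, real_smul, mul_re, mul_im, ofReal_re, ofReal_im]
  ring

/-- A linear endomorphism of `ℂ` with nonzero Jacobian, as an equivalence. -/
theorem exists_equiv_of_om (L : ℂ →L[ℝ] ℂ) (h : om (L 1) (L I) ≠ 0) :
    ∃ e : ℂ ≃L[ℝ] ℂ, (e : ℂ →L[ℝ] ℂ) = L := by
  have hinj : Function.Injective (L : ℂ →ₗ[ℝ] ℂ) := by
    rw [injective_iff_map_eq_zero]
    intro a ha
    have ha' : L a = 0 := ha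
    have h1 := om_map L a 1
    have h2 := om_map L a I
    rw [ha'] at h1 h2
    simp [om] at h1 h2
    apply Complex.ext <;> simp
    · rcases h2 with h2 | h2
      · exact absurd h2 (by simpa [om] using h)
      · exact h2
    · rcases h1 with h1 | h1
      · exact absurd h1 (by simpa [om] using h)
      · exact h1
  exact ⟨(LinearEquiv.ofInjectiveEndo (L : ℂ →ₗ[ℝ] ℂ) hinj).toContinuousLinearEquiv,
    by ext <;> simp⟩

section disc

variable (δ : ℝ)

/-- auxiliary radius -/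
noncomputable def rr (z : ℂ) : ℝ := √(z.im ^ 2 + δ)

/-- auxiliary slope -/
noncomputable def tt (z : ℂ) : ℝ := z.re / rr δ z

/-- auxiliary coordinate -/
noncomputable def ww (z : ℂ) : ℝ := rr δ z + z.im

/-- Jacobian of the squeezing map -/
noncomputable def jac (z : ℂ) : ℝ := ww δ z ^ 2 / ((1 + tt δ z ^ 2) * rr δ z ^ 2)

/-- horizontal profile -/
noncomputable def hh (t : ℝ) : ℝ := t / (1 + t ^ 2) + Real.arctan t

/-- squeezing map -/
noncomputable def gmap (z : ℂ) : ℂ :=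
  ((1 / 2 + hh (tt δ z) / π : ℝ) : ℂ) +
    ((3 * δ / 4 + tt δ z ^ 2 * δ / 4 + (1 + tt δ z ^ 2) * ww δ z ^ 2 / 4 : ℝ) : ℂ) * I

/-- twist angle -/
noncomputable def tau (z : ℂ) : ℝ :=
  -(tt δ z / (1 + tt δ z ^ 2) * (ww δ z / rr δ z)) - Real.arctan (tt δ z)

/-- twist map -/
noncomputable def emap (z : ℂ) : ℂ := z * exp ((tau δ z : ℂ) * I)

variable {δ}

theorem rr_pos (hδ : 0 < δ) (z : ℂ) : 0 < rr δ z := by
  rw [rr]; positivity

theorem rr_sq (hδ : 0 < δ) (z : ℂ) : rr δ z ^ 2 = z.im ^ 2 + δ :=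
  Real.sq_sqrt (by positivity)

theorem ww_pos (hδ : 0 < δ) (z : ℂ) : 0 < ww δ z := by
  have h := rr_pos hδ z
  have h2 := rr_sq hδ z
  rw [ww]
  nlinarith [abs_nonneg z.im]

theorem hh_hasDeriv (t : ℝ) : HasDerivAt hh (2 / (1 + t ^ 2) ^ 2) t := by
  have h1 : HasDerivAt (fun t : ℝ => 1 + t ^ 2) (2 * t) t := by
    simpa using (hasDerivAt_pow 2 t).const_add 1
  refine (((hasDerivAt_id' t).div h1 (by positivity)).add (Real.hasDerivAt_arctan t)).congr_deriv ?_
  field_simp
  ring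

theorem hh_strictMono : StrictMono hh :=
  strictMono_of_hasDerivAt_pos hh_hasDeriv fun t => by positivity

theorem hh_lt (t : ℝ) : hh t < π / 2 := by
  rcases le_or_gt t 0 with ht | ht
  · have := hh_strictMono.monotone ht
    simp [hh] at this
    have h2 : hh t ≤ 0 := by simpa [hh] using this
    linarith [Real.pi_pos]
  · have ha := Real.arctan_lt_pi_div_two t
    have hs : t / (1 + t ^ 2) = Real.sin (2 * Real.arctan t) / 2 := by
      rw [Real.sin_two_mul, Real.sin_arctan, Real.cos_arctan]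
      have : √(1 + t ^ 2) * √(1 + t ^ 2) = 1 + t ^ 2 := Real.mul_self_sqrt (by positivity)
      field_simp
      linear_combination this
    have := Real.sin_lt (show 0 < π - 2 * Real.arctan t by linarith)
    rw [Real.sin_pi_sub] at this
    rw [hh, hs]; linarith

theorem hh_gt (t : ℝ) : -(π / 2) < hh t := by
  have h := hh_lt (-t)
  have e : hh (-t) = - hh t := by simp [hh, neg_div]; ring
  linarith

theorem rr_hasFDeriv (hδ : 0 < δ) (z : ℂ) :
    HasFDerivAt (rr δ) ((z.im / rr δ z) • imCLM) z := by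
  have h1 : HasFDerivAt (fun w : ℂ => w.im) imCLM z := imCLM.hasFDerivAt
  have hr : √(z.im ^ 2 + δ) ≠ 0 := (rr_pos hδ z).ne'
  refine (((h1.pow 2).add_const δ).sqrt (by positivity)).congr_fderiv ?_
  ext a; simp [rr]; field_simp

theorem tt_hasFDeriv (hδ : 0 < δ) (z : ℂ) :
    HasFDerivAt (tt δ)
      ((rr δ z)⁻¹ • reCLM + (-(z.re * z.im / rr δ z ^ 3)) • imCLM) z := by
  have hr := (rr_pos hδ z).ne'
  refine (reCLM.hasFDerivAt.mul ((hasDerivAt_inv hr).comp_hasFDerivAt z (rr_hasFDeriv hδ z))).congr_fderiv ?_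
  ext a; simp; field_simp; ring

theorem ww_hasFDeriv (hδ : 0 < δ) (z : ℂ) :
    HasFDerivAt (ww δ) ((ww δ z / rr δ z) • imCLM) z := by
  have hr := (rr_pos hδ z).ne'
  refine ((rr_hasFDeriv hδ z).add imCLM.hasFDerivAt).congr_fderiv ?_
  ext a; simp [ww]; field_simp; ring

theorem tau_circle (hδ : 0 < δ) (z : ℂ) :
    fderiv ℝ (tau δ) z (I * z) = jac δ z - 1 := by
  have hr := (rr_pos hδ z).ne'
  have ht := tt_hasFDeriv hδ z
  have hd : (0:ℝ) < 1 + tt δ z ^ 2 := by positivity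
  have hu := (ww_hasFDeriv hδ z).mul ((hasDerivAt_inv hr).comp_hasFDerivAt z (rr_hasFDeriv hδ z))
  have h1 : HasDerivAt (fun t : ℝ => 1 + t ^ 2) (2 * tt δ z) (tt δ z) := by
    simpa using (hasDerivAt_pow 2 (tt δ z)).const_add 1
  have hA := ((hasDerivAt_id' (tt δ z)).div h1 hd.ne').comp_hasFDerivAt z ht
  have hB := (Real.hasDerivAt_arctan (tt δ z)).comp_hasFDerivAt z ht
  have H := ((hA.mul hu).neg).sub hB
  rw [HasFDerivAt.fderiv (f := tau δ) H]
  have hp : z.re = tt δ z * rr δ z := by rw [tt]; field_simp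
  have h2 := rr_sq hδ z
  simp [ww, jac, mul_re, mul_im, hp]
  field_simp
  ring

theorem gmap_det (hδ : 0 < δ) (z : ℂ) :
    ∃ L : ℂ →L[ℝ] ℂ, HasFDerivAt (gmap δ) L z ∧ om (L 1) (L I) = jac δ z / π := by
  have hr := (rr_pos hδ z).ne'
  have ht := tt_hasFDeriv hδ z
  have hw := ww_hasFDeriv hδ z
  have hx := ((hh_hasDeriv (tt δ z)).comp_hasFDerivAt z ht).mul_const (π⁻¹) |>.const_add (1/2)
  have hy := (((ht.pow 2).mul_const (δ / 4)).const_add (3 * δ / 4)).add
    ((((ht.pow 2).const_add 1).mul ((hw.pow 2))).mul_const ((4:ℝ)⁻¹))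
  have H := (ofRealCLM.hasFDerivAt.comp z hx).add ((ofRealCLM.hasFDerivAt.comp z hy).mul_const I)
  refine ⟨_, H.congr_of_eventuallyEq (Filter.Eventually.of_forall fun w => ?_), ?_⟩
  · simp [gmap, div_eq_mul_inv]; ring
  · simp only [om, jac, FunLike.coe_add, Pi.add_apply, ContinuousLinearMap.comp_apply,
      FunLike.coe_smul, Pi.smul_apply, ofRealCLM_apply, reCLM_apply, imCLM_apply, smul_eq_mul,
      nsmul_eq_mul, one_re, one_im, I_re, I_im, add_re, add_im, mul_re, mul_im, ofReal_re, ofReal_im]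
    field_simp
    ring

theorem contDiff_rr (hδ : 0 < δ) : ContDiff ℝ ∞ (rr δ) := by
  refine ContDiff.sqrt ?_ fun z => by positivity
  exact (imCLM.contDiff.pow 2).add contDiff_const

theorem contDiff_tt (hδ : 0 < δ) : ContDiff ℝ ∞ (tt δ) :=
  reCLM.contDiff.div (contDiff_rr hδ) fun z => (rr_pos hδ z).ne'

theorem contDiff_ww (hδ : 0 < δ) : ContDiff ℝ ∞ (ww δ) :=
  (contDiff_rr hδ).add imCLM.contDiff

theorem contDiff_tau (hδ : 0 < δ) : ContDiff ℝ ∞ (tau δ) := by
  have ht := contDiff_tt hδ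
  refine (((ht.div (contDiff_const.add (ht.pow 2)) fun z => by positivity).mul
    ((contDiff_ww hδ).div (contDiff_rr hδ) fun z => (rr_pos hδ z).ne')).neg).sub
    (Real.contDiff_arctan.comp ht)

theorem contDiff_gmap (hδ : 0 < δ) : ContDiff ℝ ∞ (gmap δ) := by
  have ht := contDiff_tt hδ
  have hw := contDiff_ww hδ
  have hh' : ContDiff ℝ ∞ hh :=
    (contDiff_id.div (contDiff_const.add (contDiff_id.pow 2)) fun t => by positivity).add
      Real.contDiff_arctan
  unfold gmap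
  refine ContDiff.add (ofRealCLM.contDiff.comp ?_) ((ofRealCLM.contDiff.comp ?_).mul contDiff_const)
  · exact contDiff_const.add ((hh'.comp ht).div_const π)
  · exact ((contDiff_const.add (((ht.pow 2).mul contDiff_const).div_const 4)).add
      (((contDiff_const.add (ht.pow 2)).mul (hw.pow 2)).div_const 4))

theorem gmap_re (z : ℂ) : (gmap δ z).re = 1 / 2 + hh (tt δ z) / π := by
  simp only [gmap, add_re, ofReal_re, mul_re, ofReal_im, I_re, I_im]; ring

theorem gmap_im (z : ℂ) : (gmap δ z).im =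
    3 * δ / 4 + tt δ z ^ 2 * δ / 4 + (1 + tt δ z ^ 2) * ww δ z ^ 2 / 4 := by
  simp only [gmap, add_im, ofReal_re, mul_im, ofReal_im, I_re, I_im]; ring

theorem gmap_injective (hδ : 0 < δ) : Function.Injective (gmap δ) := by
  intro a b h
  have hre := congrArg Complex.re h
  have him := congrArg Complex.im h
  rw [gmap_re, gmap_re] at hre
  rw [gmap_im, gmap_im] at him
  have hpi := Real.pi_ne_zero
  have ht : tt δ a = tt δ b := hh_strictMono.injective (by field_simp at hre; linarith)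
  rw [ht] at him
  have hd : (0:ℝ) < 1 + tt δ b ^ 2 := by positivity
  have hw : ww δ a = ww δ b := by
    have : ww δ a ^ 2 = ww δ b ^ 2 := by
      apply mul_left_cancel₀ hd.ne'; linarith
    nlinarith [ww_pos hδ a, ww_pos hδ b]
  have e : ∀ z, 2 * z.im * ww δ z = ww δ z ^ 2 - δ := fun z => by
    rw [ww]; linear_combination (-1:ℝ) * rr_sq hδ z
  have hi : a.im = b.im := by
    have := e a; have := e b; rw [hw] at *
    nlinarith [ww_pos hδ b]
  apply Complex.ext _ hi
  have hr : rr δ a = rr δ b := by simp [rr, hi]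
  simpa [tt, hr, (rr_pos hδ b).ne', div_left_inj'] using ht

theorem gmap_mem (hδ : 0 < δ) (z : ℂ) :
    0 < (gmap δ z).re ∧ (gmap δ z).re < 1 ∧ 0 < (gmap δ z).im ∧
      (gmap δ z).im ≤ z.re ^ 2 + z.im ^ 2 + 3 * δ / 2 := by
  rw [gmap_re, gmap_im]
  have h1 := hh_lt (tt δ z)
  have h2 := hh_gt (tt δ z)
  have hπ := Real.pi_pos
  have e : hh (tt δ z) / π < 1 / 2 := by rw [div_lt_iff₀ hπ]; linarith
  have e' : -(1 / 2) < hh (tt δ z) / π := by rw [lt_div_iff₀ hπ]; linarith
  refine ⟨by linarith, by linarith, by positivity, ?_⟩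
  have hp : z.re = tt δ z * rr δ z := by
    have := (rr_pos hδ z).ne'
    rw [tt]; field_simp
  have h3 := rr_sq hδ z
  rw [hp, ww, mul_pow, h3]
  nlinarith [sq_nonneg (rr δ z - z.im), sq_nonneg (tt δ z),
    mul_nonneg (sq_nonneg (tt δ z)) (sq_nonneg (rr δ z - z.im))]

theorem norm_emap (z : ℂ) : ‖emap δ z‖ = ‖z‖ := by
  simp [emap, norm_exp_ofReal_mul_I]

theorem contDiff_emap (hδ : 0 < δ) : ContDiff ℝ ∞ (emap δ) :=
  contDiff_id.mul (((ofRealCLM.contDiff.comp (contDiff_tau hδ)).mul contDiff_const).cexp)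

theorem emap_det (hδ : 0 < δ) (z : ℂ) :
    ∃ L : ℂ →L[ℝ] ℂ, HasFDerivAt (emap δ) L z ∧ om (L 1) (L I) = jac δ z := by
  have hτ := ((contDiff_tau hδ).differentiable (by simp) z).hasFDerivAt
  have H := (hasFDerivAt_id z).mul ((ofRealCLM.hasFDerivAt.comp z hτ).mul_const I).cexp
  refine ⟨_, H, ?_⟩
  have hc := tau_circle hδ z
  have key : fderiv ℝ (tau δ) z (I * z) =
      -z.im * fderiv ℝ (tau δ) z 1 + z.re * fderiv ℝ (tau δ) z I := by
    conv_lhs => rw [show I * z = (-z.im) • (1:ℂ) + z.re • I by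
      apply Complex.ext <;> simp, map_add, map_smul, map_smul]
    simp
  rw [key] at hc
  simp [om, exp_re, exp_im]
  linear_combination (1 + (-z.im * fderiv ℝ (tau δ) z 1 + z.re * fderiv ℝ (tau δ) z I)) *
    Real.sin_sq_add_cos_sq (tau δ z) + hc

/-- the monotone angular map on a circle -/
noncomputable def ang (δ ρ a : ℝ) : ℝ := a + tau δ (ρ * exp (a * I))

theorem emap_polar (ρ a : ℝ) :
    emap δ (ρ * exp (a * I)) = ρ * exp ((ang δ ρ a : ℝ) * I) := by
  rw [emap, mul_assoc, ← exp_add]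
  congr 2
  simp [ang]; ring

theorem ang_strictMono (hδ : 0 < δ) (ρ : ℝ) : StrictMono (ang δ ρ) := by
  refine strictMono_of_hasDerivAt_pos
    (f' := fun a => jac δ (ρ * exp (a * I))) (fun a => ?_) fun a => ?_
  · have h1 : HasDerivAt (fun a : ℝ => (ρ:ℂ) * exp (a * I)) (I * (ρ * exp (a * I))) a := by
      refine ((ofRealCLM.hasDerivAt.mul_const I).cexp.const_mul (ρ:ℂ)).congr_deriv ?_
      simp; ring
    have hτ := ((contDiff_tau hδ).differentiable (by simp) (ρ * exp (a * I))).hasFDerivAt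
    refine ((hasDerivAt_id' a).add (hτ.comp_hasDerivAt a h1)).congr_deriv ?_
    rw [tau_circle hδ]; ring
  · have := ww_pos hδ ((ρ:ℂ) * exp (a * I))
    have := rr_pos hδ ((ρ:ℂ) * exp (a * I))
    unfold jac; positivity

theorem emap_injective (hδ : 0 < δ) : Function.Injective (emap δ) := by
  intro u v h
  have hn : ‖u‖ = ‖v‖ := by rw [← norm_emap (δ := δ) u, h, norm_emap]
  rw [← norm_mul_exp_arg_mul_I u, ← norm_mul_exp_arg_mul_I v, hn, emap_polar, emap_polar] at h
  by_cases h0 : ‖v‖ = 0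
  · rw [norm_eq_zero.1 h0, norm_eq_zero.1 (hn.trans h0)]
  have h' := mul_left_cancel₀ (by exact_mod_cast h0) h
  obtain ⟨k, hk⟩ := exp_eq_exp_iff_exists_int.1 h'
  have hk' : ang δ ‖v‖ (arg u) = ang δ ‖v‖ (arg v) + k * (2 * π) := by
    have := congrArg Complex.im hk
    simpa using this
  have he : exp (((arg v + k * (2 * π) : ℝ) : ℂ) * I) = exp (arg v * I) :=
    exp_eq_exp_iff_exists_int.2 ⟨k, by push_cast; ring⟩
  have hp : ang δ ‖v‖ (arg v + k * (2 * π)) = ang δ ‖v‖ (arg v) + k * (2 * π) := by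
    simp only [ang, he]; ring
  have := (ang_strictMono hδ ‖v‖).injective (hk'.trans hp.symm)
  rw [← norm_mul_exp_arg_mul_I u, ← norm_mul_exp_arg_mul_I v, hn, this, he]

theorem abs_tau_le (hδ : 0 < δ) (z : ℂ) : |tau δ z| ≤ 1 + π / 2 := by
  have hr := rr_pos hδ z
  have h1 : |tt δ z / (1 + tt δ z ^ 2)| ≤ 1 / 2 := by
    rw [abs_div, abs_of_pos (show (0:ℝ) < 1 + tt δ z ^ 2 by positivity), div_le_iff₀ (by positivity)]
    nlinarith [sq_nonneg (|tt δ z| - 1), sq_abs (tt δ z)]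
  have h2 : |ww δ z / rr δ z| ≤ 2 := by
    rw [abs_div, abs_of_pos hr, abs_of_pos (ww_pos hδ z), div_le_iff₀ hr, ww]
    nlinarith [rr_sq hδ z, le_abs_self z.im, sq_abs z.im, abs_nonneg z.im]
  have h3 : |Real.arctan (tt δ z)| ≤ π / 2 :=
    abs_le.2 ⟨(Real.neg_pi_div_two_lt_arctan _).le, (Real.arctan_lt_pi_div_two _).le⟩
  have h4 : |tt δ z / (1 + tt δ z ^ 2) * (ww δ z / rr δ z)| ≤ 1 := by
    rw [abs_mul]
    calc _ ≤ (1 / 2 : ℝ) * 2 := mul_le_mul h1 h2 (abs_nonneg _) (by norm_num)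
      _ = 1 := by norm_num
  rw [tau, abs_le]
  constructor <;> linarith [abs_le.1 h4, abs_le.1 h3]

theorem emap_surjective (hδ : 0 < δ) : Function.Surjective (emap δ) := by
  intro u
  have hc : Continuous (ang δ ‖u‖) :=
    continuous_id.add ((contDiff_tau hδ).continuous.comp (by fun_prop))
  have b1 := abs_le.1 (abs_tau_le hδ ((‖u‖:ℂ) * exp ((arg u - (1 + π / 2) : ℝ) * I)))
  have b2 := abs_le.1 (abs_tau_le hδ ((‖u‖:ℂ) * exp ((arg u + (1 + π / 2) : ℝ) * I)))
  obtain ⟨a, -, ha⟩ := intermediate_value_Icc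
    (show arg u - (1 + π / 2) ≤ arg u + (1 + π / 2) by linarith [Real.pi_pos]) hc.continuousOn
    (show arg u ∈ Set.Icc (ang δ ‖u‖ _) (ang δ ‖u‖ _) by
      constructor <;> simp only [ang] <;> linarith [b1.2, b2.1])
  exact ⟨‖u‖ * exp (a * I), by rw [emap_polar, ha, norm_mul_exp_arg_mul_I]⟩

theorem exists_emap_inverse (hδ : 0 < δ) :
    ∃ inv : ℂ → ℂ, ContDiff ℝ ∞ inv ∧ ∀ z, emap δ (inv z) = z := by
  choose L hL hdet using emap_det hδ
  have hne : ∀ z, om (L z 1) (L z I) ≠ 0 := fun z => by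
    rw [hdet]
    have := ww_pos hδ z; have := rr_pos hδ z
    unfold jac; positivity
  choose e he using fun z => exists_equiv_of_om (L z) (hne z)
  have hF : ∀ z, HasFDerivAt (emap δ) (e z : ℂ →L[ℝ] ℂ) z := fun z => by rw [he]; exact hL z
  have hop : IsOpenMap (emap δ) := isOpenMap_of_hasStrictFDerivAt_equiv
    fun z => (contDiff_emap hδ).contDiffAt.hasStrictFDerivAt' (hF z) (by simp)
  let H : ℂ ≃ₜ ℂ := (Equiv.ofBijective _ ⟨emap_injective hδ, emap_surjective hδ⟩)
    |>.toHomeomorphOfContinuousOpen (contDiff_emap hδ).continuous hop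
  exact ⟨H.symm, H.contDiff_symm hF (contDiff_emap hδ), fun z => H.apply_symm_apply z⟩

end disc

/-- The squeezing lemma: a smooth area preserving injection of the plane into a half strip of
width one, with height at most `π|z|² + ε`. -/
theorem exists_squeeze {ε : ℝ} (hε : 0 < ε) :
    ∃ σ : ℂ → ℂ, ContDiff ℝ ∞ σ ∧ Function.Injective σ ∧
      (∀ z, 0 < (σ z).re ∧ (σ z).re < 1 ∧ 0 < (σ z).im ∧ (σ z).im ≤ π * ‖z‖ ^ 2 + ε) ∧
      ∀ z a b, om (fderiv ℝ σ z a) (fderiv ℝ σ z b) = om a b := by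
  have hδ : 0 < 2 * ε / 3 := by positivity
  obtain ⟨inv, hinv, hr⟩ := exists_emap_inverse hδ
  have hsp : (0:ℝ) < √π := by positivity
  refine ⟨fun z => gmap (2 * ε / 3) (inv (√π • z)),
    (contDiff_gmap hδ).comp (hinv.comp (contDiff_id.const_smul _)), ?_, fun z => ?_, fun z a b => ?_⟩
  · intro a b h
    have h1 : inv (√π • a) = inv (√π • b) := gmap_injective hδ h
    have := congrArg (emap (2 * ε / 3)) h1
    rw [hr, hr] at this
    exact smul_right_injective ℂ hsp.ne' this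
  · obtain ⟨h1, h2, h3, h4⟩ := gmap_mem hδ (inv (√π • z))
    refine ⟨h1, h2, h3, h4.trans (le_of_eq ?_)⟩
    have hn : (inv (√π • z)).re ^ 2 + (inv (√π • z)).im ^ 2 = ‖inv (√π • z)‖ ^ 2 := by
      rw [Complex.sq_norm, normSq_apply]; ring
    have hn2 : ‖inv (√π • z)‖ = √π * ‖z‖ := by
      conv_lhs => rw [← norm_emap (δ := 2 * ε / 3), hr, norm_smul, Real.norm_eq_abs,
        abs_of_pos hsp]
    rw [hn, hn2, mul_pow, Real.sq_sqrt Real.pi_pos.le]; ring
  · set w := inv (√π • z)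
    obtain ⟨LG, hG, hGd⟩ := gmap_det hδ w
    obtain ⟨LE, hE, hEd⟩ := emap_det hδ w
    have hI := ((hinv.differentiable (by simp)) (√π • z)).hasFDerivAt
    set LI := fderiv ℝ inv (√π • z)
    have hcomp : LE.comp LI = ContinuousLinearMap.id ℝ ℂ := by
      have h := HasFDerivAt.comp (g := emap (2 * ε / 3)) (√π • z) hE hI
      rw [show emap (2 * ε / 3) ∘ inv = id from funext hr] at h
      exact h.unique (hasFDerivAt_id _)
    have hs : HasFDerivAt (fun z : ℂ => √π • z) (√π • ContinuousLinearMap.id ℝ ℂ) z :=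
      (hasFDerivAt_id z).const_smul √π
    have hσ : HasFDerivAt (fun z => gmap (2 * ε / 3) (inv (√π • z)))
        (LG.comp (LI.comp (√π • ContinuousLinearMap.id ℝ ℂ))) z :=
      HasFDerivAt.comp z (g := gmap (2 * ε / 3)) (f := inv ∘ fun z => √π • z) hG (hI.comp z hs)
    rw [hσ.fderiv]
    simp only [ContinuousLinearMap.comp_apply, FunLike.coe_smul, Pi.smul_apply,
      ContinuousLinearMap.id_apply]
    have hI2 : ∀ x y, om (LE 1) (LE I) * om (LI x) (LI y) = om x y := fun x y => by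
      rw [← om_map]
      simp [← ContinuousLinearMap.comp_apply, hcomp]
    have hsc : om (√π • a) (√π • b) = π * om a b := by
      simp only [om, Complex.smul_re, Complex.smul_im, smul_eq_mul]
      linear_combination (a.re * b.im - a.im * b.re) * Real.mul_self_sqrt Real.pi_pos.le
    have := hI2 (√π • a) (√π • b)
    rw [hEd, hsc] at this
    rw [om_map LG, hGd]
    field_simp
    linarith

end Vale.Agent.P209
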