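import Mathlib
import Vale.Agent.P209.Defs
import Vale.Agent.P209.Disc

/-!
Unimodular affine images of the standard simplex give symplectic ball packings.
-/

namespace Vale.Agent.P209

open Complex Matrix
open scoped ContDiff Real

/-- An integral unimodular affine map of `ℝⁿ`. -/
structure UMap (n : ℕ) where
  /-- linear part -/
  A : Matrix (Fin n) (Fin n) ℤ
  hA : IsUnit A.det
  /-- translation -/
  b : Fin n → ℝ

variable {n : ℕ}

/-- real linear part -/
def UMap.lin (T : UMap n) : Matrix (Fin n) (Fin n) ℝ := T.A.map (Int.cast : ℤ → ℝ)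

/-- the action on angle variables -/
noncomputable def UMap.dual (T : UMap n) : Matrix (Fin n) (Fin n) ℝ :=
  ((T.A⁻¹).map (Int.cast : ℤ → ℝ))ᵀ

/-- application -/
def UMap.app (T : UMap n) (y : Fin n → ℝ) : Fin n → ℝ := T.lin *ᵥ y + T.b

/-- the open simplex of size `r` -/
def osimp (n : ℕ) (r : ℝ) : Set (Fin n → ℝ) := {y | (∀ j, 0 < y j) ∧ ∑ j, y j < r}

theorem UMap.transpose_lin_mul_dual (T : UMap n) : T.linᵀ * T.dual = 1 := by
  rw [UMap.lin, UMap.dual, ← transpose_mul]
  have : (T.A⁻¹.map (Int.cast : ℤ → ℝ)) * T.A.map (Int.cast : ℤ → ℝ) =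
      ((T.A⁻¹ * T.A).map (Int.cast : ℤ → ℝ)) := (Matrix.map_mul (f := Int.castRingHom ℝ)).symm
  rw [this, nonsing_inv_mul _ T.hA, Matrix.map_one _ Int.cast_zero Int.cast_one, transpose_one]

theorem UMap.transpose_dual_mul_lin (T : UMap n) : T.dualᵀ * T.lin = 1 := by
  rw [← transpose_transpose T.lin, ← transpose_mul, T.transpose_lin_mul_dual, transpose_one]

theorem UMap.pairing (T : UMap n) (x y : Fin n → ℝ) :
    (T.dual *ᵥ x) ⬝ᵥ (T.lin *ᵥ y) = x ⬝ᵥ y := by
  rw [dotProduct_mulVec, vecMul_mulVec]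
  rw [transpose_dual_mul_lin, vecMul_one]

theorem UMap.dual_int (T : UMap n) (x : Fin n → ℝ) (h : ∀ j, ∃ m : ℤ, (T.dual *ᵥ x) j = m) :
    ∀ j, ∃ m : ℤ, x j = m := by
  choose m hm using h
  intro j
  refine ⟨(T.Aᵀ *ᵥ m) j, ?_⟩
  have hx : x = T.linᵀ *ᵥ (T.dual *ᵥ x) := by
    rw [mulVec_mulVec, T.transpose_lin_mul_dual, one_mulVec]
  rw [congrFun hx j, funext hm]
  simp [mulVec, dotProduct, UMap.lin]

theorem UMap.dual_inj (T : UMap n) : Function.Injective (T.dual *ᵥ ·) := by
  intro x y h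
  have h2 := congrArg (T.linᵀ *ᵥ ·) h
  simpa [mulVec_mulVec, T.transpose_lin_mul_dual] using h2

/-- the linear symplectic map attached to a unimodular matrix -/
noncomputable def UMap.toL (T : UMap n) : (Fin n → ℂ) →L[ℝ] (Fin n → ℂ) :=
  LinearMap.toContinuousLinearMap
    { toFun := fun w j => ((T.dual *ᵥ fun k => (w k).re) j : ℂ) +
        ((T.lin *ᵥ fun k => (w k).im) j : ℂ) * I
      map_add' := fun u v => by
        funext j
        have e1 : (fun k => ((u + v) k).re) = (fun k => (u k).re) + fun k => (v k).re := by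
          funext k; simp
        have e2 : (fun k => ((u + v) k).im) = (fun k => (u k).im) + fun k => (v k).im := by
          funext k; simp
        rw [e1, e2, mulVec_add, mulVec_add]; simp; ring
      map_smul' := fun c u => by
        funext j
        have e1 : (fun k => ((c • u) k).re) = c • fun k => (u k).re := by funext k; simp
        have e2 : (fun k => ((c • u) k).im) = c • fun k => (u k).im := by funext k; simp
        rw [e1, e2, mulVec_smul, mulVec_smul]; simp; ring }

theorem UMap.toL_re (T : UMap n) (w : Fin n → ℂ) :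
    (fun j => (T.toL w j).re) = T.dual *ᵥ fun k => (w k).re := by
  funext j; simp [UMap.toL]

theorem UMap.toL_im (T : UMap n) (w : Fin n → ℂ) :
    (fun j => (T.toL w j).im) = T.lin *ᵥ fun k => (w k).im := by
  funext j; simp [UMap.toL]

theorem omega_eq (a b : Fin n → ℂ) : omega n a b =
    (fun j => (a j).re) ⬝ᵥ (fun j => (b j).im) - (fun j => (b j).re) ⬝ᵥ (fun j => (a j).im) := by
  simp [omega, dotProduct, Finset.sum_sub_distrib, mul_comm]

theorem omega_eq_sum (a b : Fin n → ℂ) : omega n a b = ∑ j, om (a j) (b j) := rfl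

theorem UMap.toL_omega (T : UMap n) (a b : Fin n → ℂ) :
    omega n (T.toL a) (T.toL b) = omega n a b := by
  rw [omega_eq, omega_eq, T.toL_re, T.toL_re, T.toL_im, T.toL_im, T.pairing, T.pairing]

/-- angle–action coordinates to `ℂ` -/
noncomputable def psi (w : ℂ) : ℂ := (√(w.im / π) : ℂ) * exp ((-(2 * π) * w.re : ℝ) * I)

theorem psi_norm {w : ℂ} (h : 0 < w.im) : π * ‖psi w‖ ^ 2 = w.im := by
  rw [psi, norm_mul, norm_exp_ofReal_mul_I, mul_one, Complex.norm_real, Real.norm_eq_abs, sq_abs,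
    Real.sq_sqrt (by positivity)]
  field_simp

theorem psi_contDiffAt {w : ℂ} (h : 0 < w.im) : ContDiffAt ℝ ∞ psi w := by
  refine ContDiffAt.mul (ofRealCLM.contDiff.contDiffAt.comp w
    ((imCLM.contDiff.contDiffAt.div_const π).sqrt (by positivity))) ?_
  exact (((ofRealCLM.contDiff.comp (contDiff_const.mul reCLM.contDiff)).mul
    contDiff_const).cexp).contDiffAt

theorem psi_om {w : ℂ} (h : 0 < w.im) (a b : ℂ) :
    om (fderiv ℝ psi w a) (fderiv ℝ psi w b) = om a b := by
  have hsq : 0 < w.im / π := by positivity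
  have h1 := ((imCLM.hasFDerivAt (x := w)).mul_const π⁻¹).sqrt
    (by simpa [div_eq_mul_inv] using hsq.ne')
  have h2 := ((ofRealCLM.hasFDerivAt.comp w ((reCLM.hasFDerivAt (x := w)).const_mul
    (-(2 * π)))).mul_const I).cexp
  have H := (ofRealCLM.hasFDerivAt.comp w h1).mul h2
  have H' : HasFDerivAt psi _ w := H.congr_of_eventuallyEq
    (Filter.Eventually.of_forall fun z => by simp [psi, div_eq_mul_inv])
  rw [H'.fderiv]
  have hs := Real.sin_sq_add_cos_sq (2 * π * w.re)
  have hr : √(w.im * π⁻¹) ≠ 0 := by positivity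
  simp [om, exp_re, exp_im]
  field_simp
  rw [show π * 2 * w.re = 2 * π * w.re by ring]
  linear_combination (a.re * b.im - a.im * b.re) * (4 * π ^ 2 * √(w.im / π) ^ 2) * hs

theorem psi_eq_psi {u v : ℂ} (hu : 0 < u.im) (hv : 0 < v.im) (h : psi u = psi v) :
    u.im = v.im ∧ ∃ m : ℤ, u.re - v.re = m := by
  have him : u.im = v.im := by rw [← psi_norm hu, ← psi_norm hv, h]
  refine ⟨him, ?_⟩
  have hne : ((√(v.im / π) : ℝ) : ℂ) ≠ 0 := by
    have : √(v.im / π) ≠ 0 := by positivity
    exact_mod_cast this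
  rw [psi, psi, him] at h
  obtain ⟨k, hk⟩ := exp_eq_exp_iff_exists_int.1 (mul_left_cancel₀ hne h)
  have h2 := congrArg Complex.im hk
  simp at h2
  refine ⟨-k, mul_left_cancel₀ Real.two_pi_pos.ne' ?_⟩
  push_cast; linarith

/-- Symplectic embedding of a ball with moment image in a unimodular simplex. -/
theorem exists_embedding (T : UMap n) {r r' : ℝ} (hr : r < r')
    (hpos : ∀ y ∈ osimp n r', ∀ j, 0 < T.app y j) :
    ∃ f : (Fin n → ℂ) → (Fin n → ℂ), IsSymplecticBallEmbedding n r f ∧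
      ∀ z ∈ ball n r, (fun j => π * ‖f z j‖ ^ 2) ∈ T.app '' osimp n r' := by
  obtain ⟨ε, hε, hεr⟩ : ∃ ε > 0, r + (n + 1) * ε ≤ r' := by
    refine ⟨(r' - r) / (n + 1), div_pos (by linarith) (by positivity), le_of_eq ?_⟩
    field_simp; ring
  obtain ⟨σ, hσ, hinj, hbd, hom⟩ := exists_squeeze hε
  let Φ : (Fin n → ℂ) → (Fin n → ℂ) := fun z j => σ (z j)
  let c : Fin n → ℂ := fun j => (T.b j : ℂ) * I
  let G : (Fin n → ℂ) → (Fin n → ℂ) := fun z => T.toL (Φ z) + c
  let f : (Fin n → ℂ) → (Fin n → ℂ) := fun z j => psi (G z j)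
  let U : Set (Fin n → ℂ) := {z | cap n z < r + ε}
  have hmem : ∀ z ∈ U, (fun j => (Φ z j).im) ∈ osimp n r' := by
    intro z hz
    refine ⟨fun j => (hbd (z j)).2.2.1, ?_⟩
    have hle : ∑ j, (Φ z j).im ≤ ∑ j, (π * ‖z j‖ ^ 2 + ε) :=
      Finset.sum_le_sum fun j _ => (hbd (z j)).2.2.2
    rw [Finset.sum_add_distrib, ← Finset.mul_sum] at hle
    have hz' : π * ∑ j, ‖z j‖ ^ 2 < r + ε := hz
    simp at hle ⊢
    nlinarith
  have hGim : ∀ z j, (G z j).im = T.app (fun k => (Φ z k).im) j := fun z j => by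
    simp only [G, c, UMap.app, Pi.add_apply, ← T.toL_im]
    simp
  have hGre : ∀ z j, (G z j).re = (T.dual *ᵥ fun k => (Φ z k).re) j := fun z j => by
    simp only [G, c, Pi.add_apply, ← T.toL_re]
    simp
  have hGpos : ∀ z ∈ U, ∀ j, 0 < (G z j).im := fun z hz j => by
    rw [hGim]; exact hpos _ (hmem z hz) j
  have hΦd : ContDiff ℝ ∞ Φ := contDiff_pi' fun j => hσ.comp (contDiff_apply ℝ ℂ j)
  have hGd : ContDiff ℝ ∞ G := (T.toL.contDiff.comp hΦd).add contDiff_const
  have hfd : ∀ z ∈ U, ContDiffAt ℝ ∞ f z := fun z hz => contDiffAt_pi.2 fun j =>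
    ContDiffAt.comp (g := psi) (f := fun x => G x j) z (psi_contDiffAt (hGpos z hz j))
      ((contDiff_pi.1 hGd j).contDiffAt)
  have hopen : IsOpen U := isOpen_lt (by unfold cap; fun_prop) continuous_const
  refine ⟨f, ⟨U, hopen, fun z hz => show cap n z < r + ε by
      have : cap n z ≤ r := hz
      linarith,
    fun z hz => (hfd z hz).contDiffWithinAt, ?_, ?_⟩, ?_⟩
  · intro z hz z' hz' h
    have h' := fun j => psi_eq_psi (hGpos z hz j) (hGpos z' hz' j) (congrFun h j)
    have him : (fun k => (Φ z k).im) = fun k => (Φ z' k).im := by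
      have e : T.lin *ᵥ (fun k => (Φ z k).im) = T.lin *ᵥ fun k => (Φ z' k).im := funext fun j => by
        have := (h' j).1
        rw [hGim, hGim] at this
        simpa [UMap.app] using this
      have h2 := congrArg (T.dualᵀ *ᵥ ·) e
      simpa [mulVec_mulVec, T.transpose_dual_mul_lin] using h2
    have hre : ∀ j, ∃ m : ℤ, (Φ z j).re - (Φ z' j).re = m :=
      T.dual_int _ fun j => by
        obtain ⟨m, hm⟩ := (h' j).2
        refine ⟨m, ?_⟩
        rw [hGre, hGre] at hm
        rw [← hm, ← Pi.sub_apply (f := T.dual *ᵥ _) (g := T.dual *ᵥ _), ← mulVec_sub]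
        rfl
    funext j
    apply hinj
    refine Complex.ext ?_ (congrFun him j)
    obtain ⟨m, hm⟩ := hre j
    have b1 := hbd (z j); have b2 := hbd (z' j)
    have : (m : ℝ) < 1 ∧ (-1 : ℝ) < m := by
      constructor <;> simp only [Φ] at hm <;> linarith [b1.1, b1.2.1, b2.1, b2.2.1]
    have hm0 : m = 0 := by
      have h1 : m < 1 := by exact_mod_cast this.1
      have h2 : -1 < m := by exact_mod_cast this.2
      omega
    simp [hm0, Φ] at hm
    linarith
  · intro z hz a b
    have hΦ : HasFDerivAt Φ (ContinuousLinearMap.pi fun j =>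
        (fderiv ℝ σ (z j)).comp (ContinuousLinearMap.proj j)) z :=
      hasFDerivAt_pi.2 fun j => HasFDerivAt.comp (f := fun x : Fin n → ℂ => x j) z
        ((hσ.differentiable (by simp) (z j)).hasFDerivAt) (hasFDerivAt_apply j z)
    have hG : HasFDerivAt G _ z := (T.toL.hasFDerivAt.comp z hΦ).add_const c
    have hf : HasFDerivAt f (ContinuousLinearMap.pi fun j =>
        (fderiv ℝ psi (G z j)).comp ((ContinuousLinearMap.proj j).comp (T.toL.comp
        (ContinuousLinearMap.pi fun k =>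
          (fderiv ℝ σ (z k)).comp (ContinuousLinearMap.proj k))))) z :=
      hasFDerivAt_pi.2 fun j =>
        HasFDerivAt.comp (g := psi) (f := fun x => G x j) z
          (((psi_contDiffAt (hGpos z hz j)).differentiableAt (by simp)).hasFDerivAt)
          ((hasFDerivAt_apply j (G z)).comp z hG)
    rw [hf.fderiv, omega_eq_sum]
    simp only [ContinuousLinearMap.pi_apply, ContinuousLinearMap.comp_apply,
      ContinuousLinearMap.proj_apply, psi_om (hGpos z hz _)]
    rw [← omega_eq_sum, T.toL_omega, omega_eq_sum, omega_eq_sum]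
    simp [hom]
  · intro z hz
    have hzU : z ∈ U := by
      have : cap n z ≤ r := hz
      show cap n z < r + ε
      linarith
    exact ⟨_, hmem z hzU, funext fun j => by
      rw [← hGim, psi_norm (hGpos z hzU j)]⟩

/-- Packing criterion. -/
theorem packs_of_simplices {k : ℕ} {R : ℝ} {Rs : Fin k → ℝ} (R' : Fin k → ℝ) (T : Fin k → UMap n)
    (hR : ∀ i, Rs i < R' i) (hmaps : ∀ i, (T i).app '' osimp n (R' i) ⊆ osimp n R)
    (hdisj : ∀ i j, i ≠ j →
      Disjoint ((T i).app '' osimp n (R' i)) ((T j).app '' osimp n (R' j))) :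
    Packs n k R Rs := by
  choose f hf hmu using fun i => exists_embedding (T i) (hR i)
    (fun y hy j => (hmaps i ⟨y, hy, rfl⟩).1 j)
  refine ⟨f, fun i => ⟨hf i, ?_⟩, fun i j hij => Set.disjoint_left.2 ?_⟩
  · rintro _ ⟨z, hz, rfl⟩
    show cap n _ < R
    rw [cap, Finset.mul_sum]
    exact (hmaps i (hmu i z hz)).2
  · rintro _ ⟨z, hz, rfl⟩ ⟨z', hz', e⟩
    refine Set.disjoint_left.1 (hdisj i j hij) (hmu i z hz) ?_
    rw [← e]; exact hmu j z' hz'

end Vale.Agent.P209
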