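import Mathlib
import Vale.Agent.P209.Toric

/-!
Packings of ellipsoids by ellipsoids: composition, and the two toric moves
(straight and slanted cut of a simplex, followed by a real shear).
-/

namespace Vale.Agent.P209

open Complex Matrix Finset
open scoped ContDiff Real

variable {n : ℕ}

/-- gauge of the ellipsoid with axes `a` -/
noncomputable def ecap (a : Fin n → ℝ) (z : Fin n → ℂ) : ℝ := ∑ j, π * ‖z j‖ ^ 2 / a j

/-- closed ellipsoid with axes `t • a` -/
def EB (a : Fin n → ℝ) (t : ℝ) : Set (Fin n → ℂ) := {z | ecap a z ≤ t}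

/-- open ellipsoid -/
def EO (a : Fin n → ℝ) : Set (Fin n → ℂ) := {z | ecap a z < 1}

/-- symplectic embedding of a neighbourhood -/
def IsEmb (K : Set (Fin n → ℂ)) (f : (Fin n → ℂ) → (Fin n → ℂ)) : Prop :=
  ∃ U : Set (Fin n → ℂ), IsOpen U ∧ K ⊆ U ∧ ContDiffOn ℝ ∞ f U ∧ Set.InjOn f U ∧
    ∀ z ∈ U, ∀ a b, omega n (fderiv ℝ f z a) (fderiv ℝ f z b) = omega n a b

/-- every shrinking of the family `b` of ellipsoids embeds disjointly in the ellipsoid `a` -/
def Fills (a : Fin n → ℝ) {ι : Type*} (b : ι → Fin n → ℝ) : Prop :=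
  ∀ t : ℝ, 0 < t → t < 1 → ∃ f : ι → (Fin n → ℂ) → (Fin n → ℂ),
    (∀ i, IsEmb (EB (b i) t) (f i) ∧ f i '' EB (b i) t ⊆ EO a) ∧
    ∀ i j, i ≠ j → Disjoint (f i '' EB (b i) t) (f j '' EB (b j) t)

theorem isEmb_id (K : Set (Fin n → ℂ)) : IsEmb K id :=
  ⟨Set.univ, isOpen_univ, Set.subset_univ _, contDiffOn_id, fun _ _ _ _ h => h,
    fun z _ a b => by simp⟩

theorem IsEmb.comp {K K' : Set (Fin n → ℂ)} {f g : (Fin n → ℂ) → (Fin n → ℂ)}
    (hf : IsEmb K' f) (hg : IsEmb K g) (hmaps : g '' K ⊆ K') : IsEmb K (f ∘ g) := by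
  obtain ⟨U, hU, hKU, hgd, hgi, hgo⟩ := hg
  obtain ⟨W, hW, hKW, hfd, hfi, hfo⟩ := hf
  refine ⟨U ∩ g ⁻¹' W, hgd.continuousOn.isOpen_inter_preimage hU hW,
    fun z hz => ⟨hKU hz, hKW (hmaps ⟨z, hz, rfl⟩)⟩,
    hfd.comp (hgd.mono Set.inter_subset_left) fun z hz => hz.2,
    fun z hz w hw h => hgi hz.1 hw.1 (hfi hz.2 hw.2 h), fun z hz a b => ?_⟩
  have h1 : DifferentiableAt ℝ g z :=
    (hgd.contDiffAt (hU.mem_nhds hz.1)).differentiableAt (by simp)
  have h2 : DifferentiableAt ℝ f (g z) :=
    (hfd.contDiffAt (hW.mem_nhds hz.2)).differentiableAt (by simp)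
  rw [fderiv_comp z h2 h1]
  simp only [ContinuousLinearMap.comp_apply]
  rw [hfo _ hz.2, hgo _ hz.1]

theorem ecap_smul (a : Fin n → ℝ) (c : ℝ) (z : Fin n → ℂ) :
    ecap a (c • z) = c ^ 2 * ecap a z := by
  simp only [ecap, mul_sum, Pi.smul_apply, norm_smul, Real.norm_eq_abs, mul_pow, sq_abs]
  exact sum_congr rfl fun j _ => by ring

theorem Fills.scale {a : Fin n → ℝ} {ι : Type*} {b : ι → Fin n → ℝ} (h : Fills a b)
    {s t : ℝ} (hs : 0 < s) (ht : 0 < t) (ht1 : t < 1) :
    ∃ f : ι → (Fin n → ℂ) → (Fin n → ℂ),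
      (∀ i, IsEmb (EB (b i) (s * t)) (f i) ∧ f i '' EB (b i) (s * t) ⊆ EB a s) ∧
      ∀ i j, i ≠ j → Disjoint (f i '' EB (b i) (s * t)) (f j '' EB (b j) (s * t)) := by
  obtain ⟨f, hf, hd⟩ := h t ht ht1
  have hs0 : √s ≠ 0 := by positivity
  have key : ∀ i, ∀ z ∈ EB (b i) (s * t), (√s)⁻¹ • z ∈ EB (b i) t := by
    intro i z hz
    show ecap _ _ ≤ t
    rw [ecap_smul, inv_pow, Real.sq_sqrt hs.le, inv_mul_le_iff₀ hs]
    exact hz
  refine ⟨fun i z => √s • f i ((√s)⁻¹ • z), fun i => ⟨?_, ?_⟩, fun i j hij => ?_⟩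
  · obtain ⟨U, hU, hKU, hsm, hin, hom⟩ := (hf i).1
    refine ⟨(fun z => (√s)⁻¹ • z) ⁻¹' U, hU.preimage (continuous_const_smul _),
      fun z hz => hKU (key i z hz), ?_, ?_, fun z hz u v => ?_⟩
    · exact (hsm.comp ((contDiff_id.const_smul _).contDiffOn) fun z hz => hz).const_smul _
    · intro z hz w hw he
      exact smul_right_injective _ (inv_ne_zero hs0)
        (hin hz hw (smul_right_injective _ hs0 he))
    · have hfd : DifferentiableAt ℝ (f i) ((√s)⁻¹ • z) :=
        (hsm.contDiffAt (hU.mem_nhds hz)).differentiableAt (by simp)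
      have hcomp : HasFDerivAt (fun z => √s • f i ((√s)⁻¹ • z))
          (√s • (fderiv ℝ (f i) ((√s)⁻¹ • z)).comp
            ((√s)⁻¹ • ContinuousLinearMap.id ℝ (Fin n → ℂ))) z :=
        (HasFDerivAt.comp (g := f i) z hfd.hasFDerivAt
          ((hasFDerivAt_id z).const_smul (√s)⁻¹)).const_smul (√s)
      rw [hcomp.fderiv]
      simp only [FunLike.coe_smul, Pi.smul_apply, ContinuousLinearMap.comp_apply,
        ContinuousLinearMap.id_apply, map_smul, smul_inv_smul₀ hs0]
      exact hom _ hz u v
  · rintro _ ⟨z, hz, rfl⟩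
    show ecap _ _ ≤ s
    rw [ecap_smul, Real.sq_sqrt hs.le]
    have : ecap a (f i ((√s)⁻¹ • z)) < 1 := (hf i).2 ⟨_, key i z hz, rfl⟩
    nlinarith
  · rw [Set.disjoint_left]
    rintro _ ⟨z, hz, rfl⟩ ⟨w, hw, he⟩
    exact Set.disjoint_left.1 (hd i j hij) ⟨_, key i z hz, rfl⟩
      ⟨_, key j w hw, smul_right_injective _ hs0 he⟩

/-- composition of packings -/
theorem Fills.trans {a : Fin n → ℝ} {ι : Type*} {b : ι → Fin n → ℝ} {κ : ι → Type*}
    {c : (Σ i, κ i) → Fin n → ℝ} (h : Fills a b)
    (h' : ∀ i, Fills (b i) fun k => c ⟨i, k⟩) : Fills a c := by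
  intro t ht ht1
  have hs : 0 < √t := Real.sqrt_pos.2 ht
  have hs1 : √t < 1 := (Real.sqrt_lt' one_pos).2 (by simpa using ht1)
  have hst : √t * √t = t := Real.mul_self_sqrt ht.le
  obtain ⟨f, hf, hfd⟩ := h (√t) hs hs1
  have hg := fun i => Fills.scale (h' i) hs hs hs1
  choose g hg hgd using hg
  simp only [hst] at hg hgd
  refine ⟨fun p => f p.1 ∘ g p.1 p.2, fun p => ⟨(hf p.1).1.comp (hg p.1 p.2).1 (hg p.1 p.2).2,
    ?_⟩, ?_⟩
  · rw [Set.image_comp]
    exact (Set.image_mono (hg p.1 p.2).2).trans (hf p.1).2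
  · rintro ⟨i, k⟩ ⟨j, l⟩ hne
    rw [Set.image_comp, Set.image_comp]
    by_cases hij : i = j
    · subst hij
      obtain ⟨U, -, hKU, -, hin, -⟩ := (hf i).1
      refine (hgd i k l (fun e => hne (by rw [e]))).image hin ?_ ?_
      · exact (hg i k).2.trans hKU
      · exact (hg i l).2.trans hKU
    · exact (hfd i j hij).mono (Set.image_mono (hg i k).2) (Set.image_mono (hg j l).2)

theorem Fills.sub {a : Fin n → ℝ} {ι κ : Type*} {b : ι → Fin n → ℝ} (h : Fills a b)
    {e : κ → ι} (he : Function.Injective e) : Fills a (b ∘ e) := by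
  intro t ht ht1
  obtain ⟨f, hf, hd⟩ := h t ht ht1
  exact ⟨f ∘ e, fun k => hf (e k), fun k l hkl => hd _ _ (he.ne hkl)⟩

theorem ecap_anti {a b : Fin n → ℝ} (hb : ∀ j, 0 < b j) (hab : ∀ j, b j ≤ a j)
    (z : Fin n → ℂ) : ecap a z ≤ ecap b z :=
  sum_le_sum fun j _ => div_le_div_of_nonneg_left (by positivity) (hb j) (hab j)

theorem fills_incl {a b : Fin n → ℝ} (hb : ∀ j, 0 < b j) (hab : ∀ j, b j ≤ a j) :
    Fills a fun _ : Unit => b := by
  refine fun t _ ht1 => ⟨fun _ => id, fun _ => ⟨isEmb_id _, ?_⟩, fun i j h => absurd rfl h⟩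
  rintro _ ⟨z, hz, rfl⟩
  exact lt_of_le_of_lt ((ecap_anti hb hab z).trans hz) ht1

theorem Fills.mono {a a' : Fin n → ℝ} {ι : Type*} {b : ι → Fin n → ℝ} (h : Fills a b)
    (ha : ∀ j, 0 < a j) (haa : ∀ j, a j ≤ a' j) : Fills a' b := by
  intro t ht ht1
  obtain ⟨f, hf, hd⟩ := h t ht ht1
  refine ⟨f, fun i => ⟨(hf i).1, fun y hy => ?_⟩, hd⟩
  exact lt_of_le_of_lt (ecap_anti ha haa y) ((hf i).2 hy)

theorem Fills.chain {a b : Fin n → ℝ} {ι : Type*} {c : ι → Fin n → ℝ}
    (h : Fills a fun _ : Unit => b) (h' : Fills b c) : Fills a c := by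
  have := (Fills.trans (κ := fun _ : Unit => ι) (c := fun p => c p.2) h fun _ => h').sub
    (e := fun i => ⟨(), i⟩) fun i j e => by simpa using e
  exact this

/-- a real affine change of action-angle coordinates -/
structure AMap (n : ℕ) where
  /-- action -/
  M : (Fin n → ℝ) →ₗ[ℝ] (Fin n → ℝ)
  /-- angle -/
  D : (Fin n → ℝ) →ₗ[ℝ] (Fin n → ℝ)
  /-- translation -/
  c : Fin n → ℝ
  pair : ∀ x y, D x ⬝ᵥ M y = x ⬝ᵥ y
  cube : ∀ x, (∀ j, |x j| < 1) → (∀ j, ∃ m : ℤ, D x j = m) → x = 0

theorem AMap.M_inj (T : AMap n) : Function.Injective T.M := by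
  refine (injective_iff_map_eq_zero T.M).2 fun y hy => ?_
  funext k
  have := T.pair (Pi.single k 1) y
  simpa [hy] using this.symm

/-- the linear symplectic map -/
noncomputable def AMap.toL (T : AMap n) : (Fin n → ℂ) →L[ℝ] (Fin n → ℂ) :=
  LinearMap.toContinuousLinearMap
    { toFun := fun w j => ((T.D fun k => (w k).re) j : ℂ) + ((T.M fun k => (w k).im) j : ℂ) * I
      map_add' := fun u v => by
        funext j
        have e1 : (fun k => ((u + v) k).re) = (fun k => (u k).re) + fun k => (v k).re := by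
          funext k; simp
        have e2 : (fun k => ((u + v) k).im) = (fun k => (u k).im) + fun k => (v k).im := by
          funext k; simp
        rw [e1, e2, map_add, map_add]; simp; ring
      map_smul' := fun c u => by
        funext j
        have e1 : (fun k => ((c • u) k).re) = c • fun k => (u k).re := by funext k; simp
        have e2 : (fun k => ((c • u) k).im) = c • fun k => (u k).im := by funext k; simp
        rw [e1, e2, map_smul, map_smul]; simp; ring }

theorem AMap.toL_re (T : AMap n) (w : Fin n → ℂ) :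
    (fun j => (T.toL w j).re) = T.D fun k => (w k).re := by
  funext j; simp [AMap.toL]

theorem AMap.toL_im (T : AMap n) (w : Fin n → ℂ) :
    (fun j => (T.toL w j).im) = T.M fun k => (w k).im := by
  funext j; simp [AMap.toL]

theorem AMap.toL_omega (T : AMap n) (a b : Fin n → ℂ) :
    omega n (T.toL a) (T.toL b) = omega n a b := by
  rw [omega_eq, omega_eq, T.toL_re, T.toL_re, T.toL_im, T.toL_im, T.pair, T.pair]

/-- the open simplex with axes `b` -/
def esimp (b : Fin n → ℝ) : Set (Fin n → ℝ) := {y | (∀ j, 0 < y j) ∧ ∑ j, y j / b j < 1}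

/-- moment map -/
noncomputable def mom (z : Fin n → ℂ) : Fin n → ℝ := fun j => π * ‖z j‖ ^ 2

theorem exists_emb (T : AMap n) {b : Fin n → ℝ} (hb : ∀ j, 0 < b j) {t : ℝ} (ht : t < 1)
    (hpos : ∀ y ∈ esimp b, ∀ j, 0 < T.M y j + T.c j) :
    ∃ f : (Fin n → ℂ) → (Fin n → ℂ), IsEmb (EB b t) f ∧
      ∀ z ∈ EB b t, ∃ y ∈ esimp b, mom (f z) = T.M y + T.c := by
  have hS : 0 ≤ ∑ j, 1 / b j := sum_nonneg fun j _ => (one_div_pos.2 (hb j)).le
  set S := ∑ j, 1 / b j
  obtain ⟨ε, hε, hεt⟩ : ∃ ε > 0, ε * S < (1 - t) / 2 := by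
    refine ⟨(1 - t) / 2 / (S + 1), div_pos (by linarith) (by linarith), ?_⟩
    rw [div_mul_eq_mul_div, div_lt_iff₀ (by linarith)]
    nlinarith
  obtain ⟨σ, hσ, hinj, hbd, hom⟩ := exists_squeeze hε
  let Φ : (Fin n → ℂ) → (Fin n → ℂ) := fun z j => σ (z j)
  let c : Fin n → ℂ := fun j => (T.c j : ℂ) * I
  let G : (Fin n → ℂ) → (Fin n → ℂ) := fun z => T.toL (Φ z) + c
  let f : (Fin n → ℂ) → (Fin n → ℂ) := fun z j => psi (G z j)
  let U : Set (Fin n → ℂ) := {z | ecap b z < (1 + t) / 2}
  have hmem : ∀ z ∈ U, (fun j => (Φ z j).im) ∈ esimp b := by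
    intro z hz
    refine ⟨fun j => (hbd (z j)).2.2.1, ?_⟩
    have hle : ∑ j, (Φ z j).im / b j ≤ ∑ j, (π * ‖z j‖ ^ 2 / b j + ε * (1 / b j)) :=
      sum_le_sum fun j _ => by
        rw [mul_one_div, ← add_div]
        exact div_le_div_of_nonneg_right (hbd (z j)).2.2.2 (hb j).le
    rw [sum_add_distrib, ← mul_sum] at hle
    have hz' : ∑ j, π * ‖z j‖ ^ 2 / b j < (1 + t) / 2 := hz
    linarith
  have hGim : ∀ z j, (G z j).im = T.M (fun k => (Φ z k).im) j + T.c j := fun z j => by
    simp only [G, c, Pi.add_apply, ← T.toL_im]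
    simp
  have hGre : ∀ z j, (G z j).re = T.D (fun k => (Φ z k).re) j := fun z j => by
    simp only [G, c, Pi.add_apply, ← T.toL_re]
    simp
  have hGpos : ∀ z ∈ U, ∀ j, 0 < (G z j).im := fun z hz j => by
    rw [hGim]; exact hpos _ (hmem z hz) j
  have hΦd : ContDiff ℝ ∞ Φ := contDiff_pi' fun j => hσ.comp (contDiff_apply ℝ ℂ j)
  have hGd : ContDiff ℝ ∞ G := (T.toL.contDiff.comp hΦd).add contDiff_const
  have hfd : ∀ z ∈ U, ContDiffAt ℝ ∞ f z := fun z hz => contDiffAt_pi.2 fun j =>
    ContDiffAt.comp (g := psi) (f := fun x => G x j) z (psi_contDiffAt (hGpos z hz j))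
      ((contDiff_pi.1 hGd j).contDiffAt)
  have hopen : IsOpen U := isOpen_lt (by unfold ecap; fun_prop) continuous_const
  have hsub : EB b t ⊆ U := fun z hz => by
    have : ecap b z ≤ t := hz
    show ecap b z < (1 + t) / 2
    linarith
  refine ⟨f, ⟨U, hopen, hsub, fun z hz => (hfd z hz).contDiffWithinAt, ?_, ?_⟩, ?_⟩
  · intro z hz z' hz' h
    have h' := fun j => psi_eq_psi (hGpos z hz j) (hGpos z' hz' j) (congrFun h j)
    have him : (fun k => (Φ z k).im) = fun k => (Φ z' k).im := T.M_inj <| funext fun j => by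
      have := (h' j).1
      rw [hGim, hGim] at this
      linarith
    have hx : (fun k => (Φ z k).re) - (fun k => (Φ z' k).re) = 0 := by
      refine T.cube _ (fun j => ?_) fun j => ?_
      · have b1 := hbd (z j); have b2 := hbd (z' j)
        simp only [Pi.sub_apply, Φ, abs_lt]
        constructor <;> linarith [b1.1, b1.2.1, b2.1, b2.2.1]
      · obtain ⟨m, hm⟩ := (h' j).2
        refine ⟨m, ?_⟩
        rw [hGre, hGre] at hm
        rw [← hm, map_sub]; rfl
    funext j
    apply hinj
    exact Complex.ext (congrFun (sub_eq_zero.1 hx) j) (congrFun him j)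
  · intro z hz a b
    have hΦ : HasFDerivAt Φ (ContinuousLinearMap.pi fun j =>
        (fderiv ℝ σ (z j)).comp (ContinuousLinearMap.proj j)) z :=
      hasFDerivAt_pi.2 fun j => HasFDerivAt.comp (f := fun x : Fin n → ℂ => x j) z
        ((hσ.differentiable (by simp) (z j)).hasFDerivAt) (hasFDerivAt_apply j z)
    have hG : HasFDerivAt G _ z := (T.toL.hasFDerivAt.comp z hΦ).add_const c
    have hf : HasFDerivAt f (ContinuousLinearMap.pi fun j =>
        (fderiv ℝ psi (G z j)).comp ((ContinuousLinearMap.proj j).comp (T.toL.comp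
        (ContinuousLinearMap.pi fun k =>
          (fderiv ℝ σ (z k)).comp (ContinuousLinearMap.proj k))))) z :=
      hasFDerivAt_pi.2 fun j =>
        HasFDerivAt.comp (g := psi) (f := fun x => G x j) z
          (((psi_contDiffAt (hGpos z hz j)).differentiableAt (by simp)).hasFDerivAt)
          ((hasFDerivAt_apply j (G z)).comp z hG)
    rw [hf.fderiv, omega_eq_sum]
    simp only [ContinuousLinearMap.pi_apply, ContinuousLinearMap.comp_apply,
      ContinuousLinearMap.proj_apply, psi_om (hGpos z hz _)]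
    rw [← omega_eq_sum, T.toL_omega, omega_eq_sum, omega_eq_sum]
    simp [hom]
  · intro z hz
    refine ⟨_, hmem z (hsub hz), funext fun j => ?_⟩
    simp only [mom, Pi.add_apply, ← hGim]
    exact psi_norm (hGpos z (hsub hz) j)

/-- corner piece plus a toric piece on the other side of the cut -/
theorem fills_two (T : AMap n) {a b₁ b₂ : Fin n → ℝ} (hb₁ : ∀ j, 0 < b₁ j)
    (hb₁a : ∀ j, b₁ j ≤ a j) (hb₂ : ∀ j, 0 < b₂ j)
    (hpos : ∀ y ∈ esimp b₂, ∀ j, 0 < T.M y j + T.c j)
    (hin : ∀ y ∈ esimp b₂, ∑ j, (T.M y j + T.c j) / a j < 1)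
    (hout : ∀ y ∈ esimp b₂, 1 ≤ ∑ j, (T.M y j + T.c j) / b₁ j) :
    Fills a fun s : Bool => if s then b₂ else b₁ := by
  intro t _ ht1
  obtain ⟨f, hf, hmu⟩ := exists_emb T hb₂ ht1 hpos
  have hin' : ∀ z ∈ EB b₂ t, f z ∈ EO a ∧ f z ∉ EB b₁ t := fun z hz => by
    obtain ⟨y, hy, he⟩ := hmu z hz
    have e : ∀ w : Fin n → ℝ, ecap w (f z) = ∑ j, (T.M y j + T.c j) / w j := fun w =>
      sum_congr rfl fun j _ => by
        have : π * ‖f z j‖ ^ 2 = T.M y j + T.c j := congrFun he j
        rw [this]
    refine ⟨show ecap a (f z) < 1 from by rw [e]; exact hin y hy, fun hm => ?_⟩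
    have : ecap b₁ (f z) ≤ t := hm
    rw [e] at this
    linarith [hout y hy]
  refine ⟨fun s => if s then f else id, fun s => ?_, fun i j hij => ?_⟩
  · cases s
    · exact ⟨isEmb_id _, fun y ⟨z, hz, hzy⟩ => hzy ▸
        lt_of_le_of_lt ((ecap_anti hb₁ hb₁a z).trans hz) ht1⟩
    · exact ⟨hf, by rintro _ ⟨z, hz, rfl⟩; exact (hin' z hz).1⟩
  · have hd : Disjoint (f '' EB b₂ t) (id '' EB b₁ t) := by
      rw [Set.disjoint_left]
      rintro _ ⟨z, hz, rfl⟩ ⟨w, hw, he⟩
      exact (hin' z hz).2 (he ▸ hw)
    cases i <;> cases j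
    · exact absurd rfl hij
    · exact hd.symm
    · exact hd
    · exact absurd rfl hij

theorem sum_split_one (a : Fin n → ℝ) (i : Fin n) :
    ∑ l, a l = a i + ∑ l ∈ univ.erase i, a l := (add_sum_erase _ _ (mem_univ i)).symm

/-- straight cut: `E(a) ⊃ E(a_i ↦ s) ⊔ E(a_i ↦ a_i - s)` -/
theorem fills_cut {a : Fin n → ℝ} (ha : ∀ j, 0 < a j) (i : Fin n) {s : ℝ} (hs : 0 < s)
    (hsa : s < a i) :
    Fills a fun q : Bool => if q then Function.update a i (a i - s)
      else Function.update a i s := by
  let T : AMap n :=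
    { M :=
        { toFun := fun y => Function.update y i (y i - s * ∑ l ∈ univ.erase i, y l / a l)
          map_add' := fun y z => by
            funext l
            by_cases h : l = i
            · subst h; simp [sum_add_distrib, add_div]; ring
            · simp [h]
          map_smul' := fun r y => by
            funext l
            by_cases h : l = i
            · subst h; simp [mul_div_assoc, ← mul_sum]; ring
            · simp [h] }
      D :=
        { toFun := fun x l => if l = i then x i else x l + s / a l * x i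
          map_add' := fun x z => by funext l; by_cases h : l = i <;> simp [h]; ring
          map_smul' := fun r x => by funext l; by_cases h : l = i <;> simp [h]; ring }
      c := Pi.single i s
      pair := fun x y => by
        simp only [dotProduct, LinearMap.coe_mk, AddHom.coe_mk]
        rw [sum_split_one _ i, sum_split_one (fun l => x l * y l) i]
        simp only [if_true, Function.update_self]
        refine Eq.trans (congrArg (_ + ·) (sum_congr rfl
          (g := fun l => x l * y l + s / a l * x i * y l) fun l hl => ?_)) ?_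
        · rw [if_neg (ne_of_mem_erase hl), Function.update_of_ne (ne_of_mem_erase hl), add_mul]
        rw [sum_add_distrib]
        rw [show ∑ l ∈ univ.erase i, s / a l * x i * y l
            = x i * (s * ∑ l ∈ univ.erase i, y l / a l) by
          rw [mul_sum, mul_sum]; exact sum_congr rfl fun l _ => by ring]
        ring
      cube := fun x hx hm => by
        have hi : x i = 0 := by
          obtain ⟨m, hm'⟩ := hm i
          simp at hm'
          have hb := hx i
          rw [hm', ← Int.cast_abs] at hb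
          have : |m| < 1 := by exact_mod_cast hb
          rw [hm', Int.abs_lt_one_iff.1 this, Int.cast_zero]
        funext l
        by_cases h : l = i
        · subst h; exact hi
        obtain ⟨m, hm'⟩ := hm l
        simp [h, hi] at hm'
        have hb := hx l
        rw [hm', ← Int.cast_abs] at hb
        have : |m| < 1 := by exact_mod_cast hb
        rw [hm', Int.abs_lt_one_iff.1 this, Int.cast_zero]; rfl }
  have hpos1 : ∀ v : ℝ, 0 < v → ∀ j, 0 < Function.update a i v j := fun v hv j => by
    by_cases h : j = i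
    · subst h; simpa using hv
    · simpa [h] using ha j
  have hcoord : ∀ y : Fin n → ℝ, ∀ j, T.M y j + T.c j =
      Function.update y i (y i + s * (1 - ∑ l ∈ univ.erase i, y l / a l)) j := by
    intro y j
    by_cases h : j = i
    · subst h; simp [T]; ring
    · simp [T, h]
  have hsum : ∀ (y : Fin n → ℝ) (v : ℝ),
      ∑ j, (T.M y j + T.c j) / Function.update a i v j
        = (y i + s * (1 - ∑ l ∈ univ.erase i, y l / a l)) / v
          + ∑ l ∈ univ.erase i, y l / a l := by
    intro y v
    rw [sum_split_one _ i, hcoord]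
    simp only [Function.update_self]
    congr 1
    refine sum_congr rfl fun l hl => ?_
    rw [hcoord, Function.update_of_ne (ne_of_mem_erase hl),
      Function.update_of_ne (ne_of_mem_erase hl)]
  have hy : ∀ y ∈ esimp (Function.update a i (a i - s)),
      0 < y i ∧ 0 ≤ ∑ l ∈ univ.erase i, y l / a l ∧
      y i / (a i - s) + ∑ l ∈ univ.erase i, y l / a l < 1 := by
    intro y hy
    refine ⟨hy.1 i, sum_nonneg fun l _ => (div_pos (hy.1 l) (ha l)).le, ?_⟩
    have := hy.2
    rw [sum_split_one _ i, Function.update_self] at this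
    rw [sum_congr rfl fun l hl => by rw [← Function.update_of_ne (ne_of_mem_erase hl) (a i - s) a]]
    exact this
  refine fills_two T (hpos1 s hs) (fun j => ?_) (hpos1 _ (sub_pos.2 hsa)) (fun y hye j => ?_)
    (fun y hye => ?_) fun y hye => ?_
  · by_cases h : j = i
    · subst h; simpa using hsa.le
    · simp [h]
  · obtain ⟨h1, h2, h3⟩ := hy y hye
    rw [hcoord]
    by_cases h : j = i
    · subst h
      have : 0 < y j / (a j - s) := div_pos h1 (sub_pos.2 hsa)
      simp only [Function.update_self]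
      nlinarith
    · simpa [h] using hye.1 j
  · obtain ⟨h1, h2, h3⟩ := hy y hye
    have e := hsum y (a i)
    rw [Function.update_eq_self] at e
    rw [e]
    set S := ∑ l ∈ univ.erase i, y l / a l
    have h4 : y i + (a i - s) * S < a i - s := by
      have := mul_lt_mul_of_pos_left h3 (sub_pos.2 hsa)
      rwa [mul_add, mul_div_cancel₀ _ (sub_pos.2 hsa).ne', mul_one] at this
    have : (y i + s * (1 - S)) / a i < 1 - S := by
      rw [div_lt_iff₀ (ha i)]; nlinarith
    linarith
  · obtain ⟨h1, h2, h3⟩ := hy y hye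
    rw [hsum]
    have : 0 < y i / s := div_pos h1 hs
    rw [add_div, mul_div_cancel_left₀ _ hs.ne']
    linarith

/-- slanted cut: for `a j = g p`, `E(a) ⊃ E(a_i ↦ g) ⊔ E(a_i ↦ (a_i - g) p, a_j ↦ g)` -/
theorem fills_slant {a : Fin n → ℝ} (ha : ∀ j, 0 < a j) {i j : Fin n} (hij : i ≠ j) {g : ℝ}
    (hg : 0 < g) (hga : g < a i) {p : ℕ} (hp : 0 < p) (haj : a j = g * p) :
    Fills a fun q : Bool => if q then Function.update (Function.update a i ((a i - g) * p)) j g
      else Function.update a i g := by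
  have hpr : (0 : ℝ) < p := by exact_mod_cast hp
  set E := (univ.erase i).erase j
  have hsplit : ∀ f : Fin n → ℝ, ∑ l, f l = f i + (f j + ∑ l ∈ E, f l) := fun f => by
    rw [sum_split_one f i, ← add_sum_erase (univ.erase i) f (mem_erase.2 ⟨hij.symm, mem_univ j⟩)]
  have hEi : ∀ l ∈ E, l ≠ i ∧ l ≠ j := fun l hl =>
    ⟨(mem_erase.1 (mem_erase.1 hl).2).1, (mem_erase.1 hl).1⟩
  let T : AMap n :=
    { M :=
        { toFun := fun y l => if l = i then -y j + y i / p - g * ∑ m ∈ E, y m / a m
            else if l = j then p * y j else y l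
          map_add' := fun y z => by
            funext l
            by_cases h : l = i
            · simp [h, sum_add_distrib, add_div]; ring
            · by_cases h' : l = j
              · subst h'; simp [h, mul_add]
              · simp [h, h']
          map_smul' := fun r y => by
            funext l
            by_cases h : l = i
            · simp [h, mul_div_assoc, ← mul_sum]; ring
            · by_cases h' : l = j
              · subst h'; simp [h]; ring
              · simp [h, h'] }
      D :=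
        { toFun := fun x l => if l = i then p * x i else if l = j then x i + x j / p
            else x l + g / a l * (p * x i)
          map_add' := fun x z => by
            funext l
            by_cases h : l = i
            · simp [h, mul_add]
            · by_cases h' : l = j
              · subst h'; simp [h, add_div]; ring
              · simp [h, h']; ring
          map_smul' := fun r x => by
            funext l
            by_cases h : l = i
            · simp [h]; ring
            · by_cases h' : l = j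
              · subst h'; simp [h]; ring
              · simp [h, h']; ring }
      c := Pi.single i g
      pair := fun x y => by
        simp only [dotProduct, LinearMap.coe_mk, AddHom.coe_mk]
        rw [hsplit, hsplit]
        simp only [if_true, if_neg hij.symm]
        refine Eq.trans (congrArg (fun v => _ + (_ + v)) (sum_congr rfl
          (g := fun l => x l * y l + g / a l * (p * x i) * y l) fun l hl => ?_)) ?_
        · rw [if_neg (hEi l hl).1, if_neg (hEi l hl).2, if_neg (hEi l hl).1, if_neg (hEi l hl).2,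
            add_mul]
        rw [sum_add_distrib]
        rw [show ∑ l ∈ E, g / a l * (p * x i) * y l
            = x i * p * (g * ∑ l ∈ E, y l / a l) by
          rw [mul_sum, mul_sum]; exact sum_congr rfl fun l _ => by ring]
        field_simp
        ring
      cube := fun x hx hm => by
        have hz : ∀ {l : Fin n} {v : ℝ}, x l = v → (∃ m : ℤ, v = m) → x l = 0 := by
          rintro l v hv ⟨m, rfl⟩
          have hb := hx l
          rw [hv, ← Int.cast_abs] at hb
          have : |m| < 1 := by exact_mod_cast hb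
          rw [hv, Int.abs_lt_one_iff.1 this, Int.cast_zero]
        obtain ⟨A, hA⟩ := hm i
        obtain ⟨B, hB⟩ := hm j
        simp [hij.symm] at hA hB
        have hj : x j = 0 := hz rfl ⟨p * B - A, by
          push_cast
          rw [← hA, ← hB]; field_simp; ring⟩
        have hi : x i = 0 := hz rfl ⟨B, by rw [← hB, hj]; simp⟩
        funext l
        by_cases h : l = i
        · subst h; exact hi
        by_cases h' : l = j
        · subst h'; exact hj
        obtain ⟨m, hm'⟩ := hm l
        simp [h, h', hi] at hm'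
        exact hz rfl ⟨m, hm'⟩ }
  have hcoord : ∀ y : Fin n → ℝ, ∀ l, T.M y l + T.c l = if l = i then
      g - y j + y i / p - g * ∑ m ∈ E, y m / a m else if l = j then p * y j else y l := by
    intro y l
    by_cases h : l = i
    · subst h; simp [T]; ring
    · simp [T, h]
  have hsum : ∀ (y w : Fin n → ℝ), (∀ l ∈ E, w l = a l) → w j = a j →
      ∑ l, (T.M y l + T.c l) / w l = (g - y j + y i / p - g * ∑ m ∈ E, y m / a m) / w i
          + (y j / g + ∑ m ∈ E, y m / a m) := by
    intro y w hw hwj
    rw [hsplit, hcoord, hcoord, if_pos rfl, if_neg hij.symm, if_pos rfl, hwj, haj]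
    congr 2
    · field_simp
    · exact sum_congr rfl fun l hl => by
        rw [hcoord, if_neg (hEi l hl).1, if_neg (hEi l hl).2, hw l hl]
  have hw : 0 < (a i - g) * p := mul_pos (sub_pos.2 hga) hpr
  have hy : ∀ y ∈ esimp (Function.update (Function.update a i ((a i - g) * p)) j g),
      0 < y i ∧ 0 < y j ∧ y i / ((a i - g) * p) + (y j / g + ∑ m ∈ E, y m / a m) < 1 := by
    intro y hy
    refine ⟨hy.1 i, hy.1 j, ?_⟩
    have := hy.2
    rw [hsplit] at this
    simp only [Function.update_self, Function.update_of_ne hij] at this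
    rw [sum_congr rfl fun l hl => by
      rw [Function.update_of_ne (hEi l hl).2, Function.update_of_ne (hEi l hl).1]] at this
    exact this
  refine fills_two T (fun l => ?_) (fun l => ?_) (fun l => ?_) (fun y hye l => ?_)
    (fun y hye => ?_) fun y hye => ?_
  · by_cases h : l = i
    · subst h; simpa using hg
    · simpa [h] using ha l
  · by_cases h : l = i
    · subst h; simpa using hga.le
    · simp [h]
  · by_cases h' : l = j
    · subst h'; simpa using hg
    · by_cases h : l = i
      · subst h; simp [h', hw]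
      · simpa [h, h'] using ha l
  · obtain ⟨h1, h2, h3⟩ := hy y hye
    rw [hcoord]
    by_cases h : l = i
    · rw [if_pos h]
      have e1 : 0 < y i / ((a i - g) * p) := div_pos h1 hw
      have e2 : 0 < y i / p := div_pos h1 hpr
      have e3 : g * (y j / g) = y j := mul_div_cancel₀ _ hg.ne'
      nlinarith
    · rw [if_neg h]
      by_cases h' : l = j
      · rw [if_pos h']; positivity
      · rw [if_neg h']; exact hye.1 l
  · obtain ⟨h1, h2, h3⟩ := hy y hye
    rw [hsum y a (fun _ _ => rfl) rfl]
    set S := ∑ m ∈ E, y m / a m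
    have e1 : y i / ((a i - g) * p) * (a i - g) = y i / p := by
      have := (sub_pos.2 hga).ne'
      field_simp
    have e3 : g * (y j / g) = y j := mul_div_cancel₀ _ hg.ne'
    have : (g - y j + y i / p - g * S) / a i < 1 - (y j / g + S) := by
      rw [div_lt_iff₀ (ha i)]
      nlinarith [mul_lt_mul_of_pos_left h3 (sub_pos.2 hga)]
    linarith
  · obtain ⟨h1, h2, h3⟩ := hy y hye
    rw [hsum y _ (fun l hl => Function.update_of_ne (hEi l hl).1 _ _)
      (Function.update_of_ne hij.symm _ _), Function.update_self]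
    set S := ∑ m ∈ E, y m / a m
    have : (g - y j + y i / p - g * S) / g = 1 - y j / g + y i / p / g - S := by field_simp
    rw [this]
    have : 0 < y i / p / g := by positivity
    linarith

end Vale.Agent.P209
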