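import Mathlib
import Vale.Agent.P209.Ellip

/-!
Iterating the two moves: segments, absorption of axes by a long axis, and seeding a long axis.
-/

namespace Vale.Agent.P209

open Finset
open scoped Real

variable {n : ℕ}

theorem fills_empty (a : Fin n → ℝ) {ι : Type*} [IsEmpty ι] (b : ι → Fin n → ℝ) : Fills a b :=
  fun _ _ _ => ⟨fun i => isEmptyElim i, fun i => isEmptyElim i, fun i => isEmptyElim i⟩

theorem Fills.congr {a : Fin n → ℝ} {ι : Type*} {b c : ι → Fin n → ℝ} (h : Fills a b)
    (e : ∀ i, b i = c i) : Fills a c := funext e ▸ h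

theorem Fills.two {a b₁ b₂ : Fin n → ℝ} {ι₁ ι₂ : Type} {c₁ : ι₁ → Fin n → ℝ}
    {c₂ : ι₂ → Fin n → ℝ} (h : Fills a fun q : Bool => if q then b₂ else b₁)
    (h₁ : Fills b₁ c₁) (h₂ : Fills b₂ c₂) : Fills a (Sum.elim c₁ c₂) := by
  let κ : Bool → Type := fun q => match q with
    | false => ι₁
    | true => ι₂
  let c : (Σ q, κ q) → Fin n → ℝ := fun p => match p with
    | ⟨false, k⟩ => c₁ k
    | ⟨true, k⟩ => c₂ k
  have h' := Fills.trans (c := c) h fun q => by
    cases q
    · exact h₁
    · exact h₂
  refine (h'.sub (e := Sum.elim (fun k => ⟨false, k⟩) fun k => ⟨true, k⟩) ?_).congr ?_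
  · intro x y he
    cases x <;> cases y <;> simp_all
  · intro x; cases x <;> rfl

theorem update_pos {a : Fin n → ℝ} (ha : ∀ j, 0 < a j) (i : Fin n) {v : ℝ} (hv : 0 < v) :
    ∀ j, 0 < Function.update a i v j := fun j => by
  by_cases h : j = i
  · subst h; simpa using hv
  · simpa [h] using ha j

theorem fills_segments {ι : Type} [DecidableEq ι] (s : Finset ι) (L : Fin n) (len : ι → ℝ) :
    ∀ a : Fin n → ℝ, (∀ j, 0 < a j) → (∀ k ∈ s, 0 < len k) → (∑ k ∈ s, len k ≤ a L) →
      Fills a fun k : s => Function.update a L (len k) := by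
  induction s using Finset.induction_on with
  | empty => intro a _ _ _; exact fills_empty _ _
  | insert k s hk ih =>
    intro a ha hlen hsum
    rw [sum_insert hk] at hsum
    have hk0 : 0 < len k := hlen k (mem_insert_self k s)
    rcases s.eq_empty_or_nonempty with rfl | hne
    · refine ((fills_incl (update_pos ha L hk0) fun j => ?_).sub (e := fun _ => ()) ?_).congr ?_
      · by_cases h : j = L
        · subst h; simpa using hsum
        · simp [h]
      · rintro ⟨x, hx⟩ ⟨y, hy⟩ -
        simp at hx hy
        simp [hx, hy]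
      · rintro ⟨x, hx⟩
        simp at hx
        simp [hx]
    · have hspos : 0 < ∑ x ∈ s, len x := sum_pos (fun x hx => hlen x (mem_insert_of_mem hx)) hne
      have hlt : len k < a L := by linarith
      have h2 : Fills (Function.update a L (a L - len k))
          fun x : s => Function.update a L (len x) := by
        refine (ih _ (update_pos ha L (sub_pos.2 hlt)) (fun x hx => hlen x (mem_insert_of_mem hx))
          (by rw [Function.update_self]; linarith)).congr fun x => ?_
        rw [Function.update_idem]
      have h := Fills.two (fills_cut ha L hk0 hlt)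
        (fills_incl (update_pos ha L hk0) fun _ => le_rfl) h2
      refine (h.sub (e := fun x : { y // y ∈ insert k s } => if hx : (x : ι) = k then Sum.inl ()
        else Sum.inr ⟨x, (mem_insert.1 x.2).resolve_left hx⟩) ?_).congr ?_
      · rintro ⟨x, hx⟩ ⟨y, hy⟩ he
        simp only at he
        split_ifs at he with h1 h2
        · simp [h1, h2]
        · simpa using he
      · rintro ⟨x, hx⟩
        simp only [Function.comp_apply]
        split_ifs with h1
        · simp [h1]
        · simp

/-- the loss when absorbing the axes of the given relative lengths -/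
noncomputable def cst : List ℝ → ℝ
  | [] => 1
  | t :: l => 1 + 2 * cst l / t

theorem one_le_cst : ∀ l : List ℝ, (∀ t ∈ l, 0 < t) → 1 ≤ cst l
  | [], _ => le_rfl
  | t :: l, h => by
    have := one_le_cst l fun s hs => h s (List.mem_cons_of_mem _ hs)
    have h2 : 0 ≤ 2 * cst l / t :=
      div_nonneg (by linarith) (h t List.mem_cons_self).le
    simp only [cst]; linarith

theorem cst_le_two_pow : ∀ l : List ℝ, (∀ t ∈ l, 1 ≤ t) → cst l + 1 ≤ 2 ^ (l.length + 1)
  | [], _ => by simp [cst]; norm_num
  | t :: l, h => by
    have h1 := one_le_cst l fun s hs => lt_of_lt_of_le one_pos (h s (List.mem_cons_of_mem _ hs))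
    have h2 := cst_le_two_pow l fun s hs => h s (List.mem_cons_of_mem _ hs)
    have h3 : 2 * cst l / t ≤ 2 * cst l := div_le_self (by linarith) (h t List.mem_cons_self)
    simp only [cst, List.length_cons, pow_succ] at *
    linarith

theorem cst_append_le {δ : ℝ} (hδ : 0 < δ) (l₂ : List ℝ) (h2 : ∀ t ∈ l₂, 0 < t) :
    ∀ l₁ : List ℝ, (∀ t ∈ l₁, 2 * (1 + δ) ≤ t) →
      cst (l₁ ++ l₂) ≤ (1 + δ) / δ + cst l₂ / (1 + δ) ^ l₁.length
  | [], _ => by
    simp
    positivity
  | t :: l, h => by
    have ih := cst_append_le hδ l₂ h2 l fun s hs => h s (List.mem_cons_of_mem _ hs)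
    have ht := h t List.mem_cons_self
    have hp : ∀ s ∈ l ++ l₂, 0 < s := fun s hs => by
      rcases List.mem_append.1 hs with hs | hs
      · linarith [h s (List.mem_cons_of_mem _ hs)]
      · exact h2 s hs
    have h1 := one_le_cst _ hp
    simp only [List.cons_append, cst, List.length_cons]
    calc 1 + 2 * cst (l ++ l₂) / t
        ≤ 1 + 2 * cst (l ++ l₂) / (2 * (1 + δ)) := by gcongr
      _ ≤ 1 + 2 * ((1 + δ) / δ + cst l₂ / (1 + δ) ^ l.length) / (2 * (1 + δ)) := by gcongr
      _ = (1 + δ) / δ + cst l₂ / (1 + δ) ^ (l.length + 1) := by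
          rw [pow_succ]; field_simp; ring

/-- absorbing the axes in `l` into the long axis `L` -/
theorem absorb {u : ℝ} (hu : 0 < u) : ∀ (l : List (Fin n)) (L : Fin n) (a : Fin n → ℝ),
    l.Nodup → L ∉ l → (∀ j, 0 < a j) → (∀ k ∈ l, u ≤ a k) → (∀ k, k ≠ L → k ∉ l → a k = u) →
    ∃ N : ℕ, (l.map fun k => a k / u).prod * (a L / u - cst (l.map fun k => a k / u)) ≤ N ∧
      Fills a fun _ : Fin N => fun _ : Fin n => u
  | [], L, a, _, _, ha, _, hrest => by
    refine ⟨⌊a L / u⌋₊, by simp [cst]; linarith [Nat.lt_floor_add_one (a L / u)], ?_⟩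
    have h := fills_segments (univ : Finset (Fin ⌊a L / u⌋₊)) L (fun _ => u) a ha (fun _ _ => hu)
      (by
        simp
        have := Nat.floor_le (div_pos (ha L) hu).le
        rwa [le_div_iff₀ hu] at this)
    refine (h.sub (e := fun i => ⟨i, mem_univ _⟩) fun i j e => by simpa using e).congr fun i => ?_
    funext k
    by_cases hk : k = L
    · subst hk; simp
    · simp [hk, hrest k hk]
  | h :: l, L, a, hnd, hL, ha, hge, hrest => by
    obtain ⟨hh, hnd'⟩ := List.nodup_cons.1 hnd
    simp only [List.mem_cons, not_or] at hL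
    obtain ⟨hLh, hLl⟩ := hL
    simp only [List.map_cons, List.prod_cons, cst]
    set P := (l.map fun k => a k / u).prod
    set C := cst (l.map fun k => a k / u)
    set t := a h / u with ht
    set X := a L / u with hX
    have hpos : ∀ s ∈ l.map (fun k => a k / u), 0 < s := by
      intro s hs
      obtain ⟨k, -, rfl⟩ := List.mem_map.1 hs
      exact div_pos (ha k) hu
    have hP : 0 < P := List.prod_pos hpos
    have hC : 1 ≤ C := one_le_cst _ hpos
    have hah : u ≤ a h := hge h List.mem_cons_self
    have ht1 : 1 ≤ t := (one_le_div hu).2 hah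
    by_cases hbig : X ≤ 1 + 2 * C / t
    · exact ⟨0, by simpa using mul_nonpos_of_nonneg_of_nonpos (by positivity) (by linarith),
        fills_empty _ _⟩
    push Not at hbig
    rcases eq_or_lt_of_le hah with heq | hlt
    · obtain ⟨N, hN, hF⟩ := absorb hu l L a hnd' hLl ha
        (fun k hk => hge k (List.mem_cons_of_mem _ hk)) fun k hk hk' => by
          by_cases hkh : k = h
          · subst hkh; exact heq.symm
          · exact hrest k hk (by simp [hkh, hk'])
      refine ⟨N, le_trans ?_ hN, hF⟩
      have : t = 1 := by rw [ht, ← heq, div_self hu.ne']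
      rw [this, one_mul, div_one]
      gcongr
      linarith
    · have hX1 : 1 < X := lt_of_le_of_lt (by
        have : 0 ≤ 2 * C / t := by positivity
        linarith) hbig
      set p := ⌊X⌋₊ with hpdef
      have hp : 0 < p := Nat.floor_pos.2 hX1.le
      have hpX : (p : ℝ) ≤ X := Nat.floor_le (by linarith)
      have hXp : X < p + 1 := Nat.lt_floor_add_one X
      have hup : (0 : ℝ) < u * p := by positivity
      set a₀ := Function.update a L (u * p) with ha₀
      have hpos₀ := update_pos ha L hup
      have hle₀ : ∀ j, a₀ j ≤ a j := fun j => by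
        by_cases hj : j = L
        · subst hj
          simp only [ha₀, Function.update_self]
          rw [hX, le_div_iff₀ hu] at hpX
          linarith
        · simp [ha₀, hj]
      have hh' : a₀ h = a h := Function.update_of_ne (Ne.symm hLh) _ _
      have hsl := fills_slant hpos₀ (Ne.symm hLh) hu
        (show u < a₀ h by rw [hh']; exact hlt) hp (Function.update_self L _ a)
      have hne : ∀ k ∈ l, k ≠ L ∧ k ≠ h :=
        fun k hk => ⟨fun e => hLl (e ▸ hk), fun e => hh (e ▸ hk)⟩
      set b₁ := Function.update a₀ h u with hb₁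
      set b₂ := Function.update (Function.update a₀ h ((a₀ h - u) * p)) L u with hb₂
      have hw : 0 < (a₀ h - u) * p := mul_pos (by rw [hh']; linarith) (by exact_mod_cast hp)
      have e₁ : (l.map fun k => b₁ k / u) = l.map fun k => a k / u :=
        List.map_congr_left fun k hk => by
          rw [hb₁, Function.update_of_ne (hne k hk).2, ha₀, Function.update_of_ne (hne k hk).1]
      have e₂ : (l.map fun k => b₂ k / u) = l.map fun k => a k / u :=
        List.map_congr_left fun k hk => by
          rw [hb₂, Function.update_of_ne (hne k hk).1, Function.update_of_ne (hne k hk).2, ha₀,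
            Function.update_of_ne (hne k hk).1]
      obtain ⟨N₁, hN₁, hF₁⟩ := absorb hu l L b₁ hnd' hLl (update_pos hpos₀ h hu)
        (fun k hk => by
          rw [hb₁, Function.update_of_ne (hne k hk).2, ha₀, Function.update_of_ne (hne k hk).1]
          exact hge k (List.mem_cons_of_mem _ hk))
        fun k hk hk' => by
          by_cases hkh : k = h
          · subst hkh; simp [hb₁]
          · rw [hb₁, Function.update_of_ne hkh, ha₀, Function.update_of_ne hk]
            exact hrest k hk (by simp [hkh, hk'])
      obtain ⟨N₂, hN₂, hF₂⟩ := absorb hu l h b₂ hnd' hh (update_pos (update_pos hpos₀ h hw) L hu)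
        (fun k hk => by
          rw [hb₂, Function.update_of_ne (hne k hk).1, Function.update_of_ne (hne k hk).2, ha₀,
            Function.update_of_ne (hne k hk).1]
          exact hge k (List.mem_cons_of_mem _ hk))
        fun k hk hk' => by
          by_cases hkL : k = L
          · subst hkL; simp [hb₂]
          · rw [hb₂, Function.update_of_ne hkL, Function.update_of_ne hk, ha₀,
              Function.update_of_ne hkL]
            exact hrest k hkL (by simp [hk, hk'])
      rw [e₁] at hN₁
      rw [e₂] at hN₂
      have v₁ : b₁ L / u = p := by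
        rw [hb₁, Function.update_of_ne hLh, ha₀, Function.update_self]; field_simp
      have v₂ : b₂ h / u = (t - 1) * p := by
        rw [hb₂, Function.update_of_ne (Ne.symm hLh), Function.update_self, hh', ht]; field_simp
      rw [v₁] at hN₁
      rw [v₂] at hN₂
      refine ⟨N₁ + N₂, ?_, ((Fills.two hsl hF₁ hF₂).mono hpos₀ hle₀ |>.sub
        (e := finSumFinEquiv.symm) finSumFinEquiv.symm.injective).congr fun i => ?_⟩
      · have e : t * P * (X - (1 + 2 * C / t)) = P * (t * (X - 1) - 2 * C) := by
          field_simp; ring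
        rw [e, Nat.cast_add]
        calc P * (t * (X - 1) - 2 * C) ≤ P * (t * p - 2 * C) := by
              gcongr
              linarith
          _ = P * (p - C) + P * ((t - 1) * p - C) := by ring
          _ ≤ N₁ + N₂ := by linarith
      · simp only [Function.comp_apply]
        cases finSumFinEquiv.symm i <;> rfl

/-- creating a long axis by repeated doubling of the excess over `2 g` -/
theorem seed {g : ℝ} (hg : 0 < g) : ∀ (S : List (Fin n)) (L : Fin n) (a : Fin n → ℝ),
    S.Nodup → L ∉ S → (∀ j, 0 < a j) → (∀ k ∈ S, 2 * g ≤ a k) → 2 * g < a L →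
    ∃ b : Fin n → ℝ, (∀ k ∈ S, b k = g) ∧ (∀ k, k ∉ S → k ≠ L → b k = a k) ∧
      b L - 2 * g = 2 ^ S.length * (a L - 2 * g) ∧ (∀ j, 0 < b j) ∧ Fills a fun _ : Unit => b
  | [], L, a, _, _, ha, _, _ =>
    ⟨a, by simp, fun _ _ _ => rfl, by simp, ha, fills_incl ha fun _ => le_rfl⟩
  | h :: S, L, a, hnd, hL, ha, hge, hY => by
    obtain ⟨hh, hnd'⟩ := List.nodup_cons.1 hnd
    simp only [List.mem_cons, not_or] at hL
    obtain ⟨hLh, hLS⟩ := hL
    have h2g : 0 < 2 * g := by linarith
    set a₀ := Function.update a h (2 * g) with ha₀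
    have hpos₀ := update_pos ha h h2g
    have hle₀ : ∀ j, a₀ j ≤ a j := fun j => by
      by_cases hj : j = h
      · subst hj; simpa [ha₀] using hge j List.mem_cons_self
      · simp [ha₀, hj]
    have hL₀ : a₀ L = a L := Function.update_of_ne hLh _ _
    have hsl := fills_slant hpos₀ hLh hg (show g < a₀ L by rw [hL₀]; linarith) (p := 2) two_pos
      (by rw [Function.update_self]; push_cast; ring)
    set a₁ := Function.update (Function.update a₀ L ((a₀ L - g) * (2 : ℕ))) h g with ha₁
    have hw : 0 < (a₀ L - g) * ((2 : ℕ) : ℝ) := by rw [hL₀]; push_cast; linarith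
    have h1 : Fills a fun _ : Unit => a₁ :=
      ((hsl.sub (e := fun _ : Unit => true) fun _ _ _ => rfl).congr fun _ => rfl).mono hpos₀ hle₀
    have hL₁ : a₁ L = 2 * (a L - g) := by
      rw [ha₁, Function.update_of_ne hLh, Function.update_self, hL₀]; push_cast; ring
    have hne : ∀ k, k ≠ L → k ≠ h → a₁ k = a k := fun k hk hk' => by
      rw [ha₁, Function.update_of_ne hk', Function.update_of_ne hk, ha₀, Function.update_of_ne hk']
    obtain ⟨b, hb1, hb2, hb3, hb4, hb5⟩ := seed hg S L a₁ hnd' hLS
      (update_pos (update_pos hpos₀ L hw) h hg)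
      (fun k hk => by
        rw [hne k (fun e => hLS (e ▸ hk)) fun e => hh (e ▸ hk)]
        exact hge k (List.mem_cons_of_mem _ hk))
      (by rw [hL₁]; linarith)
    refine ⟨b, fun k hk => ?_, fun k hk hkL => ?_, ?_, hb4, h1.chain hb5⟩
    · rcases List.mem_cons.1 hk with rfl | hk
      · rw [hb2 k hh (Ne.symm hLh), ha₁, Function.update_self]
      · exact hb1 k hk
    · simp only [List.mem_cons, not_or] at hk
      rw [hb2 k hk.2 hkL, hne k hkL hk.1]
    · rw [hb3, hL₁, List.length_cons, pow_succ]; ring

end Vale.Agent.P209
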