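import Mathlib
import Vale.Agent.P209.Moves

/-!
In high dimension the volume and two-ball conditions suffice up to a dilation `1 + ε`.
-/

namespace Vale.Agent.P209

open Finset
open scoped Real

variable {n : ℕ}

theorem ecap_const (n : ℕ) (B : ℝ) (z : Fin n → ℂ) : ecap (fun _ => B) z = cap n z / B := by
  simp only [ecap, cap, mul_sum, sum_div]

theorem packs_of_fills {k : ℕ} {R : ℝ} {Rs : Fin k → ℝ} (hR : 0 < R) (B : Fin k → ℝ)
    (hpos : ∀ i, 0 < Rs i) (hlt : ∀ i, Rs i < B i)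
    (h : Fills (fun _ : Fin n => R) fun i => fun _ : Fin n => B i) : Packs n k R Rs := by
  have hev : ∀ᶠ t in nhdsWithin (1 : ℝ) (Set.Iio 1), 0 < t ∧ ∀ i, Rs i ≤ t * B i := by
    refine nhdsWithin_le_nhds ((eventually_gt_nhds one_pos).and
      (Filter.eventually_all.2 fun i => ?_))
    have hB : 0 < B i := (hpos i).trans (hlt i)
    filter_upwards [eventually_gt_nhds ((div_lt_one hB).2 (hlt i))] with t ht
    exact ((div_lt_iff₀ hB).1 ht).le
  obtain ⟨t, ⟨ht0, ht⟩, ht1⟩ := (hev.and self_mem_nhdsWithin).exists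
  obtain ⟨f, hf, hd⟩ := h t ht0 ht1
  have hsub : ∀ i, ball n (Rs i) ⊆ EB (fun _ => B i) t := fun i z hz => by
    show ecap _ _ ≤ t
    rw [ecap_const, div_le_iff₀ ((hpos i).trans (hlt i))]
    exact le_trans hz (ht i)
  refine ⟨f, fun i => ⟨?_, fun y hy => ?_⟩,
    fun i j hij => (hd i j hij).mono (Set.image_mono (hsub i)) (Set.image_mono (hsub j))⟩
  · obtain ⟨U, h1, h2, h3, h4, h5⟩ := (hf i).1
    exact ⟨U, h1, (hsub i).trans h2, h3, h4, h5⟩
  · have : ecap (fun _ => R) y < 1 := (hf i).2 (Set.image_mono (hsub i) hy)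
    show cap n y < R
    rwa [ecap_const, div_lt_one hR] at this

theorem packs_mono {k : ℕ} {R R' : ℝ} {Rs : Fin k → ℝ} (h : Packs n k R Rs) (hR : R ≤ R') :
    Packs n k R' Rs := by
  obtain ⟨f, hf, hd⟩ := h
  exact ⟨f, fun i => ⟨(hf i).1, (hf i).2.trans fun z hz => lt_of_lt_of_le hz hR⟩, hd⟩

/-- classes of small balls inside one long ellipsoid -/
theorem fills_classes {δ u₀ q A : ℝ} (hδ : 0 < δ) (hu₀ : 0 < u₀) (hq0 : 0 < q) (hq1 : q < 1)
    (L : Fin n) (l₁ l₂ : List (Fin n)) (hnd : (l₁ ++ l₂).Nodup) (hL : L ∉ l₁ ++ l₂)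
    (hall : ∀ k, k ≠ L → k ∈ l₁ ++ l₂) (b : Fin n → ℝ) (hb : ∀ j, 0 < b j)
    (h₁ : ∀ k ∈ l₁, 2 * (1 + δ) * u₀ ≤ b k) (h₂ : ∀ k ∈ l₂, u₀ ≤ b k)
    (hlen : (2 : ℝ) ^ (l₂.length + 1) ≤ (1 + δ) ^ l₁.length)
    (hA : A = ((l₁ ++ l₂).map b).prod) {ι : Type} [Fintype ι] (r : ι → ℝ)
    (hr : ∀ i, 0 < r i) (hru : ∀ i, r i < u₀)
    (hX : ((1 + δ) / δ + 1) * (u₀ / (1 - q)) + (∑ i, (r i / q) ^ n) / A ≤ b L) :
    ∃ B : ι → ℝ, (∀ i, r i < B i) ∧ Fills b fun i => fun _ : Fin n => B i := by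
  classical
  have hA0 : 0 < A := hA ▸ List.prod_pos (fun s hs => by
    obtain ⟨k, -, rfl⟩ := List.mem_map.1 hs; exact hb k)
  have hex : ∀ i, ∃ m : ℕ, u₀ * q ^ (m + 1) ≤ r i := fun i => by
    obtain ⟨m, hm⟩ := exists_pow_lt_of_lt_one (div_pos (hr i) hu₀) hq1
    refine ⟨m, ?_⟩
    rw [lt_div_iff₀ hu₀] at hm
    have : q ^ (m + 1) ≤ q ^ m := pow_le_pow_of_le_one hq0.le hq1.le (Nat.le_succ m)
    nlinarith
  let kk : ι → ℕ := fun i => Nat.find (hex i)
  let u : ℕ → ℝ := fun m => u₀ * q ^ m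
  have hu : ∀ m, 0 < u m := fun m => by positivity
  have hkl : ∀ i, r i < u (kk i) := fun i => by
    rcases h : kk i with _ | m
    · simpa [u] using hru i
    · exact not_le.1 (Nat.find_min (hex i) (show m < kk i by omega))
  have hkr : ∀ i, u (kk i) ≤ r i / q := fun i => by
    rw [le_div_iff₀ hq0]
    have := Nat.find_spec (hex i)
    simpa [u, kk, pow_succ, mul_assoc] using this
  let K : Finset ℕ := univ.image kk
  let cl : ℕ → Finset ι := fun m => univ.filter fun i => kk i = m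
  let C₁ : ℝ := (1 + δ) / δ + 1
  let len : ℕ → ℝ := fun m => u m * C₁ + (cl m).card * u m ^ n / A
  have hC₁ : 0 < C₁ := by positivity
  have hlenpos : ∀ m, 0 < len m := fun m => by
    have := hu m; positivity
  have hsum : ∑ m ∈ K, len m ≤ b L := by
    refine le_trans ?_ hX
    rw [sum_add_distrib]
    refine add_le_add ?_ ?_
    · rw [← sum_mul, mul_comm]
      refine mul_le_mul_of_nonneg_left ?_ hC₁.le
      rw [← mul_sum, div_eq_mul_inv]
      refine mul_le_mul_of_nonneg_left ?_ hu₀.le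
      rw [← tsum_geometric_of_lt_one hq0.le hq1]
      exact (summable_geometric_of_lt_one hq0.le hq1).sum_le_tsum _ fun m _ => by positivity
    · rw [← sum_div]
      refine div_le_div_of_nonneg_right ?_ hA0.le
      calc ∑ m ∈ K, ((cl m).card : ℝ) * u m ^ n = ∑ m ∈ K, ∑ i ∈ cl m, u (kk i) ^ n :=
            sum_congr rfl fun m _ => by
              rw [sum_congr rfl fun i hi => by rw [(mem_filter.1 hi).2]]
              simp
        _ = ∑ i, u (kk i) ^ n :=
            sum_fiberwise_of_maps_to (fun i hi => mem_image_of_mem kk hi) _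
        _ ≤ ∑ i, (r i / q) ^ n := sum_le_sum fun i _ => pow_le_pow_left₀ (hu _).le (hkr i) n
  have hseg := fills_segments K L len b hb (fun m _ => hlenpos m) hsum
  have hcl : ∀ m : K, Fills (Function.update b L (len m))
      fun _ : { i // i ∈ cl m } => fun _ : Fin n => u (m : ℕ) := by
    rintro ⟨m, -⟩
    set a := Function.update b L (len m) with ha
    set l := l₁ ++ l₂ with hl
    have hul : u m ≤ u₀ := by
      simpa [u] using mul_le_of_le_one_right hu₀.le (pow_le_one₀ hq0.le hq1.le)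
    have hab : ∀ k ∈ l, a k = b k := fun k hk => by
      rw [ha, Function.update_of_ne (fun e : k = L => hL (e ▸ hk))]
    obtain ⟨N, hN, hF⟩ := absorb (hu m) l L a hnd hL (update_pos hb L (hlenpos m))
      (fun k hk => by
        rw [hab k hk]
        rcases List.mem_append.1 hk with hk' | hk'
        · nlinarith [h₁ k hk']
        · linarith [h₂ k hk'])
      fun k hk hk' => absurd (hall k hk) hk'
    have hprod : (l.map fun k => a k / u m).prod = A / u m ^ l.length := by
      rw [List.map_congr_left (g := fun k => b k / u m) fun k hk => by rw [hab k hk], hA]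
      clear_value l
      clear hN hF hab hall hA hnd hL hl ha
      induction l with
      | nil => simp
      | cons x l ih => simp [ih, pow_succ]; ring
    have hc : cst (l.map fun k => a k / u m) ≤ C₁ := by
      rw [List.map_congr_left (g := fun k => b k / u m) fun k hk => by rw [hab k hk], hl,
        List.map_append]
      have hl2 : ∀ t ∈ l₂.map (fun k => b k / u m), 1 ≤ t := fun t ht => by
        obtain ⟨k, hk, rfl⟩ := List.mem_map.1 ht
        rw [one_le_div (hu m)]; linarith [h₂ k hk]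
      refine (cst_append_le hδ _ (fun t ht => lt_of_lt_of_le one_pos (hl2 t ht)) _
        fun t ht => ?_).trans (add_le_add le_rfl ?_)
      · obtain ⟨k, hk, rfl⟩ := List.mem_map.1 ht
        rw [le_div_iff₀ (hu m)]
        nlinarith [h₁ k hk]
      · rw [div_le_one (by positivity), List.length_map]
        have := cst_le_two_pow _ hl2
        rw [List.length_map] at this
        linarith
    have hn : n = l.length + 1 := by
      have e : insert L l.toFinset = univ := by
        ext k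
        simp only [mem_insert, List.mem_toFinset, mem_univ, iff_true]
        exact (em (k = L)).imp_right (hall k)
      have := congrArg Finset.card e
      rw [card_insert_of_notMem (by simpa using hL), List.toFinset_card_of_nodup hnd] at this
      simpa using this.symm
    have hcard : (cl m).card ≤ N := by
      suffices ((cl m).card : ℝ) ≤ N by exact_mod_cast this
      refine le_trans ?_ hN
      rw [hprod]
      have e : a L / u m - C₁ = (cl m).card * u m ^ l.length / A := by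
        have he : u m ^ n = u m ^ l.length * u m :=
          (congrArg (u m ^ ·) hn).trans (pow_succ _ _)
        have := (hu m).ne'
        simp only [ha, Function.update_self, len, he]
        field_simp
        ring
      calc ((cl m).card : ℝ) = A / u m ^ l.length * (a L / u m - C₁) := by
            have := (hu m).ne'
            rw [e]; field_simp
        _ ≤ _ := by
            refine mul_le_mul_of_nonneg_left (by linarith) ?_
            have := hu m; positivity
    refine (hF.sub (e := fun i => Fin.castLE hcard ((cl m).equivFin i)) ?_).congr fun _ => rfl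
    exact (Fin.castLE_injective hcard).comp (cl m).equivFin.injective
  refine ⟨fun i => u (kk i), hkl, ?_⟩
  refine ((Fills.trans (κ := fun m : K => { i // i ∈ cl m })
    (c := fun p => fun _ : Fin n => u (p.1 : ℕ)) hseg hcl).sub (e := fun i =>
      ⟨⟨kk i, mem_image_of_mem kk (mem_univ i)⟩, ⟨i, mem_filter.2 ⟨mem_univ i, rfl⟩⟩⟩)
    ?_).congr fun _ => rfl
  intro i j he
  exact congrArg (fun p : Σ m : K, { i // i ∈ cl m } => p.2.1) he

/-- the ellipsoid `E(R', …, R', D)` holds all the small balls -/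
theorem fills_rest {δ q g R' D : ℝ} (hδ : 0 < δ) (hq0 : 0 < q) (hq1 : q < 1) (hg : 0 < g)
    (hgD : g ≤ D) (hxg : 2 * (1 + δ) * g ≤ R') (j₀ m : ℕ)
    (hlen : (2 : ℝ) ^ (j₀ + 2) ≤ (1 + δ) ^ m) {ι : Type} [Fintype ι] (r : ι → ℝ)
    (hr : ∀ i, 0 < r i) (hrg : ∀ i, r i < g)
    (hX : ((1 + δ) / δ + 1) * (g / (1 - q)) +
      (∑ i, (r i / q) ^ (2 + j₀ + m)) / (R' ^ m * g ^ j₀ * D) ≤ 2 * g + 2 ^ j₀ * (R' - 2 * g)) :
    ∃ B : ι → ℝ, (∀ i, r i < B i) ∧
      Fills (Function.update (fun _ => R') (⟨0, by omega⟩ : Fin (2 + j₀ + m)) D)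
        fun i => fun _ => B i := by
  let d : Fin (2 + j₀ + m) := ⟨0, by omega⟩
  let L : Fin (2 + j₀ + m) := ⟨1, by omega⟩
  let S : List (Fin (2 + j₀ + m)) := List.ofFn fun i : Fin j₀ => ⟨2 + i, by omega⟩
  let M : List (Fin (2 + j₀ + m)) := List.ofFn fun i : Fin m => ⟨2 + j₀ + i, by omega⟩
  have hSm : ∀ {x}, x ∈ S ↔ 2 ≤ (x : ℕ) ∧ (x : ℕ) < 2 + j₀ := by
    intro x
    simp only [S, List.mem_ofFn]
    constructor
    · rintro ⟨i, rfl⟩; exact ⟨by simp, by simp⟩
    · intro h; exact ⟨⟨x - 2, by omega⟩, by ext; simp; omega⟩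
  have hMm : ∀ {x}, x ∈ M ↔ 2 + j₀ ≤ (x : ℕ) := by
    intro x
    simp only [M, List.mem_ofFn]
    constructor
    · rintro ⟨i, rfl⟩; simp
    · intro h; exact ⟨⟨x - (2 + j₀), by omega⟩, by ext; simp; omega⟩
  have hdv : (d : ℕ) = 0 := rfl
  have hLv : (L : ℕ) = 1 := rfl
  have hLd : L ≠ d := fun e => by have := congrArg Fin.val e; omega
  have hdS : d ∉ S := fun e => by have := (hSm.1 e).1; omega
  have hLS : L ∉ S := fun e => by have := (hSm.1 e).1; omega
  have hSnd : S.Nodup := List.nodup_ofFn.2 fun i j h => by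
    simp [Fin.ext_iff] at h; exact Fin.ext h
  have hMnd : M.Nodup := List.nodup_ofFn.2 fun i j h => by
    simp [Fin.ext_iff] at h; exact Fin.ext h
  have hSl : S.length = j₀ := List.length_ofFn
  have hMl : M.length = m := List.length_ofFn
  have hD : 0 < D := lt_of_lt_of_le hg hgD
  have hR : 2 * g < R' := by nlinarith
  obtain ⟨b, hb1, hb2, hb3, hb4, hb5⟩ :=
    seed hg S L (Function.update (fun _ => R') d D) hSnd hLS
      (update_pos (fun _ => by linarith) d hD)
      (fun x hx => by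
        rw [Function.update_of_ne (fun e : x = d => hdS (e ▸ hx))]
        exact hR.le)
      (by rw [Function.update_of_ne hLd]; exact hR)
  have hbM : ∀ x ∈ M, b x = R' := fun x hx => by
    have hx' := hMm.1 hx
    rw [hb2 x (fun e => by have := (hSm.1 e).2; omega)
      (fun e => by have := congrArg Fin.val e; omega),
      Function.update_of_ne (fun e => by have := congrArg Fin.val e; omega)]
  have hbd : b d = D := by
    rw [hb2 d hdS hLd.symm, Function.update_self]
  have hbL : b L = 2 * g + 2 ^ j₀ * (R' - 2 * g) := by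
    rw [Function.update_of_ne hLd, hSl] at hb3
    linarith
  have hprod : ((M ++ (S ++ [d])).map b).prod = R' ^ m * g ^ j₀ * D := by
    rw [List.map_append, List.map_append, List.prod_append, List.prod_append,
      List.map_congr_left hbM, List.map_congr_left hb1]
    simp [hMl, hSl, hbd, mul_assoc]
  obtain ⟨B, hB, hF⟩ := fills_classes hδ hg hq0 hq1 L M (S ++ [d])
    (List.nodup_append.2 ⟨hMnd, List.nodup_append.2 ⟨hSnd, List.nodup_singleton d,
        fun x hx y hy e => hdS (List.mem_singleton.1 hy ▸ e ▸ hx)⟩,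
      fun x hx y hy e => by
        have hx' := hMm.1 hx
        rcases List.mem_append.1 hy with hy | hy
        · have := (hSm.1 hy).2
          have := congrArg Fin.val e; omega
        · have := congrArg Fin.val (e.trans (List.mem_singleton.1 hy)); omega⟩)
    (fun e => by
      rcases List.mem_append.1 e with e | e
      · have := hMm.1 e; omega
      · rcases List.mem_append.1 e with e | e
        · exact hLS e
        · exact hLd (List.mem_singleton.1 e))
    (fun x hx => by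
      have : (x : ℕ) ≠ 1 := fun e => hx (Fin.ext e)
      simp only [List.mem_append, hMm, hSm, List.mem_singleton, Fin.ext_iff]
      omega)
    b hb4 (fun x hx => by rw [hbM x hx]; exact hxg)
    (fun x hx => by
      rcases List.mem_append.1 hx with hx | hx
      · rw [hb1 x hx]
      · rw [List.mem_singleton.1 hx, hbd]; exact hgD)
    (by rw [List.length_append, hSl, hMl]; exact hlen)
    hprod.symm r hr hrg (by rw [hbL]; exact hX)
  exact ⟨B, hB, hb5.chain hF⟩

theorem budget {ε q g R R' D σ C₁ S : ℝ} {j₀ m : ℕ} (hε : 0 < ε) (hq0 : 0 < q) (hq1 : q < 1)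
    (hg : 0 < g) (hgD : g ≤ D) (hR : 0 < R) (hR' : R' = (1 + ε) * R) (hσg : R' ≤ σ * g)
    (hρ : σ ^ (j₀ + 2) ≤ ((1 + ε) * q) ^ (2 + j₀ + m)) (hS : S ≤ R ^ (2 + j₀ + m))
    (hj : C₁ / (1 - q) + 1 ≤ 2 ^ j₀ * ε) (he : ε * g ≤ R' - 2 * g) :
    C₁ * (g / (1 - q)) + S / q ^ (2 + j₀ + m) / (R' ^ m * g ^ j₀ * D)
      ≤ 2 * g + 2 ^ j₀ * (R' - 2 * g) := by
  have hR0 : 0 < R' := by rw [hR']; positivity
  have hD : 0 < D := lt_of_lt_of_le hg hgD
  have h1 : S / q ^ (2 + j₀ + m) / (R' ^ m * g ^ j₀ * D) ≤ g := by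
    rw [div_le_iff₀ (by positivity), div_le_iff₀ (by positivity)]
    refine hS.trans ?_
    have h4 : R' ^ (j₀ + 2) ≤ ((1 + ε) * q) ^ (2 + j₀ + m) * g ^ (j₀ + 2) := by
      calc R' ^ (j₀ + 2) ≤ (σ * g) ^ (j₀ + 2) := by gcongr
        _ = σ ^ (j₀ + 2) * g ^ (j₀ + 2) := mul_pow _ _ _
        _ ≤ _ := by gcongr
    refine le_of_mul_le_mul_left ?_ (pow_pos (show (0:ℝ) < 1 + ε by linarith) (2 + j₀ + m))
    calc (1 + ε) ^ (2 + j₀ + m) * R ^ (2 + j₀ + m) = R' ^ (j₀ + 2) * R' ^ m := by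
          rw [← mul_pow, ← pow_add, ← hR']; congr 1; omega
      _ ≤ ((1 + ε) * q) ^ (2 + j₀ + m) * g ^ (j₀ + 2) * R' ^ m := by gcongr
      _ = ((1 + ε) * q) ^ (2 + j₀ + m) * (R' ^ m * g ^ j₀ * g * g) := by ring
      _ ≤ ((1 + ε) * q) ^ (2 + j₀ + m) * (R' ^ m * g ^ j₀ * D * g) := by gcongr
      _ = (1 + ε) ^ (2 + j₀ + m) * (g * (R' ^ m * g ^ j₀ * D) * q ^ (2 + j₀ + m)) := by
          rw [mul_pow]; ring
  have h2 := mul_le_mul_of_nonneg_left he (pow_nonneg (zero_le_two (α := ℝ)) j₀)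
  have h5 := mul_le_mul_of_nonneg_right hj hg.le
  rw [add_mul, one_mul, div_mul_eq_mul_div] at h5
  rw [mul_div_assoc']
  linarith

theorem packs_highdim_aux {ε : ℝ} (hε : 0 < ε) (hε1 : ε ≤ 1) :
    ∃ n₀ : ℕ, ∀ n ≥ n₀, ∀ (k : ℕ) (R : ℝ) (Rs : Fin k → ℝ), 0 < R → (∀ i, 0 < Rs i) →
      ∑ i, Rs i ^ n < R ^ n → (∀ i j, i < j → Rs i + Rs j < R) →
      Packs n k ((1 + ε) * R) Rs := by
  set δ := ε / 2 with hδdef
  set q := (1 + δ)⁻¹ with hqdef
  have hδ : 0 < δ := by positivity
  have hq0 : 0 < q := by positivity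
  have hq1 : q < 1 := inv_lt_one_of_one_lt₀ (by linarith)
  set C₁ := (1 + δ) / δ + 1 with hC₁def
  obtain ⟨j₀, hj₀⟩ := pow_unbounded_of_one_lt ((C₁ / (1 - q) + 1) / ε) one_lt_two
  have hρ : 1 < (1 + ε) * q := by
    rw [hqdef, ← div_eq_mul_inv, one_lt_div (by positivity)]; linarith
  obtain ⟨M₁, hM₁⟩ := pow_unbounded_of_one_lt ((2 : ℝ) ^ (j₀ + 2)) (show 1 < 1 + δ by linarith)
  set σ := 4 * (1 + ε) / ε with hσdef
  obtain ⟨M₂, hM₂⟩ := pow_unbounded_of_one_lt (σ ^ (j₀ + 2)) hρ
  refine ⟨2 + j₀ + (M₁ + M₂), fun n hn k R Rs hR hpos hvol hpair => ?_⟩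
  obtain ⟨m, rfl⟩ : ∃ m, n = 2 + j₀ + m := ⟨n - (2 + j₀), by omega⟩
  rcases Nat.eq_zero_or_pos k with rfl | hk
  · exact ⟨fun i => i.elim0, fun i => i.elim0, fun i => i.elim0⟩
  have : Nonempty (Fin k) := ⟨⟨0, hk⟩⟩
  obtain ⟨i₀, hi₀⟩ := Finite.exists_max Rs
  have hr₀R : Rs i₀ < R := lt_of_pow_lt_pow_left₀ (2 + j₀ + m) hR.le
    (lt_of_le_of_lt (single_le_sum (fun j _ => (pow_pos (hpos j) _).le) (mem_univ i₀)) hvol)
  have hεR : 0 < ε * R := mul_pos hε hR
  set R' := (1 + ε) * R with hR'def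
  set s := Rs i₀ + ε * R / 2 with hsdef
  set D := R' - s with hDdef
  set g := min ((1 + ε / 4) * R / 2) (R - Rs i₀ + ε * R / 4) with hgdef
  have hg_low : ε * R / 4 ≤ g := le_min (by nlinarith) (by linarith)
  have hg0 : 0 < g := by linarith
  have hg1 : g ≤ (1 + ε / 4) * R / 2 := min_le_left _ _
  have hgD : g ≤ D := (min_le_right _ _).trans (by linarith)
  have hs0 : 0 < s := by linarith [hpos i₀]
  have hsR : s < R' := by linarith
  have hsmall : ∀ i, i ≠ i₀ → Rs i < g := fun i hi => by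
    have h1 : Rs i + Rs i₀ < R := by
      rcases lt_or_gt_of_ne hi with h | h
      · exact hpair _ _ h
      · linarith [hpair _ _ h]
    have := hi₀ i
    exact lt_min (by nlinarith) (by linarith)
  have hxg : 2 * (1 + δ) * g ≤ R' := by
    calc 2 * (1 + δ) * g ≤ 2 * (1 + δ) * ((1 + ε / 4) * R / 2) := by gcongr
      _ ≤ R' := by
        have h1 : (1 + δ) * (1 + ε / 4) ≤ 1 + ε := by rw [hδdef]; nlinarith
        have := mul_le_mul_of_nonneg_right h1 hR.le
        rw [hR'def]; linarith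
  have he : ε * g ≤ R' - 2 * g := by
    have : ε * g ≤ ε * ((1 + ε / 4) * R / 2) := by gcongr
    have : ε * ε ≤ ε := by nlinarith
    nlinarith
  have hσg : R' ≤ σ * g := by
    have : 0 < σ := by positivity
    calc R' = σ * (ε * R / 4) := by rw [hσdef, hR'def]; field_simp
      _ ≤ σ * g := by gcongr
  have hsumv : ∑ i : {i // i ≠ i₀}, Rs i ^ (2 + j₀ + m) ≤ R ^ (2 + j₀ + m) := by
    refine le_trans ?_ hvol.le
    rw [← sum_subtype (univ.erase i₀) (p := fun i => i ≠ i₀) (by simp) fun i => Rs i ^ (2 + j₀ + m)]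
    exact sum_le_sum_of_subset_of_nonneg (erase_subset _ _) fun i _ _ => (pow_pos (hpos i) _).le
  rw [div_lt_iff₀ hε] at hj₀
  obtain ⟨B, hB, hF⟩ := fills_rest hδ hq0 hq1 hg0 hgD hxg j₀ m
    (hM₁.le.trans (pow_le_pow_right₀ (by linarith) (by omega)))
    (fun i : {i // i ≠ i₀} => Rs i) (fun i => hpos _) (fun i => hsmall _ i.2) (by
      have hb := budget (m := m) (C₁ := C₁) hε hq0 hq1 hg0 hgD hR hR'def hσg
        (hM₂.le.trans (pow_le_pow_right₀ hρ.le (by omega))) hsumv hj₀.le he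
      simp only [div_pow, ← sum_div]
      exact hb)
  have hcut := fills_cut (a := fun _ : Fin (2 + j₀ + m) => R') (fun _ => hs0.trans hsR)
    ⟨0, by omega⟩ hs0 hsR
  have hbig : Fills (Function.update (fun _ => R') (⟨0, by omega⟩ : Fin (2 + j₀ + m)) s)
      fun _ : Unit => fun _ => s :=
    fills_incl (fun _ => hs0) fun j => by
      by_cases hj : j = ⟨0, by omega⟩
      · subst hj; simp
      · rw [Function.update_of_ne hj]; exact hsR.le
  have h := Fills.two hcut hbig hF
  refine packs_of_fills (hs0.trans hsR) (fun i => if hi : i = i₀ then s else B ⟨i, hi⟩) hpos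
    (fun i => ?_)
    ((h.sub (e := fun i => if hi : i = i₀ then Sum.inl () else Sum.inr ⟨i, hi⟩) ?_).congr ?_)
  · by_cases hi : i = i₀
    · rw [dif_pos hi, hi, hsdef]; linarith
    · rw [dif_neg hi]; exact hB ⟨i, hi⟩
  · intro i j he
    simp only at he
    split_ifs at he with h1 h2
    · exact h1.trans h2.symm
    · simpa using he
  · intro i
    simp only [Function.comp_apply]
    split_ifs <;> rfl

theorem packs_highdim {ε : ℝ} (hε : 0 < ε) :
    ∃ n₀ : ℕ, ∀ n ≥ n₀, ∀ (k : ℕ) (R : ℝ) (Rs : Fin k → ℝ), 0 < R → (∀ i, 0 < Rs i) →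
      ∑ i, Rs i ^ n < R ^ n → (∀ i j, i < j → Rs i + Rs j < R) →
      Packs n k ((1 + ε) * R) Rs := by
  obtain ⟨n₀, h⟩ := packs_highdim_aux (lt_min hε one_pos) (min_le_right ε 1)
  refine ⟨n₀, fun n hn k R Rs hR hp hv hpair => packs_mono (h n hn k R Rs hR hp hv hpair) ?_⟩
  gcongr
  exact min_le_left _ _

end Vale.Agent.P209
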