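import Mathlib
import Vale.Agent.P209.HighDim

/-!
High dimension with exact two-ball conditions and exponentially small volume slack.
-/

namespace Vale.Agent.P209

open Finset
open scoped Real

variable {n : ℕ}

/-- halving the axes in `l` -/
theorem fills_halves {u : ℝ} (hu : 0 < u) : ∀ (l : List (Fin n)) (a : Fin n → ℝ), l.Nodup →
    (∀ k ∈ l, 2 * u ≤ a k) → (∀ k, k ∉ l → u ≤ a k) →
    Fills a fun _ : Fin (2 ^ l.length) => fun _ : Fin n => u
  | [], a, _, _, h => by
    refine ((fills_incl (fun _ => hu) fun k => h k List.not_mem_nil).sub (e := fun _ => ())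
      fun i j _ => ?_).congr fun _ => rfl
    exact Fin.ext (by have := i.isLt; have := j.isLt; simp at *; omega)
  | x :: l, a, hnd, hge, hrest => by
    obtain ⟨hx, hnd'⟩ := List.nodup_cons.1 hnd
    have ha : ∀ j, 0 < a j := fun j => by
      by_cases h : j ∈ x :: l
      · linarith [hge j h]
      · linarith [hrest j h]
    have hxa : u < a x := by linarith [hge x List.mem_cons_self]
    have key : ∀ v, u ≤ v → Fills (Function.update a x v)
        fun _ : Fin (2 ^ l.length) => fun _ : Fin n => u := fun v hv =>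
      fills_halves hu l _ hnd' (fun k hk => by
        rw [Function.update_of_ne (fun e : k = x => hx (e ▸ hk))]
        exact hge k (List.mem_cons_of_mem _ hk)) fun k hk => by
        by_cases h : k = x
        · subst h; simpa using hv
        · rw [Function.update_of_ne h]; exact hrest k (by simp [h, hk])
    have h := Fills.two (fills_cut ha x hu hxa) (key u le_rfl)
      (key (a x - u) (by linarith [hge x List.mem_cons_self]))
    refine (h.sub (e := fun i => finSumFinEquiv.symm
      (Fin.cast (by rw [List.length_cons, pow_succ]; omega) i)) ?_).congr fun i => ?_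
    · exact finSumFinEquiv.symm.injective.comp (Fin.cast_injective _)
    · simp only [Function.comp_apply]
      cases finSumFinEquiv.symm _ <;> rfl

/-- an ellipsoid with two short axes and all others equal to `R` holds the small balls -/
theorem fills_rest_two {δ q g R : ℝ} (hδ : 0 < δ) (hq0 : 0 < q) (hq1 : q < 1) (hg : 0 < g)
    (hxg : 2 * (1 + δ) * g ≤ R) (j₀ m : ℕ) (a : Fin (3 + j₀ + m) → ℝ)
    (hga : ∀ k, g ≤ a k) (haR : ∀ k : Fin (3 + j₀ + m), 2 ≤ (k : ℕ) → a k = R)
    (hlen : (2 : ℝ) ^ (j₀ + 3) ≤ (1 + δ) ^ m) {ι : Type} [Fintype ι] (r : ι → ℝ)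
    (hr : ∀ i, 0 < r i) (hrg : ∀ i, r i < g)
    (hX : ((1 + δ) / δ + 1) * (g / (1 - q)) +
      (∑ i, (r i / q) ^ (3 + j₀ + m)) / (R ^ m * g ^ (j₀ + 2)) ≤ 2 * g + 2 ^ j₀ * (R - 2 * g)) :
    ∃ B : ι → ℝ, (∀ i, r i < B i) ∧ Fills a fun i => fun _ => B i := by
  let d : Fin (3 + j₀ + m) := ⟨0, by omega⟩
  let d' : Fin (3 + j₀ + m) := ⟨1, by omega⟩
  let L : Fin (3 + j₀ + m) := ⟨2, by omega⟩
  let S : List (Fin (3 + j₀ + m)) := List.ofFn fun i : Fin j₀ => ⟨3 + i, by omega⟩
  let M : List (Fin (3 + j₀ + m)) := List.ofFn fun i : Fin m => ⟨3 + j₀ + i, by omega⟩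
  have hSm : ∀ {x}, x ∈ S ↔ 3 ≤ (x : ℕ) ∧ (x : ℕ) < 3 + j₀ := by
    intro x
    simp only [S, List.mem_ofFn]
    constructor
    · rintro ⟨i, rfl⟩; exact ⟨by simp, by simp⟩
    · intro h; exact ⟨⟨x - 3, by omega⟩, by ext; simp; omega⟩
  have hMm : ∀ {x}, x ∈ M ↔ 3 + j₀ ≤ (x : ℕ) := by
    intro x
    simp only [M, List.mem_ofFn]
    constructor
    · rintro ⟨i, rfl⟩; simp
    · intro h; exact ⟨⟨x - (3 + j₀), by omega⟩, by ext; simp; omega⟩
  have hLv : (L : ℕ) = 2 := rfl
  have hdv : ∀ x ∈ [d, d'], (x : ℕ) < 2 := by simp [d, d']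
  have hSnd : S.Nodup := List.nodup_ofFn.2 fun i j h => by
    simp [Fin.ext_iff] at h; exact Fin.ext h
  have hMnd : M.Nodup := List.nodup_ofFn.2 fun i j h => by
    simp [Fin.ext_iff] at h; exact Fin.ext h
  have hSl : S.length = j₀ := List.length_ofFn
  have hMl : M.length = m := List.length_ofFn
  have hR : 2 * g < R := by nlinarith
  have hLS : L ∉ S := fun e => by have := (hSm.1 e).1; omega
  obtain ⟨b, hb1, hb2, hb3, hb4, hb5⟩ :=
    seed hg S L a hSnd hLS (fun k => hg.trans_le (hga k))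
      (fun x hx => by rw [haR x (by have := (hSm.1 hx).1; omega)]; exact hR.le)
      (by rw [haR L le_rfl]; exact hR)
  have hbM : ∀ x ∈ M, b x = R := fun x hx => by
    have hx' := hMm.1 hx
    rw [hb2 x (fun e => by have := (hSm.1 e).2; omega)
      (fun e => by have := congrArg Fin.val e; omega), haR x (by omega)]
  have hbd : ∀ x ∈ [d, d'], g ≤ b x := fun x hx => by
    have := hdv x hx
    rw [hb2 x (fun e => by have := (hSm.1 e).1; omega)
      (fun e => by have := congrArg Fin.val e; omega)]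
    exact hga x
  have hbL : b L = 2 * g + 2 ^ j₀ * (R - 2 * g) := by
    rw [haR L le_rfl, hSl] at hb3
    linarith
  have hprod : R ^ m * g ^ (j₀ + 2) ≤ ((M ++ (S ++ [d, d'])).map b).prod := by
    rw [List.map_append, List.map_append, List.prod_append, List.prod_append,
      List.map_congr_left hbM, List.map_congr_left hb1]
    simp only [List.map_const', List.prod_replicate, hSl, hMl, List.map_cons, List.map_nil,
      List.prod_cons, List.prod_nil, mul_one]
    have hd := hbd d (by simp)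
    have hd' := hbd d' (by simp)
    have hR0 : 0 < R := by linarith
    calc R ^ m * g ^ (j₀ + 2) = R ^ m * (g ^ j₀ * (g * g)) := by ring
      _ ≤ _ := mul_le_mul_of_nonneg_left (mul_le_mul_of_nonneg_left
          (mul_le_mul hd hd' hg.le (hg.le.trans hd)) (by positivity)) (by positivity)
  obtain ⟨B, hB, hF⟩ := fills_classes hδ hg hq0 hq1 L M (S ++ [d, d'])
    (List.nodup_append.2 ⟨hMnd, List.nodup_append.2 ⟨hSnd, by simp [d, d'],
        fun x hx y hy e => by
          have := (hSm.1 hx).1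
          have := hdv y hy
          have := congrArg Fin.val e; omega⟩,
      fun x hx y hy e => by
        have hx' := hMm.1 hx
        rcases List.mem_append.1 hy with hy | hy
        · have := (hSm.1 hy).2
          have := congrArg Fin.val e; omega
        · have := hdv y hy
          have := congrArg Fin.val e; omega⟩)
    (fun e => by
      rcases List.mem_append.1 e with e | e
      · have := hMm.1 e; omega
      · rcases List.mem_append.1 e with e | e
        · exact hLS e
        · have := hdv L e; omega)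
    (fun x hx => by
      have : (x : ℕ) ≠ 2 := fun e => hx (Fin.ext e)
      simp only [List.mem_append, hMm, hSm, List.mem_cons, List.not_mem_nil, or_false, Fin.ext_iff,
        d, d']
      omega)
    b hb4 (fun x hx => by rw [hbM x hx]; exact hxg)
    (fun x hx => by
      rcases List.mem_append.1 hx with hx | hx
      · rw [hb1 x hx]
      · exact hbd x hx)
    (by
      rw [List.length_append, hSl, hMl]
      simpa [Nat.add_assoc] using hlen)
    rfl r hr hrg (by
      rw [hbL]
      refine le_trans (add_le_add le_rfl ?_) hX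
      have hR0 : 0 < R := by linarith
      exact div_le_div_of_nonneg_left
        (sum_nonneg fun i _ => pow_nonneg (div_nonneg (hr i).le hq0.le) _) (by positivity) hprod)
  exact ⟨B, hB, hb5.chain hF⟩

/-- For `θ < 1` and large `n`, the two-ball condition and volume below `θ ^ n` suffice. -/
theorem packs_exact_pairs {θ : ℝ} (hθ0 : 0 < θ) (hθ1 : θ < 1) :
    ∃ n₀ : ℕ, ∀ n ≥ n₀, ∀ (k : ℕ) (R : ℝ) (Rs : Fin k → ℝ), 0 < R → (∀ i, 0 < Rs i) →
      ∑ i, Rs i ^ n < θ ^ n * R ^ n → (∀ i j, i < j → Rs i + Rs j < R) → Packs n k R Rs := by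
  set δ := (1 - θ) / 2 with hδdef
  set q := (1 + θ) / 2 with hqdef
  set c := (1 - θ) / 4 with hcdef
  have hδ : 0 < δ := by rw [hδdef]; linarith
  have hq0 : 0 < q := by rw [hqdef]; linarith
  have hq1 : q < 1 := by rw [hqdef]; linarith
  have hc0 : 0 < c := by rw [hcdef]; linarith
  have hθq : θ / q < 1 := by rw [div_lt_one hq0, hqdef]; linarith
  have hθδ : θ * (1 + δ) < 1 := by rw [hδdef]; nlinarith
  set C₁ := (1 + δ) / δ + 1 with hC₁def
  obtain ⟨j₀, hj₀⟩ := pow_unbounded_of_one_lt ((C₁ / (1 - q) + 1) / (2 * δ)) one_lt_two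
  obtain ⟨M₁, hM₁⟩ := pow_unbounded_of_one_lt ((2 : ℝ) ^ (j₀ + 3)) (show 1 < 1 + δ by linarith)
  obtain ⟨M₂, hM₂⟩ := exists_pow_lt_of_lt_one (pow_pos hc0 (j₀ + 3)) hθq
  obtain ⟨M₃, hM₃⟩ := exists_pow_lt_of_lt_one (show (0 : ℝ) < 1 / 4 by norm_num) hθδ
  refine ⟨3 + j₀ + (M₁ + M₂ + M₃), fun n hn k R Rs hR hpos hvol hpair => ?_⟩
  obtain ⟨m, rfl⟩ : ∃ m, n = 3 + j₀ + m := ⟨n - (3 + j₀), by omega⟩
  rcases Nat.eq_zero_or_pos k with rfl | hk
  · exact ⟨fun i => i.elim0, fun i => i.elim0, fun i => i.elim0⟩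
  have : Nonempty (Fin k) := ⟨⟨0, hk⟩⟩
  obtain ⟨i₀, hi₀⟩ := Finite.exists_max Rs
  set N := 3 + j₀ + m with hN
  have hθR : Rs i₀ < θ * R := by
    refine lt_of_pow_lt_pow_left₀ N (by positivity) ?_
    rw [mul_pow]
    exact lt_of_le_of_lt (single_le_sum (fun j _ => (pow_pos (hpos j) _).le) (mem_univ i₀)) hvol
  have hpair' : ∀ i, i ≠ i₀ → Rs i + Rs i₀ < R := fun i hi => by
    rcases lt_or_gt_of_ne hi with h | h
    · exact hpair _ _ h
    · linarith [hpair _ _ h]
  have hev : ∀ᶠ s in nhdsWithin (Rs i₀) (Set.Ioi (Rs i₀)),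
      s < (1 + θ) / 2 * R ∧ ∀ i, i ≠ i₀ → s + Rs i < R := by
    refine nhdsWithin_le_nhds ((eventually_lt_nhds (by nlinarith)).and
      (Filter.eventually_all.2 fun i => ?_))
    by_cases hi : i = i₀
    · exact Filter.Eventually.of_forall fun a h => absurd hi h
    · filter_upwards [eventually_lt_nhds (show Rs i₀ < R - Rs i by linarith [hpair' i hi])] with a ha _
      linarith
  obtain ⟨s, ⟨hsR', hsum'⟩, hs⟩ := (hev.and self_mem_nhdsWithin).exists
  have hs' : Rs i₀ < s := hs
  have hs0 : 0 < s := (hpos i₀).trans hs'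
  have hsR : s < R := by nlinarith
  set e := min (R - s) (R / 2) with hedef
  have he2 : e ≤ R / 2 := min_le_right _ _
  have hec : (1 - θ) / 2 * R ≤ e := le_min (by linarith) (by nlinarith)
  have he0 : 0 < e := lt_of_lt_of_le (mul_pos (by linarith) hR) hec
  have hsmall : ∀ i, i ≠ i₀ → Rs i < e := fun i hi =>
    lt_min (by linarith [hsum' i hi]) (by linarith [hpair' i hi, hi₀ i])
  have h2δ : 0 < 2 * (1 + δ) := by linarith
  set g := min (R / (2 * (1 + δ))) e with hgdef
  have hge : g ≤ e := min_le_right _ _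
  have hg_low : c * R ≤ g := le_min (by
    rw [le_div_iff₀ h2δ, hcdef, hδdef]; nlinarith) (by rw [hcdef]; linarith [mul_pos (show 0 < 1 - θ by linarith) hR])
  have hg0 : 0 < g := lt_of_lt_of_le (mul_pos hc0 hR) hg_low
  have hxg : 2 * (1 + δ) * g ≤ R := by
    have := min_le_left (R / (2 * (1 + δ))) e
    rw [le_div_iff₀ h2δ] at this
    linarith
  have hX : ∀ S : ℝ, S ≤ θ ^ N * R ^ N →
      C₁ * (g / (1 - q)) + S / q ^ N / (R ^ m * g ^ (j₀ + 2))
        ≤ 2 * g + 2 ^ j₀ * (R - 2 * g) := by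
    intro S hS
    have h1 : S / q ^ N / (R ^ m * g ^ (j₀ + 2)) ≤ g := by
      rw [div_le_iff₀ (by positivity), div_le_iff₀ (by positivity)]
      refine hS.trans ?_
      have h4 : θ ^ N ≤ q ^ N * c ^ (j₀ + 3) := by
        have : (θ / q) ^ N ≤ c ^ (j₀ + 3) :=
          (pow_le_pow_of_le_one (by positivity) hθq.le (show M₂ ≤ N by omega)).trans hM₂.le
        rw [div_pow, div_le_iff₀ (by positivity)] at this
        linarith
      have h5 : (c * R) ^ (j₀ + 3) ≤ g ^ (j₀ + 3) := pow_le_pow_left₀ (by positivity) hg_low _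
      calc θ ^ N * R ^ N ≤ q ^ N * c ^ (j₀ + 3) * R ^ N := by gcongr
        _ = q ^ N * (R ^ m * (c * R) ^ (j₀ + 3)) := by rw [hN]; ring
        _ ≤ q ^ N * (R ^ m * g ^ (j₀ + 3)) := by gcongr
        _ = _ := by ring
    rw [div_lt_iff₀ (by linarith)] at hj₀
    have h5 := mul_le_mul_of_nonneg_right hj₀.le hg0.le
    rw [add_mul, one_mul, div_mul_eq_mul_div] at h5
    have h2 := mul_le_mul_of_nonneg_left (show 2 * δ * g ≤ R - 2 * g by linarith)
      (pow_nonneg (zero_le_two (α := ℝ)) j₀)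
    rw [mul_div_assoc']
    linarith
  -- the three groups of balls
  let d : Fin N := ⟨0, by omega⟩
  let d' : Fin N := ⟨1, by omega⟩
  have hdd : d' ≠ d := by simp [d, d', Fin.ext_iff]
  set a₁ := Function.update (fun _ : Fin N => R) d e with ha₁
  have ha₁p : ∀ j, 0 < a₁ j := update_pos (fun _ => hR) d he0
  set b₁ := Function.update a₁ d' e with hb₁
  set b₂ := Function.update a₁ d' (R - e) with hb₂
  have hb₂g : ∀ j, g ≤ b₂ j := fun j => by
    by_cases h : j = d'
    · rw [hb₂, h, Function.update_self]; linarith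
    · rw [hb₂, Function.update_of_ne h, ha₁]
      by_cases h' : j = d
      · subst h'; simpa using hge
      · rw [Function.update_of_ne h']; linarith
  have hne2 : ∀ j : Fin N, 2 ≤ (j : ℕ) → j ≠ d' ∧ j ≠ d := fun j hj =>
    ⟨fun h => absurd (show (j : ℕ) = 1 from congrArg Fin.val h) (by omega),
      fun h => absurd (show (j : ℕ) = 0 from congrArg Fin.val h) (by omega)⟩
  have hb₂R : ∀ j : Fin N, 2 ≤ (j : ℕ) → b₂ j = R := fun j hj => by
    rw [hb₂, Function.update_of_ne (hne2 j hj).1, ha₁, Function.update_of_ne (hne2 j hj).2]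
  obtain ⟨B, hB, hF₂⟩ := fills_rest_two hδ hq0 hq1 hg0 hxg j₀ m b₂ hb₂g hb₂R
    (hM₁.le.trans (pow_le_pow_right₀ (by linarith) (by omega)))
    (fun i : {i // i ≠ i₀ ∧ Rs i < g} => Rs i) (fun i => hpos _) (fun i => i.2.2) (by
      simp only [div_pow, ← sum_div]
      refine hX _ (le_trans ?_ hvol.le)
      rw [← sum_subtype (univ.filter fun i => i ≠ i₀ ∧ Rs i < g) (by simp) fun i => Rs i ^ N]
      exact sum_le_sum_of_subset_of_nonneg (filter_subset _ _) fun i _ _ => (pow_pos (hpos i) _).le)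
  let l : List (Fin N) := List.ofFn fun i : Fin (1 + j₀ + m) => ⟨2 + i, by omega⟩
  have hl : ∀ {x}, x ∈ l ↔ 2 ≤ (x : ℕ) := by
    intro x
    simp only [l, List.mem_ofFn]
    constructor
    · rintro ⟨i, rfl⟩; simp
    · intro h; exact ⟨⟨x - 2, by omega⟩, by ext; simp; omega⟩
  have hF₁ := fills_halves he0 l b₁ (List.nodup_ofFn.2 fun i j h => by
      simp [Fin.ext_iff] at h; exact Fin.ext h)
    (fun j hj => by
      have := hl.1 hj
      rw [hb₁, Function.update_of_ne (hne2 j this).1, ha₁, Function.update_of_ne (hne2 j this).2]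
      linarith)
    fun j _ => by
      by_cases h : j = d'
      · rw [hb₁, h, Function.update_self]
      · rw [hb₁, Function.update_of_ne h, ha₁]
        by_cases h' : j = d
        · subst h'; simp
        · rw [Function.update_of_ne h']; linarith
  have hcard : Fintype.card {i // i ≠ i₀ ∧ g ≤ Rs i} ≤ 2 ^ l.length := by
    rcases isEmpty_or_nonempty {i // i ≠ i₀ ∧ g ≤ Rs i} with h | ⟨⟨i₁, hi₁, hgi⟩⟩
    · simp
    have hgeq : g = R / (2 * (1 + δ)) := by
      rcases min_choice (R / (2 * (1 + δ))) e with h | h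
      · rw [hgdef, h]
      · linarith [hsmall i₁ hi₁, h ▸ hgdef ▸ hgi]
    have h1 : (Fintype.card {i // i ≠ i₀ ∧ g ≤ Rs i} : ℝ) * g ^ N ≤ θ ^ N * R ^ N := by
      refine le_trans ?_ hvol.le
      calc (Fintype.card {i // i ≠ i₀ ∧ g ≤ Rs i} : ℝ) * g ^ N
          = ∑ _i : {i // i ≠ i₀ ∧ g ≤ Rs i}, g ^ N := by simp
        _ ≤ ∑ i : {i // i ≠ i₀ ∧ g ≤ Rs i}, Rs i ^ N :=
            sum_le_sum fun i _ => pow_le_pow_left₀ hg0.le i.2.2 _
        _ ≤ _ := by
            rw [← sum_subtype (univ.filter fun i => i ≠ i₀ ∧ g ≤ Rs i) (by simp)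
              fun i => Rs i ^ N]
            exact sum_le_sum_of_subset_of_nonneg (filter_subset _ _)
              fun i _ _ => (pow_pos (hpos i) _).le
    have h2 : (θ * (1 + δ)) ^ N ≤ 1 / 4 :=
      (pow_le_pow_of_le_one (by positivity) hθδ.le (show M₃ ≤ N by omega)).trans hM₃.le
    have e1 : θ ^ N * R ^ N = (θ * (1 + δ)) ^ N * 2 ^ N * g ^ N := by
      rw [hgeq, ← mul_pow, ← mul_pow, ← mul_pow]; congr 1; field_simp
    rw [e1] at h1
    have h3 : (Fintype.card {i // i ≠ i₀ ∧ g ≤ Rs i} : ℝ) ≤ ((2 ^ l.length : ℕ) : ℝ) := by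
      refine (le_of_mul_le_mul_right h1 (by positivity)).trans ?_
      have hlN : l.length + 2 = N := by simp [l, hN]; omega
      push_cast
      have h4 : (2 : ℝ) ^ N = 2 ^ l.length * 4 :=
        (congrArg ((2 : ℝ) ^ ·) hlN.symm).trans (by rw [pow_add]; norm_num)
      calc (θ * (1 + δ)) ^ N * 2 ^ N ≤ 1 / 4 * 2 ^ N := by gcongr
        _ = _ := by rw [h4]; ring
    exact_mod_cast h3
  have hlarge := hF₁.sub (e := fun i => Fin.castLE hcard (Fintype.equivFin _ i))
    ((Fin.castLE_injective hcard).comp (Fintype.equivFin _).injective)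
  have hrest : Fills (Function.update (fun _ : Fin N => R) d (R - s))
      (Sum.elim (fun _ : {i // i ≠ i₀ ∧ g ≤ Rs i} => fun _ => e) fun i => fun _ => B i) := by
    refine ((Fills.two (fills_cut ha₁p d' he0 (by
      rw [ha₁, Function.update_of_ne hdd]; linarith)) (hlarge.congr fun _ => rfl) ?_).mono ha₁p
      fun j => ?_).congr fun _ => rfl
    · rwa [show a₁ d' = R by rw [ha₁, Function.update_of_ne hdd], ← hb₂]
    · by_cases h : j = d
      · subst h; simp [ha₁, hedef]
      · simp [ha₁, h]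
  have hbig : Fills (Function.update (fun _ : Fin N => R) d s) fun _ : Unit => fun _ => s :=
    fills_incl (fun _ => hs0) fun j => by
      by_cases h : j = d
      · subst h; simp
      · rw [Function.update_of_ne h]; exact hsR.le
  have h := Fills.two (fills_cut (fun _ => hR) d hs0 hsR) hbig hrest
  let emb : Fin k → Unit ⊕ ({i // i ≠ i₀ ∧ g ≤ Rs i} ⊕ {i // i ≠ i₀ ∧ Rs i < g}) := fun i =>
    if hi : i = i₀ then Sum.inl () else
      if hg' : g ≤ Rs i then Sum.inr (Sum.inl ⟨i, hi, hg'⟩)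
      else Sum.inr (Sum.inr ⟨i, hi, not_le.1 hg'⟩)
  refine packs_of_fills hR
    (fun i => Sum.elim (fun _ => s) (Sum.elim (fun _ => e) B) (emb i)) hpos (fun i => ?_)
    ((h.sub (e := emb) ?_).congr fun i => ?_)
  · simp only [emb]
    split_ifs with h1 h2
    · simpa [h1] using hs'
    · exact hsmall i h1
    · exact hB ⟨i, h1, not_le.1 h2⟩
  · intro i j he
    simp only [emb] at he
    split_ifs at he with h1 h2 h3 h4
    all_goals first
      | exact h1.trans h2.symm
      | (exfalso; simp at he; done)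
      | simpa using he
  · simp only [Function.comp_apply]
    rcases emb i with _ | _ | _ <;> rfl

end Vale.Agent.P209
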