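import Mathlib
import Vale.Agent.P209.ExactPairs

/-!
Equal balls in ellipsoids with a bounded ratio of volume lost, in every large dimension.
-/

namespace Vale.Agent.P209

open Finset
open scoped Real

variable {n : ℕ}

/-- guaranteed weight of a chain state -/
noncomputable def wchain (δ C : ℝ) (L₀ s : ℕ) (e : ℝ) : ℝ :=
  δ * ((s : ℝ) - 1 - L₀) + if 2 * C ≤ 2 ^ s * e then 2 * e else 0

/-- guaranteed weight of a cell state -/
noncomputable def wcell (δ : ℝ) (L₀ s : ℕ) : ℝ := δ * ((s : ℝ) + 1 - L₀)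

theorem prod_map_pos {u : ℝ} (hu : 0 < u) (a : Fin n → ℝ) (ha : ∀ j, 0 < a j) (l : List (Fin n)) :
    0 < (l.map fun k => a k / u).prod :=
  List.prod_pos fun t ht => by
    obtain ⟨k, -, rfl⟩ := List.mem_map.1 ht
    exact div_pos (ha k) hu

/-- balls of size `u` with at least the given number -/
def Holds (u : ℝ) (a : Fin n → ℝ) (v : ℝ) : Prop :=
  ∃ N : ℕ, v ≤ N ∧ Fills a fun _ : Fin N => fun _ : Fin n => u

theorem holds_of_nonpos {u : ℝ} {a : Fin n → ℝ} {v : ℝ} (hv : v ≤ 0) : Holds u a v :=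
  ⟨0, by simpa using hv, fills_empty _ _⟩

theorem Holds.two {u : ℝ} {a b₁ b₂ : Fin n → ℝ} {v v₁ v₂ : ℝ}
    (h : Fills a fun q : Bool => if q then b₂ else b₁) (h₁ : Holds u b₁ v₁) (h₂ : Holds u b₂ v₂)
    (hv : v ≤ v₁ + v₂) : Holds u a v := by
  obtain ⟨N₁, hN₁, hF₁⟩ := h₁
  obtain ⟨N₂, hN₂, hF₂⟩ := h₂
  refine ⟨N₁ + N₂, by push_cast; linarith, ((Fills.two h hF₁ hF₂).sub (e := finSumFinEquiv.symm)
    finSumFinEquiv.symm.injective).congr fun i => ?_⟩
  simp only [Function.comp_apply]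
  cases finSumFinEquiv.symm i <;> rfl

theorem Holds.mono {u : ℝ} {a a' : Fin n → ℝ} {v v' : ℝ} (h : Holds u a v)
    (ha : ∀ j, 0 < a j) (haa : ∀ j, a j ≤ a' j) (hv : v' ≤ v) : Holds u a' v' := by
  obtain ⟨N, hN, hF⟩ := h
  exact ⟨N, hv.trans hN, hF.mono ha haa⟩

theorem wcell_succ {δ C : ℝ} {L₀ : ℕ} (hδ : 0 < δ) (hL₀ : 2 * C ≤ 2 ^ L₀ * δ) (s : ℕ) :
    2 * max (wcell δ L₀ (s + 1)) 0 ≤
      max (wcell δ L₀ s) 0 + max (wchain δ C L₀ s (2 * δ)) 0 := by
  rcases le_total (wcell δ L₀ (s + 1)) 0 with h | h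
  · rw [max_eq_right h]
    linarith [le_max_right (wcell δ L₀ s) 0, le_max_right (wchain δ C L₀ s (2 * δ)) 0]
  rw [max_eq_left h]
  have e : 2 * C ≤ 2 ^ s * (2 * δ) ∨ wcell δ L₀ (s + 1) = 0 := by
    rcases Nat.lt_or_ge (s + 1) L₀ with h2 | h2
    · refine Or.inr (le_antisymm ?_ h)
      rw [wcell]
      have h3 : (s : ℝ) + 2 ≤ L₀ := by exact_mod_cast h2
      push_cast
      exact mul_nonpos_of_nonneg_of_nonpos hδ.le (by linarith)
    · refine Or.inl (hL₀.trans ?_)
      rw [← mul_assoc, ← pow_succ]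
      exact mul_le_mul_of_nonneg_right (pow_le_pow_right₀ one_le_two h2) hδ.le
  rcases e with e | e
  · have : 2 * wcell δ L₀ (s + 1) = wcell δ L₀ s + wchain δ C L₀ s (2 * δ) := by
      simp only [wcell, wchain, if_pos e]; push_cast; ring
    linarith [le_max_left (wcell δ L₀ s) 0, le_max_left (wchain δ C L₀ s (2 * δ)) 0]
  · rw [e]
    linarith [le_max_right (wcell δ L₀ s) 0, le_max_right (wchain δ C L₀ s (2 * δ)) 0]

theorem wchain_succ {δ C : ℝ} {L₀ : ℕ} (s : ℕ) (e : ℝ) :
    2 * max (wchain δ C L₀ (s + 1) e) 0 ≤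
      max (wcell δ L₀ s) 0 + max (wchain δ C L₀ s (2 * e)) 0 := by
  have h : 2 * wchain δ C L₀ (s + 1) e = wcell δ L₀ s + wchain δ C L₀ s (2 * e) := by
    simp only [wcell, wchain, pow_succ, mul_assoc]
    push_cast
    split_ifs <;> ring
  rcases le_total (wchain δ C L₀ (s + 1) e) 0 with h1 | h1
  · rw [max_eq_right h1]
    linarith [le_max_right (wcell δ L₀ s) 0, le_max_right (wchain δ C L₀ s (2 * e)) 0]
  · rw [max_eq_left h1, h]
    exact add_le_add (le_max_left _ _) (le_max_left _ _)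

/-- the doubling tree -/
theorem tree {u δ C : ℝ} {L₀ : ℕ} (hu : 0 < u) (hδ : 0 < δ)
    (hL₀ : 2 * C ≤ 2 ^ L₀ * δ) (hL₁ : 1 ≤ L₀) (l : List (Fin n)) (hl : l.Nodup)
    (t : Fin n → ℝ) (ht : ∀ k ∈ l, u ≤ t k) (hP : 0 < (l.map fun k => t k / u).prod)
    (hc : cst (l.map fun k => t k / u) ≤ C) :
    ∀ (S : List (Fin n)) (L : Fin n) (a : Fin n → ℝ), S.Nodup → L ∉ S → L ∉ l →
      (∀ k ∈ S, k ∉ l) → (∀ j, 0 < a j) → (∀ k ∈ S, a k = (2 + δ) * u) → (∀ k ∈ l, a k = t k) →
      (∀ k, k ≠ L → k ∉ S → k ∉ l → a k = u) →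
      (a L = 2 * u → Holds u a
        ((l.map fun k => t k / u).prod * 2 ^ S.length * max (wcell δ L₀ S.length) 0 / 4)) ∧
      (∀ e, 0 ≤ e → a L = (2 + e) * u → Holds u a
        ((l.map fun k => t k / u).prod * 2 ^ S.length * max (wchain δ C L₀ S.length e) 0 / 4)) := by
  set P := (l.map fun k => t k / u).prod with hPdef
  have h1L : (1 : ℝ) ≤ L₀ := by exact_mod_cast hL₁
  intro S
  induction S with
  | nil =>
    intro L a _ _ hLl _ ha _ hge hrest
    simp only [List.length_nil, pow_zero, mul_one]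
    refine ⟨fun _ => holds_of_nonpos ?_, fun e he0 he => ?_⟩
    · rw [max_eq_right (by
        rw [wcell]; push_cast; exact mul_nonpos_of_nonneg_of_nonpos hδ.le (by linarith))]
      simp
    · have hneg : δ * ((0 : ℝ) - 1 - L₀) ≤ 0 :=
        mul_nonpos_of_nonneg_of_nonpos hδ.le (by linarith)
      by_cases hbig : 2 * C ≤ e
      · obtain ⟨N, hN, hF⟩ := absorb hu l L a hl hLl ha (fun k hk => by rw [hge k hk]; exact ht k hk)
          fun k hk hk' => hrest k hk (by simp) hk'
        refine ⟨N, le_trans ?_ hN, hF⟩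
        rw [List.map_congr_left (g := fun k => t k / u) fun k hk => by rw [hge k hk], ← hPdef, he,
          mul_div_cancel_right₀ _ hu.ne', mul_div_assoc]
        refine mul_le_mul_of_nonneg_left ?_ hP.le
        have h2 : max (wchain δ C L₀ 0 e) 0 ≤ 2 * e := by
          refine max_le ?_ (by linarith)
          rw [wchain, pow_zero, one_mul, if_pos hbig]; push_cast; linarith
        linarith
      · refine holds_of_nonpos ?_
        rw [max_eq_right (by rw [wchain, pow_zero, one_mul, if_neg hbig]; push_cast; linarith)]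
        simp
  | cons h S ih =>
    intro L a hnd hL hLl hSl ha hS hge hrest
    obtain ⟨hh, hnd'⟩ := List.nodup_cons.1 hnd
    simp only [List.mem_cons, not_or] at hL
    obtain ⟨hLh, hLS⟩ := hL
    have hhl : h ∉ l := hSl h List.mem_cons_self
    have hah : a h = (2 + δ) * u := hS h List.mem_cons_self
    have key : ∀ (L' : Fin n) (b : Fin n → ℝ), (L' = L ∨ L' = h) → (∀ j, 0 < b j) →
        (∀ k, k ≠ L → k ≠ h → b k = a k) → (∀ k, (k = L ∨ k = h) → k ≠ L' → b k = u) →
        (b L' = 2 * u → Holds u b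
          (P * 2 ^ S.length * max (wcell δ L₀ S.length) 0 / 4)) ∧
        (∀ e, 0 ≤ e → b L' = (2 + e) * u → Holds u b
          (P * 2 ^ S.length * max (wchain δ C L₀ S.length e) 0 / 4)) := by
      intro L' b hL' hb hbe hbu
      have h1 : L' ∉ S := by rcases hL' with rfl | rfl <;> assumption
      have h2 : L' ∉ l := by rcases hL' with rfl | rfl <;> assumption
      exact ih L' b hnd' h1 h2 (fun k hk => hSl k (List.mem_cons_of_mem _ hk)) hb
        (fun k hk => by
          rw [hbe k (fun e => hLS (e ▸ hk)) (fun e => hh (e ▸ hk))]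
          exact hS k (List.mem_cons_of_mem _ hk))
        (fun k hk => by
          rw [hbe k (fun e => hLl (e ▸ hk)) (fun e => hhl (e ▸ hk))]; exact hge k hk)
        (fun k hk hkS hkl => by
          by_cases hc' : k = L ∨ k = h
          · exact hbu k hc' hk
          · rw [not_or] at hc'
            rw [hbe k hc'.1 hc'.2]
            exact hrest k hc'.1 (by simp [hc'.2, hkS]) hkl)
    have hu' : ∀ (b : Fin n → ℝ) (i k : Fin n), (k = i) → Function.update b i u k = u :=
      fun b i k hk => by rw [hk, Function.update_self]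
    have h2u : 0 < 2 * u := by linarith
    have hP0 : 0 ≤ P * 2 ^ S.length := by positivity
    have hcomb : ∀ v v₁ v₂ : ℝ, 2 * v ≤ v₁ + v₂ → P * 2 ^ (h :: S).length * v / 4
        ≤ P * 2 ^ S.length * v₁ / 4 + P * 2 ^ S.length * v₂ / 4 := fun v v₁ v₂ hv => by
      have := mul_le_mul_of_nonneg_left hv hP0
      rw [List.length_cons, pow_succ]
      linarith
    refine ⟨fun hY => ?_, fun e he0 he => ?_⟩
    · have hsl := fills_slant ha (Ne.symm hLh) hu (show u < a h by rw [hah]; nlinarith)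
        (p := 2) two_pos (by rw [hY]; push_cast; ring)
      have hw : 0 < (a h - u) * ((2 : ℕ) : ℝ) := by rw [hah]; push_cast; nlinarith
      have k₁ := (key L (Function.update a h u) (Or.inl rfl) (update_pos ha h hu)
        (fun k _ hk => Function.update_of_ne hk _ _)
        (fun k hk hk' => hu' a h k (hk.resolve_left hk'))).1
        (by rw [Function.update_of_ne hLh, hY])
      have k₂ := (key h (Function.update (Function.update a h ((a h - u) * (2 : ℕ))) L u)
        (Or.inr rfl) (update_pos (update_pos ha h hw) L hu)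
        (fun k hk hk' => by rw [Function.update_of_ne hk, Function.update_of_ne hk'])
        (fun k hk hk' => hu' _ L k (hk.resolve_right hk'))).2 (2 * δ) (by linarith)
        (by
          rw [Function.update_of_ne (Ne.symm hLh), Function.update_self, hah]
          push_cast; ring)
      exact Holds.two hsl k₁ k₂ (hcomb _ _ _ (wcell_succ hδ hL₀ _))
    · set a₀ := Function.update a h (2 * u) with ha₀
      have hpos₀ : ∀ j, 0 < a₀ j := update_pos ha h h2u
      have hle₀ : ∀ j, a₀ j ≤ a j := fun j => by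
        by_cases hj : j = h
        · subst hj; rw [ha₀, Function.update_self, hah]; nlinarith
        · rw [ha₀, Function.update_of_ne hj]
      have hL0 : a₀ L = (2 + e) * u := by rw [ha₀, Function.update_of_ne hLh, he]
      have hsl := fills_slant hpos₀ hLh hu (show u < a₀ L by rw [hL0]; nlinarith)
        (p := 2) two_pos (by rw [ha₀, Function.update_self]; push_cast; ring)
      have hw : 0 < (a₀ L - u) * ((2 : ℕ) : ℝ) := by rw [hL0]; push_cast; nlinarith
      have k₁ := (key h (Function.update a₀ L u) (Or.inr rfl) (update_pos hpos₀ L hu)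
        (fun k hk hk' => by rw [Function.update_of_ne hk, ha₀, Function.update_of_ne hk'])
        (fun k hk hk' => hu' a₀ L k (hk.resolve_right hk'))).1
        (by rw [Function.update_of_ne (Ne.symm hLh), ha₀, Function.update_self])
      have k₂ := (key L (Function.update (Function.update a₀ L ((a₀ L - u) * (2 : ℕ))) h u)
        (Or.inl rfl) (update_pos (update_pos hpos₀ L hw) h hu)
        (fun k hk hk' => by
          rw [Function.update_of_ne hk', Function.update_of_ne hk, ha₀, Function.update_of_ne hk'])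
        (fun k hk hk' => hu' _ h k (hk.resolve_left hk'))).2 (2 * e) (by linarith)
        (by
          rw [Function.update_of_ne hLh, Function.update_self, hL0]
          push_cast; ring)
      exact (Holds.two hsl k₁ k₂ (hcomb _ _ _ (wchain_succ _ _))).mono hpos₀ hle₀ le_rfl

theorem eventually_sparse : ∃ n₀ : ℕ, ∀ n ≥ n₀, ∀ k : ℕ,
    (2 : ℝ) ^ k ≤ 1024 * (n : ℝ) ^ 2 → 8 * (k + 8) ^ 2 ≤ n := by
  have h := (tendsto_pow_const_div_const_pow_of_one_lt 4 (one_lt_two (α := ℝ))).eventually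
    (eventually_lt_nhds (show (0 : ℝ) < 1 / 2 ^ 24 by positivity))
  obtain ⟨Y, hY⟩ := Filter.eventually_atTop.1 h
  refine ⟨8 * (Y + 8) ^ 2, fun n hn k hk => ?_⟩
  by_contra hlt
  push Not at hlt
  rcases Nat.lt_or_ge (k + 8) Y with hkY | hkY
  · have : (k + 8) ^ 2 ≤ (Y + 8) ^ 2 := Nat.pow_le_pow_left (by omega) 2
    omega
  · have h1 := hY (k + 8) hkY
    rw [div_lt_div_iff₀ (by positivity) (by positivity), one_mul] at h1
    have h2 : (n : ℝ) ≤ 8 * ((k + 8 : ℕ) : ℝ) ^ 2 := by exact_mod_cast hlt.le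
    have h3 : (2 : ℝ) ^ (k + 8) ≤ 2 ^ 24 * ((k + 8 : ℕ) : ℝ) ^ 4 := by
      calc (2 : ℝ) ^ (k + 8) = 2 ^ k * 2 ^ 8 := pow_add _ _ _
        _ ≤ 1024 * (n : ℝ) ^ 2 * 2 ^ 8 := by gcongr
        _ ≤ 1024 * (8 * ((k + 8 : ℕ) : ℝ) ^ 2) ^ 2 * 2 ^ 8 := by gcongr
        _ = 2 ^ 24 * ((k + 8 : ℕ) : ℝ) ^ 4 := by ring
    linarith

theorem split_long (K : Finset (Fin n)) (s : ℕ) (hs : K.card + s + 1 ≤ n) :
    ∃ (L : Fin n) (S M : List (Fin n)), (L :: (S ++ (M ++ K.toList))).Nodup ∧ S.length = s ∧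
      K.card + s + 1 + M.length = n ∧ L ∉ K ∧ (∀ k ∈ S, k ∉ K) ∧ (∀ k ∈ M, k ∉ K) ∧
      ∀ k, k = L ∨ k ∈ S ∨ k ∈ M ∨ k ∈ K.toList := by
  set F := Kᶜ.toList with hF
  have hlen : F.length = n - K.card := by rw [hF, length_toList, card_compl, Fintype.card_fin]
  rcases hFe : F with _ | ⟨L, T⟩
  · rw [hFe] at hlen; simp at hlen; omega
  have hnd : (L :: T).Nodup := hFe ▸ Kᶜ.nodup_toList
  have hmem : ∀ k, k ∈ L :: T ↔ k ∉ K := fun k => by rw [← hFe, hF, mem_toList, mem_compl]
  rw [hFe, List.length_cons] at hlen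
  refine ⟨L, T.take s, T.drop s, ?_, ?_, ?_, (hmem L).1 List.mem_cons_self, fun k hk => ?_,
    fun k hk => ?_, fun k => ?_⟩
  · rw [← List.append_assoc, List.take_append_drop, ← List.cons_append, List.nodup_append]
    exact ⟨hnd, K.nodup_toList, fun x hx y hy e =>
      (hmem x).1 hx (e ▸ mem_toList.1 hy)⟩
  · rw [List.length_take]; omega
  · rw [List.length_drop]; omega
  · exact (hmem k).1 (List.mem_cons_of_mem _ (List.mem_of_mem_take hk))
  · exact (hmem k).1 (List.mem_cons_of_mem _ (List.mem_of_mem_drop hk))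
  · by_cases hk : k ∈ K
    · exact Or.inr (Or.inr (Or.inr (mem_toList.2 hk)))
    · rcases List.mem_cons.1 ((hmem k).2 hk) with h | h
      · exact Or.inl h
      · rw [← List.take_append_drop s T, List.mem_append] at h
        exact Or.inr (h.imp id Or.inl)

theorem prod_all (a : Fin n → ℝ) {L : Fin n} {S M K : List (Fin n)}
    (hnd : (L :: (S ++ (M ++ K))).Nodup) (hcov : ∀ k, k = L ∨ k ∈ S ∨ k ∈ M ∨ k ∈ K) :
    ∏ j, a j = a L * ((S.map a).prod * ((M.map a).prod * (K.map a).prod)) := by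
  have e : univ = (L :: (S ++ (M ++ K))).toFinset := (eq_univ_of_forall fun k => by
    simpa [List.mem_append] using hcov k).symm
  rw [e, List.prod_toFinset _ hnd]
  simp [List.map_append, List.prod_append]

theorem prod_map_le (a : Fin n → ℝ) {B : ℝ} : ∀ (l : List (Fin n)),
    (∀ k ∈ l, 0 ≤ a k ∧ a k ≤ B) → 0 ≤ (l.map a).prod ∧ (l.map a).prod ≤ B ^ l.length
  | [], _ => by simp
  | x :: l, h => by
    obtain ⟨h1, h2⟩ := prod_map_le a l fun k hk => h k (List.mem_cons_of_mem _ hk)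
    obtain ⟨h3, h4⟩ := h x List.mem_cons_self
    simp only [List.map_cons, List.prod_cons, List.length_cons, pow_succ']
    exact ⟨mul_nonneg h3 h1, mul_le_mul h4 h2 h1 (h3.trans h4)⟩

/-- equal balls when every long axis is at least three radii -/
theorem equal_far : ∃ c : ℝ, 0 < c ∧ ∃ n₀ : ℕ, ∀ n ≥ n₀, ∀ (u : ℝ) (a : Fin n → ℝ)
    (K : Finset (Fin n)), 0 < u → (2 : ℝ) ^ K.card ≤ 1024 * (n : ℝ) ^ 2 →
    (∀ j ∈ K, u ≤ a j ∧ a j ≤ 16 * u) → (∀ j ∉ K, 3 * u ≤ a j ∧ a j ≤ 16 * u) →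
    ∃ N : ℕ, c * ∏ j, a j / u ≤ N ∧ Fills a fun _ : Fin N => fun _ : Fin n => u := by
  obtain ⟨n₀, hn₀⟩ := eventually_sparse
  refine ⟨1 / 16 ^ 4, by positivity, n₀, fun n hn u a K hu hK hKa hLa => ?_⟩
  have hk := hn₀ n hn _ hK
  have hk' : 8 * K.card + 64 ≤ n := by nlinarith
  obtain ⟨L, S, M, hnd, hSl, hMl, hLK, hSK, hMK, hcov⟩ := split_long K 3 (by omega)
  obtain ⟨hLn, hnd'⟩ := List.nodup_cons.1 hnd
  obtain ⟨hSnd, hlnd, hdisj⟩ := List.nodup_append.1 hnd'
  simp only [List.mem_append, not_or] at hLn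
  have ha : ∀ j, 0 < a j := fun j => by
    by_cases h : j ∈ K
    · linarith [(hKa j h).1]
    · linarith [(hLa j h).1]
  obtain ⟨b, hb1, hb2, hb3, hb4, hb5⟩ := seed hu S L a hSnd hLn.1 ha
    (fun k hk => by linarith [(hLa k (hSK k hk)).1]) (by linarith [(hLa L hLK).1])
  set l := M ++ K.toList
  have hbl : ∀ k ∈ l, b k = a k := fun k hk =>
    hb2 k (fun e => hdisj k e k hk rfl) fun e => by
      subst e
      rcases List.mem_append.1 hk with h | h
      · exact hLn.2.1 h
      · exact hLn.2.2 h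
  obtain ⟨N, hN, hF⟩ := absorb hu l L b hlnd
    (fun e => (List.mem_append.1 e).elim hLn.2.1 hLn.2.2) hb4
    (fun k hk => by
      rw [hbl k hk]
      rcases List.mem_append.1 hk with h | h
      · linarith [(hLa k (hMK k h)).1]
      · exact (hKa k (mem_toList.1 h)).1)
    fun k hk hk' => by
      rcases hcov k with h | h | h | h
      · exact absurd h hk
      · exact hb1 k h
      · exact absurd (List.mem_append_left _ h) hk'
      · exact absurd (List.mem_append_right _ h) hk'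
  refine ⟨N, le_trans ?_ hN, hb5.chain hF⟩
  have hmap : (l.map fun k => b k / u) = l.map fun k => a k / u :=
    List.map_congr_left fun k hk => by rw [hbl k hk]
  rw [hmap]
  have hP := prod_map_pos hu a ha l
  have hsh : ∀ t ∈ K.toList.map (fun k => a k / u), 1 ≤ t := fun t ht => by
    obtain ⟨k, hk, rfl⟩ := List.mem_map.1 ht
    rw [one_le_div hu]; exact (hKa k (mem_toList.1 hk)).1
  have hC : cst (l.map fun k => a k / u) ≤ 4 := by
    rw [List.map_append]
    refine (cst_append_le (δ := 1 / 2) (by norm_num) _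
      (fun t ht => lt_of_lt_of_le one_pos (hsh t ht)) _ fun t ht => ?_).trans ?_
    · obtain ⟨k, hk, rfl⟩ := List.mem_map.1 ht
      rw [le_div_iff₀ hu]; linarith [(hLa k (hMK k hk)).1]
    · have h1 := cst_le_two_pow _ hsh
      rw [List.length_map, length_toList] at h1
      have h2 : (2 : ℝ) ^ (K.card + 1) ≤ (1 + 1 / 2 : ℝ) ^ M.length := by
        calc (2 : ℝ) ^ (K.card + 1) ≤ ((1 + 1 / 2 : ℝ) ^ 2) ^ (K.card + 1) := by gcongr; norm_num
          _ = (1 + 1 / 2 : ℝ) ^ (2 * (K.card + 1)) := (pow_mul _ _ _).symm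
          _ ≤ _ := pow_le_pow_right₀ (by norm_num) (by omega)
      rw [List.length_map]
      have h3 : cst (K.toList.map fun k => a k / u) / (1 + 1 / 2 : ℝ) ^ M.length ≤ 1 := by
        rw [div_le_one (by positivity)]; linarith
      have h4 : ((1 : ℝ) + 1 / 2) / (1 / 2) = 3 := by norm_num
      linarith
  have hbL : 10 ≤ b L / u := by
    rw [le_div_iff₀ hu]
    rw [hSl] at hb3
    linarith [(hLa L hLK).1]
  have hprod : ∏ j, a j / u ≤ 16 ^ 4 * (l.map fun k => a k / u).prod := by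
    rw [prod_all (fun j => a j / u) hnd hcov, List.map_append, List.prod_append, ← mul_assoc]
    refine mul_le_mul_of_nonneg_right ?_ (mul_pos (prod_map_pos hu a ha M)
      (prod_map_pos hu a ha _)).le
    have hS3 := prod_map_le (fun j => a j / u) (B := 16) S fun k hk => ⟨(div_pos (ha k) hu).le,
      by rw [div_le_iff₀ hu]; exact (hLa k (hSK k hk)).2⟩
    rw [hSl] at hS3
    have hL16 : a L / u ≤ 16 := by rw [div_le_iff₀ hu]; exact (hLa L hLK).2
    calc a L / u * (S.map fun j => a j / u).prod ≤ 16 * 16 ^ 3 :=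
          mul_le_mul hL16 hS3.2 hS3.1 (by norm_num)
      _ = 16 ^ 4 := by norm_num
  calc 1 / 16 ^ 4 * ∏ j, a j / u ≤ 1 / 16 ^ 4 * (16 ^ 4 * (l.map fun k => a k / u).prod) :=
        mul_le_mul_of_nonneg_left hprod (by positivity)
    _ = (l.map fun k => a k / u).prod * 1 := by ring
    _ ≤ _ := by gcongr; linarith

theorem two_mul_one_add_pow_le {d : ℝ} (hd : 0 < d) {k m : ℕ} (hk : 1 ≤ d * k)
    (hm : k * (k + 1) ≤ m) : (2 : ℝ) ^ (k + 1) ≤ (1 + d) ^ m := by
  have h1 : (2 : ℝ) ≤ (1 + d) ^ k :=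
    le_trans (by linarith) (one_add_mul_le_pow (by linarith) k)
  calc (2 : ℝ) ^ (k + 1) ≤ ((1 + d) ^ k) ^ (k + 1) := by gcongr
    _ = (1 + d) ^ (k * (k + 1)) := (pow_mul _ _ _).symm
    _ ≤ _ := pow_le_pow_right₀ (by linarith) hm

/-- equal balls close to the two-ball limit: few doublings are needed when `n (x - 2)` is small -/
theorem near_grid {u R : ℝ} {a : Fin n → ℝ} {K : Finset (Fin n)} (hu : 0 < u) (huR : 2 * u ≤ R)
    (hδ : (n : ℝ) * (R / u - 2) ≤ 64) (hKa : ∀ j ∈ K, u ≤ a j ∧ 2 * a j ≤ R)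
    (hLa : ∀ j ∉ K, a j = R) :
    ∃ N : ℕ, Real.exp (-32) * ∏ j, a j / u ≤ N ∧
      Fills a fun _ : Fin N => fun _ : Fin n => u := by
  set d := R / u / 2 - 1 with hd
  have hd0 : 0 ≤ d := by
    have : 2 ≤ R / u := by rw [le_div_iff₀ hu]; exact huR
    rw [hd]; linarith
  have hnd32 : (n : ℝ) * d ≤ 32 := by rw [hd]; linarith
  have hexp : (1 + d) ^ n ≤ Real.exp 32 := by
    calc (1 + d) ^ n ≤ (Real.exp d) ^ n := by gcongr; linarith [Real.add_one_le_exp d]
      _ = Real.exp ((n : ℝ) * d) := (Real.exp_nat_mul d n).symm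
      _ ≤ _ := Real.exp_le_exp.2 hnd32
  refine ⟨2 ^ Kᶜ.toList.length, ?_, fills_halves hu Kᶜ.toList a Kᶜ.nodup_toList
    (fun k hk => by
      rw [mem_toList, mem_compl] at hk
      rw [hLa k hk]; exact huR)
    fun k hk => by
      rw [mem_toList, mem_compl, not_not] at hk
      exact (hKa k hk).1⟩
  rw [length_toList]
  have h1 : ∏ j, a j / u ≤ (1 + d) ^ n * 2 ^ Kᶜ.card := by
    calc ∏ j, a j / u ≤ ∏ j, (1 + d) * (if j ∈ K then 1 else 2) := by
          refine prod_le_prod (fun j _ => ?_) fun j _ => ?_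
          · by_cases h : j ∈ K
            · exact (div_pos (lt_of_lt_of_le hu (hKa j h).1) hu).le
            · rw [hLa j h]; exact div_nonneg (by linarith) hu.le
          · by_cases h : j ∈ K
            · rw [if_pos h, mul_one, div_le_iff₀ hu]
              have : R = R / u * u := (div_mul_cancel₀ R hu.ne').symm
              nlinarith [(hKa j h).2]
            · rw [if_neg h, hLa j h, hd]; linarith
      _ = (1 + d) ^ n * 2 ^ Kᶜ.card := by
          rw [prod_mul_distrib, prod_const, card_univ, Fintype.card_fin, prod_ite, prod_const,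
            prod_const, one_pow, one_mul]
          congr 2
          congr 1
          ext j; simp
  push_cast
  rw [Real.exp_neg, inv_mul_le_iff₀ (Real.exp_pos _)]
  exact h1.trans (by gcongr)

theorem seed_length {δ : ℝ} (hδ : 0 < δ) (hδ6 : δ ≤ 6) :
    ∃ L₀ s : ℕ, 1 ≤ L₀ ∧ 2 * (2 / δ + 2) ≤ 2 ^ L₀ * δ ∧ 1 ≤ δ * ((s : ℝ) + 1 - L₀) ∧
      δ * s ≤ 41 ∧ (s : ℝ) ≤ 5 / δ + 6 := by
  refine ⟨⌈4 / δ⌉₊ + 4, ⌈4 / δ⌉₊ + 4 + ⌈1 / δ⌉₊, by omega, ?_, ?_, ?_, ?_⟩
  · set L := ⌈4 / δ⌉₊ + 4 with hL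
    have h1 : (L : ℝ) ^ 2 ≤ 2 ^ L := by
      have : L ^ 2 ≤ 2 ^ L := by
        clear_value L
        have h4 : 4 ≤ L := by omega
        clear hL
        induction L, h4 using Nat.le_induction with
        | base => norm_num
        | succ m hm ih => rw [pow_succ 2 m]; nlinarith
      exact_mod_cast this
    have h2 : 4 / δ + 4 ≤ (L : ℝ) := by rw [hL]; push_cast; linarith [Nat.le_ceil (4 / δ)]
    have h3 : 4 + 4 * δ ≤ (L : ℝ) * δ := by
      calc 4 + 4 * δ = (4 / δ + 4) * δ := by field_simp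
        _ ≤ _ := by gcongr
    have h4 : (4 + 4 * δ) ≤ ((L : ℝ) * δ) ^ 2 := by nlinarith
    have h5 : 2 * (2 / δ + 2) = (4 + 4 * δ) / δ := by field_simp; ring
    rw [h5, div_le_iff₀ hδ]
    calc 4 + 4 * δ ≤ (L : ℝ) ^ 2 * δ ^ 2 := by rw [← mul_pow]; exact h4
      _ ≤ 2 ^ L * δ ^ 2 := by gcongr
      _ = _ := by ring
  · push_cast
    calc 1 = δ * (1 / δ) := by field_simp
      _ ≤ _ := by gcongr; linarith [Nat.le_ceil (1 / δ)]
  all_goals
    have h1 := Nat.ceil_lt_add_one (div_pos (show (0 : ℝ) < 4 by norm_num) hδ).le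
    have h2 := Nat.ceil_lt_add_one (one_div_pos.2 hδ).le
    push_cast
  · calc δ * (↑⌈4 / δ⌉₊ + 4 + ↑⌈1 / δ⌉₊) ≤ δ * (4 / δ + 1 + 4 + (1 / δ + 1)) := by gcongr
      _ = 5 + 6 * δ := by field_simp; ring
      _ ≤ 41 := by linarith
  · have h3 : 5 / δ = 4 / δ + 1 / δ := by rw [← add_div]; norm_num
    linarith

theorem short_round {u R : ℝ} {a : Fin n → ℝ} {K : Finset (Fin n)} (hu : 0 < u) {δ : ℝ}
    (hR : R = (2 + δ) * u) (hδ : 0 < δ) (hδk : δ * K.card ≤ 2)
    (hKa : ∀ j ∈ K, u ≤ a j ∧ 2 * a j ≤ R) :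
    0 ≤ (K.toList.map fun k => a k / u).prod ∧
      (K.toList.map fun k => a k / u).prod ≤ Real.exp 1 := by
  have h := prod_map_le (fun j => a j / u) (B := 1 + δ / 2) K.toList fun k hk => by
    rw [mem_toList] at hk
    refine ⟨(div_pos (lt_of_lt_of_le hu (hKa k hk).1) hu).le, ?_⟩
    rw [div_le_iff₀ hu]; nlinarith [(hKa k hk).2]
  refine ⟨h.1, h.2.trans ?_⟩
  rw [length_toList]
  calc (1 + δ / 2) ^ K.card ≤ (Real.exp (δ / 2)) ^ K.card := by
        gcongr; linarith [Real.add_one_le_exp (δ / 2)]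
    _ = Real.exp ((K.card : ℝ) * (δ / 2)) := (Real.exp_nat_mul _ _).symm
    _ ≤ _ := Real.exp_le_exp.2 (by linarith)

/-- equal balls in an ellipsoid whose long axes are all `R` -/
theorem equal_near : ∃ c : ℝ, 0 < c ∧ ∃ n₀ : ℕ, ∀ n ≥ n₀, ∀ (u R : ℝ) (a : Fin n → ℝ)
    (K : Finset (Fin n)), 0 < u → 2 * u ≤ R → R ≤ 8 * u →
    (2 : ℝ) ^ K.card ≤ 1024 * (n : ℝ) ^ 2 → (∀ j ∈ K, u ≤ a j ∧ 2 * a j ≤ R) →
    (∀ j ∉ K, a j = R) →
    ∃ N : ℕ, c * ∏ j, a j / u ≤ N ∧ Fills a fun _ : Fin N => fun _ : Fin n => u := by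
  obtain ⟨n₀, hn₀⟩ := eventually_sparse
  refine ⟨Real.exp (-32) / 32, by positivity, n₀ + 512, fun n hn u R a K hu huR hR8 hK hKa hLa => ?_⟩
  have ha : ∀ j, 0 < a j := fun j => by
    by_cases h : j ∈ K
    · linarith [(hKa j h).1]
    · rw [hLa j h]; linarith
  rcases le_or_gt ((n : ℝ) * (R / u - 2)) 64 with hsm | hbig
  · obtain ⟨N, hN, hF⟩ := near_grid hu huR hsm hKa hLa
    refine ⟨N, le_trans ?_ hN, hF⟩
    refine mul_le_mul_of_nonneg_right ?_ (prod_nonneg fun j _ => (div_pos (ha j) hu).le)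
    linarith [Real.exp_pos (-32)]
  set δ := R / u - 2 with hδdef
  have hn0 : (0 : ℝ) < n := by exact_mod_cast (by omega : 0 < n)
  have hδ : 0 < δ := (mul_pos_iff_of_pos_left hn0).1 (by linarith)
  have hR : R = (2 + δ) * u := by rw [hδdef]; field_simp; ring
  have hδ6 : δ ≤ 6 := by
    have : R / u ≤ 8 := by rw [div_le_iff₀ hu]; exact hR8
    rw [hδdef]; linarith
  obtain ⟨L₀, s, hL1, hL₀, hgain, hδs, hsb⟩ := seed_length hδ hδ6
  have hk := hn₀ n (by omega) _ hK
  have hk' : 8 * K.card + 64 ≤ n := by nlinarith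
  have hs4 : 4 * s ≤ n := by
    suffices (4 * s : ℝ) ≤ n by exact_mod_cast this
    have h1 : 1 / δ ≤ n / 64 := by rw [div_le_div_iff₀ hδ (by norm_num)]; linarith
    have h2 : 5 / δ = 5 * (1 / δ) := by ring
    have h3 : (512 : ℝ) ≤ n := by exact_mod_cast (by omega : 512 ≤ n)
    linarith
  obtain ⟨L, S, M, hnd, hSl, hMl, hLK, hSK, hMK, hcov⟩ := split_long K s (by omega)
  obtain ⟨hLn, hnd'⟩ := List.nodup_cons.1 hnd
  obtain ⟨hSnd, hMKnd, hdisj⟩ := List.nodup_append.1 hnd'
  obtain ⟨hMnd, -, -⟩ := List.nodup_append.1 hMKnd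
  simp only [List.mem_append, not_or] at hLn
  have hMval : ∀ t ∈ M.map (fun k => a k / u), 2 * (1 + δ / 2) ≤ t := fun t ht => by
    obtain ⟨k, hk, rfl⟩ := List.mem_map.1 ht
    rw [hLa k (hMK k hk), hR, le_div_iff₀ hu]
    linarith
  have hC2 : (1 + δ / 2) / (δ / 2) + 1 = 2 / δ + 2 := by field_simp; ring
  obtain ⟨l, a', hlsub, hlnd, hle, hout, hge, hl_eq, hcst, hP⟩ : ∃ (l : List (Fin n))
      (a' : Fin n → ℝ), (∀ k ∈ l, k ∈ M ++ K.toList) ∧ l.Nodup ∧
      (∀ j, a' j ≤ a j) ∧ (∀ k ∈ K, k ∉ l → a' k = u) ∧ (∀ k ∈ l, u ≤ a' k) ∧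
      (∀ k, k ∈ M ∨ k ∉ K → a' k = a k ∧ (k ∈ M → k ∈ l)) ∧
      cst (l.map fun k => a' k / u) ≤ 2 / δ + 2 ∧
      (M.map fun k => a k / u).prod * (K.toList.map fun k => a k / u).prod
        ≤ Real.exp 1 * (l.map fun k => a' k / u).prod := by
    rcases le_or_gt (δ * (K.card : ℝ)) 2 with hsmall | hlarge
    · refine ⟨M, fun j => if j ∈ K then u else a j, fun k hk => List.mem_append_left _ hk, hMnd,
        fun j => ?_, fun k hk _ => if_pos hk, fun k hk => ?_, fun k hk => ⟨?_, id⟩, ?_, ?_⟩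
      · simp only
        split_ifs with h
        · exact (hKa j h).1
        · exact le_rfl
      · simp only [if_neg (hMK k hk), hLa k (hMK k hk)]; linarith
      · exact if_neg (hk.elim (hMK k) id)
      · rw [List.map_congr_left (g := fun k => a k / u) fun k hk => by simp only [if_neg (hMK k hk)]]
        have h := cst_append_le (δ := δ / 2) (by linarith) [] (by simp) _ hMval
        rw [List.append_nil] at h
        refine h.trans ?_
        rw [← hC2, List.length_map]
        have : cst [] / (1 + δ / 2) ^ M.length ≤ 1 := by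
          rw [cst, div_le_one (by positivity)]; exact one_le_pow₀ (by linarith)
        linarith
      · rw [List.map_congr_left (l := M) (f := fun k => (fun j => if j ∈ K then u else a j) k / u)
          (g := fun k => a k / u) fun k hk => by simp only [if_neg (hMK k hk)],
          mul_comm (Real.exp 1)]
        exact mul_le_mul_of_nonneg_left (short_round hu hR hδ hsmall hKa).2
          (prod_map_pos hu a ha M).le
    · refine ⟨M ++ K.toList, a, fun k => id, hMKnd, fun _ => le_rfl, fun k hk hk' => absurd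
        (List.mem_append_right _ (mem_toList.2 hk)) hk', fun k hk => ?_,
        fun k _ => ⟨rfl, List.mem_append_left _⟩, ?_, ?_⟩
      · rcases List.mem_append.1 hk with h | h
        · rw [hLa k (hMK k h)]; linarith
        · exact (hKa k (mem_toList.1 h)).1
      · rw [List.map_append]
        have hsh : ∀ t ∈ K.toList.map (fun k => a k / u), 1 ≤ t := fun t ht => by
          obtain ⟨k, hk, rfl⟩ := List.mem_map.1 ht
          rw [one_le_div hu]; exact (hKa k (mem_toList.1 hk)).1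
        refine (cst_append_le (δ := δ / 2) (by linarith) _
          (fun t ht => lt_of_lt_of_le one_pos (hsh t ht)) _ hMval).trans ?_
        have h1 := cst_le_two_pow _ hsh
        rw [List.length_map, length_toList] at h1
        have hm : K.card * (K.card + 1) ≤ M.length := by nlinarith
        have h2 := two_mul_one_add_pow_le (d := δ / 2) (by linarith) (by linarith) hm
        rw [← hC2, List.length_map]
        have : cst (K.toList.map fun k => a k / u) / (1 + δ / 2) ^ M.length ≤ 1 := by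
          rw [div_le_one (by positivity)]; linarith
        linarith
      · rw [List.map_append, List.prod_append]
        refine le_mul_of_one_le_left (mul_pos (prod_map_pos hu a ha M)
          (prod_map_pos hu a ha _)).le ?_
        linarith [Real.add_one_le_exp 1]
  set a'' := Function.update a' L (2 * u) with ha''
  have hLl : L ∉ l := fun e => by
    rcases List.mem_append.1 (hlsub L e) with h | h
    · exact hLn.2.1 h
    · exact hLn.2.2 h
  have hS' : ∀ k ∈ S, k ≠ L ∧ k ∉ l := fun k hk =>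
    ⟨fun e => hLn.1 (e ▸ hk), fun e => hdisj k hk k (hlsub k e) rfl⟩
  have hpos'' : ∀ j, 0 < a'' j := by
    refine fun j => ?_
    by_cases hj : j = L
    · rw [ha'', hj, Function.update_self]; linarith
    · rw [ha'', Function.update_of_ne hj]
      by_cases hjl : j ∈ l
      · linarith [hge j hjl]
      · by_cases hjK : j ∈ K
        · rw [hout j hjK hjl]; exact hu
        · rw [(hl_eq j (Or.inr hjK)).1]; exact ha j
  have hlmap : (l.map fun k => a'' k / u) = l.map fun k => a' k / u :=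
    List.map_congr_left fun k hk => by
      rw [ha'', Function.update_of_ne (fun e : k = L => hLl (e ▸ hk))]
  obtain ⟨hcell, -⟩ := tree (δ := δ) (L₀ := L₀) hu hδ hL₀ hL1 l hlnd a''
    (fun k hk => by rw [ha'', Function.update_of_ne (fun e : k = L => hLl (e ▸ hk))]; exact hge k hk)
    (prod_map_pos hu a'' hpos'' l) (by rw [hlmap]; exact hcst) S L a'' hSnd hLn.1 hLl
    (fun k hk => (hS' k hk).2) hpos''
    (fun k hk => by
      rw [ha'', Function.update_of_ne (hS' k hk).1, (hl_eq k (Or.inr (hSK k hk))).1,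
        hLa k (hSK k hk), hR])
    (fun k _ => rfl)
    (fun k hk hkS hkl => by
      rw [ha'', Function.update_of_ne hk]
      rcases hcov k with h | h | h | h
      · exact absurd h hk
      · exact absurd h hkS
      · exact absurd ((hl_eq k (Or.inl h)).2 h) hkl
      · exact hout k (mem_toList.1 h) hkl)
  have hle'' : ∀ j, a'' j ≤ a j := fun j => by
    by_cases hj : j = L
    · rw [ha'', hj, Function.update_self, hLa L hLK]; exact huR
    · rw [ha'', Function.update_of_ne hj]; exact hle j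
  obtain ⟨N, hN, hF⟩ := (hcell (Function.update_self _ _ _)).mono hpos'' hle'' le_rfl
  refine ⟨N, le_trans ?_ hN, hF⟩
  rw [hlmap, prod_all (fun j => a j / u) hnd hcov]
  set P := (l.map fun k => a' k / u).prod with hPdef
  have hP0 : 0 < P := by rw [hPdef, ← hlmap]; exact prod_map_pos hu a'' hpos'' l
  have hgain' : 1 ≤ max (wcell δ L₀ S.length) 0 := by
    rw [hSl]; exact le_trans hgain (le_max_left _ _)
  have hS2 : (S.map fun j => a j / u).prod ≤ 2 ^ S.length * Real.exp 21 := by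
    rw [List.map_congr_left (g := fun _ => 2 * (1 + δ / 2)) fun k hk => by
      rw [hLa k (hSK k hk), hR]; field_simp]
    rw [List.map_const', List.prod_replicate, mul_pow]
    refine mul_le_mul_of_nonneg_left ?_ (by positivity)
    calc (1 + δ / 2) ^ S.length ≤ (Real.exp (δ / 2)) ^ S.length := by
          gcongr; linarith [Real.add_one_le_exp (δ / 2)]
      _ = Real.exp ((S.length : ℝ) * (δ / 2)) := (Real.exp_nat_mul _ _).symm
      _ ≤ _ := Real.exp_le_exp.2 (by rw [hSl]; linarith)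
  have hL8 : a L / u ≤ 8 := by rw [hLa L hLK, div_le_iff₀ hu]; exact hR8
  calc Real.exp (-32) / 32 * (a L / u * ((S.map fun j => a j / u).prod *
        ((M.map fun j => a j / u).prod * (K.toList.map fun j => a j / u).prod)))
      ≤ Real.exp (-32) / 32 * (8 * ((2 ^ S.length * Real.exp 21) * (Real.exp 1 * P))) := by
        have h1 := (prod_map_pos hu a ha M).le
        have h2 := (prod_map_pos hu a ha K.toList).le
        have h3 := (prod_map_pos hu a ha S).le
        gcongr
    _ = P * 2 ^ S.length * (Real.exp (-32) * Real.exp 21 * Real.exp 1) / 4 := by ring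
    _ ≤ P * 2 ^ S.length * max (wcell δ L₀ S.length) 0 / 4 := by
        gcongr
        rw [← Real.exp_add, ← Real.exp_add]
        exact le_trans (Real.exp_le_one_iff.2 (by norm_num)) hgain'

end Vale.Agent.P209
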