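import Mathlib
import Vale.Agent.P209.Toric

/-!
Subdivisions of a simplex into unimodular simplices, and the resulting packings.
-/

namespace Vale.Agent.P209

open Matrix Finset

variable {n : ℕ}

/-- composition -/
noncomputable def UMap.comp (T S : UMap n) : UMap n where
  A := T.A * S.A
  hA := by rw [det_mul]; exact T.hA.mul S.hA
  b := T.lin *ᵥ S.b + T.b

/-- identity -/
def UMap.id (n : ℕ) : UMap n where
  A := 1
  hA := by simp
  b := 0

theorem UMap.id_app (y : Fin n → ℝ) : (UMap.id n).app y = y := by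
  simp [UMap.app, UMap.lin, UMap.id, Matrix.map_one]

theorem UMap.comp_app (T S : UMap n) (y : Fin n → ℝ) : (T.comp S).app y = T.app (S.app y) := by
  have h : (T.comp S).lin = T.lin * S.lin := Matrix.map_mul (f := Int.castRingHom ℝ)
  rw [UMap.app, h]
  simp [UMap.app, mulVec_add, mulVec_mulVec, UMap.comp, add_assoc]

theorem UMap.app_injective (T : UMap n) : Function.Injective T.app := by
  intro a b h
  have h' : T.lin *ᵥ a = T.lin *ᵥ b := by simpa [UMap.app] using h
  have := congrArg (T.dualᵀ *ᵥ ·) h'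
  simpa [mulVec_mulVec, T.transpose_dual_mul_lin] using this

/-- the partial sum matrix -/
def LL (n : ℕ) : Matrix (Fin n) (Fin n) ℤ := fun i j => if i ≤ j then 1 else 0

theorem det_LL (n : ℕ) : (LL n).det = 1 := by
  rw [det_of_isUpperTriangular]
  · simp [LL]
  · intro i j h
    simp only [id] at h
    simp [LL, not_le.2 h]

/-- partial sums -/
def psum (y : Fin n → ℝ) (i : Fin n) : ℝ := ∑ j ∈ univ.filter (fun j => i ≤ j), y j

theorem LL_mulVec (y : Fin n → ℝ) : (LL n).map (Int.cast : ℤ → ℝ) *ᵥ y = psum y := by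
  funext i
  simp [mulVec, dotProduct, LL, psum, sum_filter, apply_ite (Int.cast : ℤ → ℝ), ite_mul]

theorem psum_mem {y : Fin n → ℝ} {m : ℝ} (h : y ∈ osimp n m) :
    StrictAnti (psum y) ∧ ∀ i, 0 < psum y i ∧ psum y i < m := by
  refine ⟨fun i j hij => ?_, fun i => ⟨sum_pos (fun j _ => h.1 j) ⟨i, by simp⟩, lt_of_le_of_lt ?_ h.2⟩⟩
  · refine sum_lt_sum_of_subset (i := i) (fun k hk => ?_) (by simp) (by simp [hij]) (h.1 i)
      fun k _ _ => (h.1 k).le
    simp at hk ⊢
    exact hij.le.trans hk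
  · exact sum_le_sum_of_subset_of_nonneg (by simp) fun k _ _ => (h.1 k).le

theorem mem_osimp_of_psum (hn : 0 < n) {y : Fin n → ℝ} {m : ℝ} (ha : StrictAnti (psum y))
    (hb : ∀ i, 0 < psum y i ∧ psum y i < m) : y ∈ osimp n m := by
  have e0 : psum y ⟨0, hn⟩ = ∑ j, y j := by
    refine sum_congr (filter_true_of_mem fun j _ => ?_) fun _ _ => rfl
    exact Fin.mk_le_of_le_val (Nat.zero_le _)
  refine ⟨fun i => ?_, e0 ▸ (hb ⟨0, hn⟩).2⟩
  have hsplit : psum y i = y i + ∑ j ∈ univ.filter (fun j => i < j), y j := by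
    rw [psum, ← sum_insert (a := i) (s := univ.filter fun j => i < j) (by simp)]
    refine sum_congr (ext fun j => ?_) fun _ _ => rfl
    simp [le_iff_eq_or_lt, eq_comm]
  by_cases hi : (i : ℕ) + 1 < n
  · have e : psum y ⟨(i : ℕ) + 1, hi⟩ = ∑ j ∈ univ.filter (fun j => i < j), y j := by
      refine sum_congr (ext fun j => ?_) fun _ _ => rfl
      simp only [mem_filter, mem_univ, true_and, Fin.le_def, Fin.lt_def]
      omega
    have := ha (show i < ⟨(i : ℕ) + 1, hi⟩ from Nat.lt_succ_self _)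
    linarith
  · have e : univ.filter (fun j => i < j) = (∅ : Finset (Fin n)) := by
      refine filter_false_of_mem fun j _ hj => ?_
      have := j.isLt
      rw [Fin.lt_def] at hj
      omega
    have := (hb i).1
    rw [e] at hsplit
    simp at hsplit
    linarith

/-- sorting key of a cell -/
def key {m : ℕ} (w : Fin n → Fin m) (p : Fin n) : ℕ := (m - 1 - (w p : ℕ)) * n + p

/-- order of the cell -/
def ord {m : ℕ} (w : Fin n → Fin m) : Equiv.Perm (Fin n) := Tuple.sort (key w)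

theorem ord_lt {m : ℕ} (w : Fin n → Fin m) {i j : Fin n} (hij : i < j) :
    w (ord w j) < w (ord w i) ∨ w (ord w j) = w (ord w i) ∧ ord w i < ord w j := by
  have h1 : key w (ord w i) ≤ key w (ord w j) := Tuple.monotone_sort (key w) hij.le
  have hne : ord w i ≠ ord w j := fun e => hij.ne ((ord w).injective e)
  have := (w (ord w i)).isLt
  have := (w (ord w j)).isLt
  have := (ord w i).isLt
  have := (ord w j).isLt
  unfold key at h1
  rcases lt_trichotomy (w (ord w j)) (w (ord w i)) with h | h | h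
  · exact Or.inl h
  · refine Or.inr ⟨h, lt_of_le_of_ne ?_ hne⟩
    rw [h] at h1
    exact Fin.le_def.2 (by omega)
  · exfalso
    rw [Fin.lt_def] at h
    have : (m - 1 - (w (ord w j) : ℕ) + 1) * n ≤ (m - 1 - (w (ord w i) : ℕ)) * n :=
      Nat.mul_le_mul_right _ (by omega)
    rw [Nat.add_mul] at this
    omega

/-- the cell of index `w` in the subdivision of the simplex of size `m * h` -/
noncomputable def cell {m : ℕ} (h : ℝ) (w : Fin n → Fin m) : UMap n where
  A := (LL n)⁻¹ * (1 : Matrix (Fin n) (Fin n) ℤ).submatrix (ord w) _root_.id * LL n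
  hA := by
    rw [det_mul, det_mul, det_permute, det_nonsing_inv, det_LL]
    simp
  b := ((LL n)⁻¹).map (Int.cast : ℤ → ℝ) *ᵥ fun i => h * (w (ord w i) : ℕ)

theorem psum_cell {m : ℕ} (h : ℝ) (w : Fin n → Fin m) (y : Fin n → ℝ) :
    psum ((cell h w).app y) = fun i => psum y (ord w i) + h * (w (ord w i) : ℕ) := by
  have hL : IsUnit (LL n).det := by rw [det_LL]; exact isUnit_one
  have hh : (LL n).map (Int.cast : ℤ → ℝ) * (LL n)⁻¹.map (Int.cast : ℤ → ℝ) = 1 := by
    rw [show (LL n).map (Int.cast : ℤ → ℝ) * (LL n)⁻¹.map (Int.cast : ℤ → ℝ) =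
      ((LL n * (LL n)⁻¹).map (Int.cast : ℤ → ℝ)) from (Matrix.map_mul (f := Int.castRingHom ℝ)).symm,
      mul_nonsing_inv _ hL, Matrix.map_one _ Int.cast_zero Int.cast_one]
  have hl : (cell h w).lin = (LL n)⁻¹.map (Int.cast : ℤ → ℝ) *
      ((1 : Matrix (Fin n) (Fin n) ℤ).submatrix (ord w) _root_.id).map (Int.cast : ℤ → ℝ) *
      (LL n).map (Int.cast : ℤ → ℝ) := by
    rw [show (Int.cast : ℤ → ℝ) = ⇑(Int.castRingHom ℝ) from rfl, ← Matrix.map_mul, ← Matrix.map_mul]
    rfl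
  rw [← LL_mulVec]
  unfold UMap.app
  rw [hl]
  simp only [mulVec_add, mulVec_mulVec, cell, ← mul_assoc, hh, one_mul, one_mulVec]
  rw [← mulVec_mulVec, LL_mulVec]
  funext i
  simp [mulVec, dotProduct, Matrix.one_apply, apply_ite (Int.cast : ℤ → ℝ), ite_mul]

theorem cell_maps (hn : 0 < n) {m : ℕ} {h : ℝ} (w : Fin n → Fin m) :
    (cell h w).app '' osimp n h ⊆ osimp n (m * h) := by
  rintro _ ⟨y, hy, rfl⟩
  obtain ⟨ha, hb⟩ := psum_mem hy
  have h0 : 0 < h := by have := hb ⟨0, hn⟩; linarith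
  refine mem_osimp_of_psum hn ?_ ?_
  · rw [psum_cell]
    intro i j hij
    show psum y (ord w j) + h * (w (ord w j) : ℕ) < psum y (ord w i) + h * (w (ord w i) : ℕ)
    rcases ord_lt w hij with h1 | ⟨h1, h2⟩
    · have h2 : ((w (ord w j) : ℕ) : ℝ) + 1 ≤ ((w (ord w i) : ℕ) : ℝ) := by
        exact_mod_cast Fin.lt_def.1 h1
      nlinarith [hb (ord w i), hb (ord w j)]
    · rw [h1]; linarith [ha h2]
  · rw [psum_cell]
    intro i
    have h2 : ((w (ord w i) : ℕ) : ℝ) + 1 ≤ m := by exact_mod_cast (w (ord w i)).isLt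
    have h3 : (0 : ℝ) ≤ ((w (ord w i) : ℕ) : ℝ) := Nat.cast_nonneg _
    constructor <;> nlinarith [hb (ord w i)]

theorem cell_disjoint {m : ℕ} {h : ℝ} {w w' : Fin n → Fin m} (hw : w ≠ w') :
    Disjoint ((cell h w).app '' osimp n h) ((cell h w').app '' osimp n h) := by
  refine Set.disjoint_left.2 ?_
  rintro _ ⟨y, hy, rfl⟩ ⟨y', hy', e⟩
  obtain ⟨ha, hb⟩ := psum_mem hy
  obtain ⟨ha', hb'⟩ := psum_mem hy'
  have e' := congrArg psum e
  rw [psum_cell, psum_cell] at e'
  have key : ∀ i, w' (ord w' i) = w (ord w i) ∧ psum y' (ord w' i) = psum y (ord w i) := by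
    intro i
    have hi : psum y' (ord w' i) + h * (w' (ord w' i) : ℕ) = psum y (ord w i) + h * (w (ord w i) : ℕ) :=
      congrFun e' i
    have h1 := hb (ord w i)
    have h2 := hb' (ord w' i)
    have hh : 0 < h := by linarith
    have d1 : ((w' (ord w' i) : ℕ) : ℝ) < ((w (ord w i) : ℕ) : ℝ) + 1 := by nlinarith
    have d2 : ((w (ord w i) : ℕ) : ℝ) < ((w' (ord w' i) : ℕ) : ℝ) + 1 := by nlinarith
    have d1' : (w' (ord w' i) : ℕ) < (w (ord w i) : ℕ) + 1 := by exact_mod_cast d1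
    have d2' : (w (ord w i) : ℕ) < (w' (ord w' i) : ℕ) + 1 := by exact_mod_cast d2
    have hval : (w' (ord w' i) : ℕ) = w (ord w i) := by omega
    refine ⟨Fin.ext hval, ?_⟩
    rw [hval] at hi
    linarith
  have hs : psum y' = psum y := by
    refine (ha'.range_inj (β := Fin n) ha).1 ?_
    rw [← (ord w').surjective.range_comp (psum y'), ← (ord w).surjective.range_comp (psum y)]
    exact congrArg Set.range (funext fun i => (key i).2)
  refine hw (funext fun p => ?_)
  obtain ⟨i, rfl⟩ := (ord w).surjective p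
  have := (key i).2
  rw [hs] at this
  rw [← (key i).1, ha.injective this]

/-- dyadic cells -/
noncomputable def dy (n : ℕ) (R : ℝ) : ℕ → ℕ → UMap n
  | 0, _ => UMap.id n
  | l + 1, j => (dy n R l (j / 2 ^ n)).comp
      (cell (R / 2 ^ (l + 1)) (finFunctionFinEquiv.symm ⟨j % 2 ^ n, Nat.mod_lt _ (by positivity)⟩))

/-- the region of a dyadic cell -/
def dyImg (n : ℕ) (R : ℝ) (l j : ℕ) : Set (Fin n → ℝ) := (dy n R l j).app '' osimp n (R / 2 ^ l)

theorem dyImg_succ (hn : 0 < n) (R : ℝ) (l j : ℕ) :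
    dyImg n R (l + 1) j ⊆ dyImg n R l (j / 2 ^ n) := by
  rintro _ ⟨y, hy, rfl⟩
  refine ⟨_, ?_, (UMap.comp_app _ _ y).symm⟩
  have := cell_maps hn (finFunctionFinEquiv.symm
    ⟨j % 2 ^ n, Nat.mod_lt _ (by positivity)⟩ : Fin n → Fin 2) ⟨y, hy, rfl⟩
  rwa [show ((2 : ℕ) : ℝ) * (R / 2 ^ (l + 1)) = R / 2 ^ l by push_cast; rw [pow_succ]; field_simp]
    at this

theorem dyImg_anc (hn : 0 < n) (R : ℝ) (l d j : ℕ) :
    dyImg n R (l + d) j ⊆ dyImg n R l (j / (2 ^ n) ^ d) := by
  induction d generalizing j with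
  | zero => simp
  | succ d ih =>
    refine (dyImg_succ hn R (l + d) j).trans ((ih _).trans ?_)
    rw [Nat.div_div_eq_div_mul, pow_succ']

theorem dyImg_subset (hn : 0 < n) (R : ℝ) (l j : ℕ) : dyImg n R l j ⊆ osimp n R := by
  have h := dyImg_anc hn R 0 l j
  rw [Nat.zero_add] at h
  refine h.trans ?_
  rintro _ ⟨y, hy, rfl⟩
  simpa [dy, UMap.id_app] using hy

theorem dyImg_disjoint (hn : 0 < n) (R : ℝ) (l j j' : ℕ) (hj : j < (2 ^ n) ^ l)
    (hj' : j' < (2 ^ n) ^ l) (hne : j ≠ j') : Disjoint (dyImg n R l j) (dyImg n R l j') := by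
  induction l generalizing j j' with
  | zero => simp at hj hj'; omega
  | succ l ih =>
    by_cases h : j / 2 ^ n = j' / 2 ^ n
    · have hmod : j % 2 ^ n ≠ j' % 2 ^ n := fun e => hne (by
        rw [← Nat.div_add_mod j (2 ^ n), ← Nat.div_add_mod j' (2 ^ n), h, e])
      refine Set.disjoint_left.2 ?_
      rintro _ ⟨y, hy, rfl⟩ ⟨y', hy', e⟩
      simp only [dy, UMap.comp_app, ← h] at e
      have e' := (dy n R l (j / 2 ^ n)).app_injective e
      refine Set.disjoint_left.1 (cell_disjoint (h := R / 2 ^ (l + 1)) ?_) ⟨y, hy, rfl⟩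
        ⟨y', hy', e'⟩
      simpa [Fin.ext_iff] using hmod
    · refine Disjoint.mono (dyImg_succ hn R l j) (dyImg_succ hn R l j') (ih _ _ ?_ ?_ h)
      · rw [Nat.div_lt_iff_lt_mul (by positivity), ← pow_succ]; exact hj
      · rw [Nat.div_lt_iff_lt_mul (by positivity), ← pow_succ]; exact hj'

/-- Kraft type allocation of disjoint dyadic cells. -/
theorem exists_alloc (hn : 0 < n) (R : ℝ) {ι : Type*} [Fintype ι] (lev : ι → ℕ)
    (h : ∑ i, ((2 ^ n : ℝ)⁻¹) ^ lev i ≤ 1) :
    ∃ j : ι → ℕ, ∀ i i', i ≠ i' →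
      Disjoint (dyImg n R (lev i) (j i)) (dyImg n R (lev i') (j i')) := by
  classical
  obtain ⟨L, hL⟩ : ∃ L, ∀ i, lev i ≤ L := ⟨univ.sup lev, fun i => le_sup (mem_univ i)⟩
  set N : ℕ := 2 ^ n with hN
  have hNpos : 0 < N := by positivity
  let e := Fintype.equivFin ι
  let key : ι → ℕ ×ₗ Fin (Fintype.card ι) := fun i => toLex (lev i, e i)
  have hkey : Function.Injective key := fun a b h => e.injective (congrArg (fun p => (ofLex p).2) h)
  let W : ι → ℕ := fun i => N ^ (L - lev i)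
  let S : ι → ℕ := fun i => ∑ i' ∈ univ.filter (fun i' => key i' < key i), W i'
  have htot : ∑ i, W i ≤ N ^ L := by
    have h2 : ((∑ i, W i : ℕ) : ℝ) ≤ ((N ^ L : ℕ) : ℝ) := by
      push_cast
      have e2 : ∀ i, ((W i : ℕ) : ℝ) = (N : ℝ) ^ L * ((2 ^ n : ℝ)⁻¹) ^ lev i := fun i => by
        simp only [W, hN]; push_cast
        rw [pow_sub₀ _ (by positivity) (hL i), inv_pow]
      simp only [e2, ← mul_sum]
      exact mul_le_of_le_one_right (by positivity) h
    exact_mod_cast h2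
  have hdvd : ∀ i, W i ∣ S i := fun i => dvd_sum fun i' hi' => by
    have hlt := (mem_filter.1 hi').2
    have hle : lev i' ≤ lev i := by
      rcases Prod.Lex.toLex_lt_toLex.1 hlt with h1 | h1
      · exact h1.le
      · exact h1.1.le
    exact pow_dvd_pow _ (by omega)
  have hWpos : ∀ i, 0 < W i := fun i => pow_pos hNpos _
  have hSW : ∀ i, S i + W i ≤ N ^ L := fun i => by
    refine le_trans ?_ htot
    rw [add_comm, ← sum_insert (f := W) (by simp)]
    exact sum_le_sum_of_subset (subset_univ _)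
  have hstep : ∀ i i', key i < key i' → S i + W i ≤ S i' := fun i i' hii => by
    rw [add_comm, ← sum_insert (f := W) (by simp)]
    refine sum_le_sum_of_subset (fun x hx => ?_)
    simp at hx ⊢
    rcases hx with rfl | hx
    · exact hii
    · exact hx.trans hii
  have hbound : ∀ i, S i / W i < N ^ lev i := fun i => by
    rw [Nat.div_lt_iff_lt_mul (hWpos i), ← pow_add, Nat.add_sub_cancel' (hL i)]
    have := hSW i; have := hWpos i; omega
  refine ⟨fun i => S i / W i, fun i i' hne => ?_⟩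
  wlog hlt : key i < key i' generalizing i i'
  · exact (this i' i hne.symm (lt_of_le_of_ne (not_lt.1 hlt) fun e => hne (hkey e).symm)).symm
  have hle : lev i ≤ lev i' := by
    rcases Prod.Lex.toLex_lt_toLex.1 hlt with h1 | h1
    · exact h1.le
    · exact h1.1.le
  obtain ⟨d, hd⟩ := Nat.exists_eq_add_of_le hle
  have hW : W i' * N ^ d = W i := by
    simp only [W, ← pow_add]; congr 1; have := hL i'; have := hL i; omega
  have hanc : S i' / W i' / N ^ d = S i' / W i := by rw [Nat.div_div_eq_div_mul, hW]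
  refine Disjoint.mono_right (hd ▸ dyImg_anc hn R (lev i) d _) ?_
  show Disjoint _ (dyImg n R (lev i) (S i' / W i' / N ^ d))
  rw [hanc]
  refine dyImg_disjoint hn R _ _ _ (hbound i) ?_ ?_
  · show S i' / W i < N ^ lev i
    rw [Nat.div_lt_iff_lt_mul (hWpos i), ← pow_add, Nat.add_sub_cancel' (hL i)]
    have := hSW i'; have := hWpos i'; omega
  · obtain ⟨a, ha⟩ := hdvd i
    have h1 := hstep i i' hlt
    rw [ha] at h1
    have : a + 1 ≤ S i' / W i := by
      rw [Nat.le_div_iff_mul_le (hWpos i)]; linarith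
    show S i / W i ≠ S i' / W i
    rw [ha, Nat.mul_div_cancel_left _ (hWpos i)]
    omega

theorem packs_of_volume_small_const (hn : 0 < n) {k : ℕ} {R : ℝ} {Rs : Fin k → ℝ} (hR : 0 < R)
    (hpos : ∀ i, 0 < Rs i) (h : ∑ i, Rs i ^ n < (2 ^ n : ℝ)⁻¹ * R ^ n) : Packs n k R Rs := by
  have hlev : ∀ i, ∃ l : ℕ, Rs i < R / 2 ^ l ∧ R / 2 ^ l ≤ 2 * Rs i := fun i => by
    have h1 : Rs i < R := by
      refine lt_of_pow_lt_pow_left₀ n hR.le ?_
      refine lt_of_le_of_lt ((single_le_sum (fun j _ => (pow_pos (hpos j) n).le) (mem_univ i)).trans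
        h.le) ?_
      exact mul_lt_of_lt_one_left (pow_pos hR n)
        (inv_lt_one_of_one_lt₀ (one_lt_pow₀ (by norm_num) hn.ne'))
    have hex : ∃ l : ℕ, R / 2 ^ (l + 1) ≤ Rs i := by
      obtain ⟨l, hl⟩ := pow_unbounded_of_one_lt (R / Rs i) (show (1 : ℝ) < 2 by norm_num)
      refine ⟨l, ?_⟩
      rw [div_le_iff₀ (by positivity)]
      rw [div_lt_iff₀ (hpos i)] at hl
      rw [pow_succ]; nlinarith [hpos i, show (0 : ℝ) < 2 ^ l by positivity]
    refine ⟨Nat.find hex, ?_, ?_⟩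
    · rcases Nat.eq_zero_or_pos (Nat.find hex) with h0 | h0
      · simp [h0, h1]
      · have := Nat.find_min hex (m := Nat.find hex - 1) (by omega)
        rwa [not_le, Nat.sub_add_cancel h0] at this
    · have := Nat.find_spec hex
      rw [pow_succ, ← div_div, div_le_iff₀ (by norm_num)] at this
      linarith
  choose lev hl1 hl2 using hlev
  have hs : ∑ i, ((2 ^ n : ℝ)⁻¹) ^ lev i ≤ 1 := by
    have e : ∀ i, ((2 ^ n : ℝ)⁻¹) ^ lev i * R ^ n ≤ 2 ^ n * Rs i ^ n := fun i => by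
      rw [← mul_pow, inv_pow, ← pow_mul, mul_comm n, pow_mul, ← inv_pow, ← mul_pow, inv_mul_eq_div]
      exact pow_le_pow_left₀ (by positivity) (hl2 i) n
    have h2 : (∑ i, ((2 ^ n : ℝ)⁻¹) ^ lev i) * R ^ n ≤ 2 ^ n * ∑ i, Rs i ^ n := by
      rw [sum_mul, mul_sum]; exact sum_le_sum fun i _ => e i
    have h3 : 2 ^ n * ∑ i, Rs i ^ n < R ^ n := by
      rw [inv_mul_eq_div, lt_div_iff₀ (by positivity)] at h; linarith
    nlinarith [pow_pos hR n]
  obtain ⟨j, hj⟩ := exists_alloc hn R lev hs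
  exact packs_of_simplices (fun i => R / 2 ^ lev i) (fun i => dy n R (lev i) (j i)) hl1
    (fun i => dyImg_subset hn R _ _) hj

end Vale.Agent.P209
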