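import Mathlib
import Vale.Agent.P209.Equal
import Vale.Agent.P209.Simplices

/-!
Allocation of balls of all sizes to cells in which equal balls pack efficiently.
-/

namespace Vale.Agent.P209

open Finset Matrix
open scoped Real

variable {n : ℕ}

/-- a unimodular map as a change of action-angle coordinates -/
noncomputable def AMap.ofU (T : UMap n) : AMap n where
  M := Matrix.mulVecLin T.lin
  D := Matrix.mulVecLin T.dual
  c := T.b
  pair := fun x y => by simpa using T.pairing x y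
  cube := fun x hx hm => funext fun j => by
    obtain ⟨m, hm'⟩ := T.dual_int x (fun l => by simpa using hm l) j
    have hb := hx j
    rw [hm', ← Int.cast_abs] at hb
    have : |m| < 1 := by exact_mod_cast hb
    rw [hm', Int.abs_lt_one_iff.1 this, Int.cast_zero]; rfl

theorem fills_dyadic (hn : 0 < n) {g : ℝ} (hg : 0 < g) {ι : Type*} [Fintype ι] (lev : ι → ℕ)
    (h : ∑ i, ((2 ^ n : ℝ)⁻¹) ^ lev i ≤ 1) :
    Fills (fun _ : Fin n => g) fun i => fun _ : Fin n => g / 2 ^ lev i := by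
  intro t _ ht1
  obtain ⟨j, hj⟩ := exists_alloc hn g lev h
  have hes : ∀ (l : ℕ) (y : Fin n → ℝ), y ∈ esimp (fun _ : Fin n => g / 2 ^ l) →
      y ∈ osimp n (g / 2 ^ l) := fun l y hy => by
    refine ⟨hy.1, ?_⟩
    have := hy.2
    rw [← Finset.sum_div, div_lt_one (by positivity)] at this
    exact this
  have hin : ∀ i y, y ∈ esimp (fun _ : Fin n => g / 2 ^ lev i) →
      (AMap.ofU (dy n g (lev i) (j i))).M y + (AMap.ofU (dy n g (lev i) (j i))).c
        ∈ dyImg n g (lev i) (j i) := fun i y hy => ⟨y, hes _ _ hy, rfl⟩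
  choose f hf hmu using fun i => exists_emb (AMap.ofU (dy n g (lev i) (j i)))
    (b := fun _ : Fin n => g / 2 ^ lev i) (fun _ => by positivity) ht1
    fun y hy l => (dyImg_subset hn g _ _ (hin i y hy)).1 l
  refine ⟨f, fun i => ⟨hf i, ?_⟩, fun a b hab => Set.disjoint_left.2 ?_⟩
  · rintro _ ⟨z, hz, rfl⟩
    obtain ⟨y, hy, he⟩ := hmu i z hz
    have h2 := (dyImg_subset hn g _ _ (hin i y hy)).2
    rw [← he] at h2
    show ecap _ _ < 1
    rw [ecap, ← Finset.sum_div, div_lt_one hg]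
    exact h2
  · rintro _ ⟨z, hz, rfl⟩ ⟨w, hw, e⟩
    obtain ⟨y, hy, he⟩ := hmu a z hz
    obtain ⟨y', hy', he'⟩ := hmu b w hw
    rw [e, he] at he'
    exact Set.disjoint_left.1 (hj a b hab) (hin a y hy) (he' ▸ hin b y' hy')

theorem exists_bins_two {ι : Type*} [DecidableEq ι] (w : ι → ℝ) (s : Finset ι)
    (h0 : ∀ i ∈ s, 0 ≤ w i) (h1 : ∀ i ∈ s, w i ≤ 1) :
    ∃ (f : ι → ℕ) (M : ℕ), (∀ i ∈ s, f i ≤ M) ∧ (∀ m, ∑ i ∈ s.filter (f · = m), w i ≤ 1) ∧
      (M : ℝ) + ∑ i ∈ s.filter (f · = M), w i ≤ 2 * ∑ i ∈ s, w i := by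
  induction s using Finset.induction_on with
  | empty => exact ⟨fun _ => 0, 0, by simp, by simp, by simp⟩
  | insert a s ha ih =>
    obtain ⟨f, M, hM, hload, hcnt⟩ := ih (fun i hi => h0 i (mem_insert_of_mem hi))
      fun i hi => h1 i (mem_insert_of_mem hi)
    have key : ∀ v m, ∑ i ∈ (insert a s).filter (fun i => Function.update f a v i = m), w i
        = (if v = m then w a else 0) + ∑ i ∈ s.filter (f · = m), w i := by
      intro v m
      rw [sum_filter, sum_insert ha, sum_filter, Function.update_self]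
      congr 1
      refine sum_congr rfl fun i hi => ?_
      rw [Function.update_of_ne (fun e : i = a => ha (e ▸ hi))]
    have h0a := h0 a (mem_insert_self a s)
    by_cases hfit : ∑ i ∈ s.filter (f · = M), w i + w a ≤ 1
    · refine ⟨Function.update f a M, M, ?_, fun m => ?_, ?_⟩
      · simp only [mem_insert, forall_eq_or_imp, Function.update_self, le_refl, true_and]
        intro i hi; rw [Function.update_of_ne (fun e : i = a => ha (e ▸ hi))]; exact hM i hi
      · rw [key]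
        split_ifs with h
        · subst h; linarith
        · linarith [hload m]
      · rw [key, if_pos rfl, sum_insert ha]; linarith
    · push Not at hfit
      have hempty : s.filter (f · = M + 1) = ∅ := filter_eq_empty_iff.2 fun i hi => by
        have := hM i hi; omega
      refine ⟨Function.update f a (M + 1), M + 1, ?_, fun m => ?_, ?_⟩
      · simp only [mem_insert, forall_eq_or_imp, Function.update_self, le_refl, true_and]
        intro i hi; rw [Function.update_of_ne (fun e : i = a => ha (e ▸ hi))]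
        exact (hM i hi).trans (Nat.le_succ M)
      · rw [key]
        split_ifs with h
        · subst h; rw [hempty, sum_empty, add_zero]; exact h1 a (mem_insert_self a s)
        · linarith [hload m]
      · rw [key, if_pos rfl, hempty, sum_empty, sum_insert ha]; push_cast; linarith

theorem exists_take {κ : Type*} [DecidableEq κ] (W : κ → ℝ) {Wm D : ℝ} (hWm : 0 ≤ Wm) (hD : 0 ≤ D)
    (s : Finset κ) (hW : ∀ p ∈ s, W p ≤ Wm) (hsum : D ≤ ∑ p ∈ s, W p) :
    ∃ T ⊆ s, D ≤ ∑ p ∈ T, W p ∧ ∑ p ∈ T, W p ≤ D + Wm := by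
  induction s using Finset.induction_on with
  | empty => exact ⟨∅, subset_rfl, hsum, by simp; linarith⟩
  | insert a s ha ih =>
    by_cases h : D ≤ ∑ p ∈ s, W p
    · obtain ⟨T, hT, h1, h2⟩ := ih (fun p hp => hW p (mem_insert_of_mem hp)) h
      exact ⟨T, hT.trans (subset_insert a s), h1, h2⟩
    · refine ⟨insert a s, subset_rfl, hsum, ?_⟩
      rw [sum_insert ha]
      linarith [hW a (mem_insert_self a s), not_le.1 h]

theorem exists_assign {κ : Type*} [DecidableEq κ] (W : κ → ℝ) {Wm : ℝ} (hWm : 0 ≤ Wm) (D : ℕ → ℝ)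
    (hD : ∀ i, 0 ≤ D i) (hW0 : ∀ p, 0 ≤ W p) : ∀ (m : ℕ) (s : Finset κ), (∀ p ∈ s, W p ≤ Wm) →
      (∑ i ∈ range m, D i) + m * Wm ≤ ∑ p ∈ s, W p →
      ∃ f : κ → ℕ, ∀ i < m, D i ≤ ∑ p ∈ s.filter (f · = i), W p
  | 0, _, _, _ => ⟨fun _ => 0, fun i hi => absurd hi (Nat.not_lt_zero i)⟩
  | m + 1, s, hW, h => by
    rw [sum_range_succ] at h
    push_cast at h
    have h0 : 0 ≤ ∑ i ∈ range m, D i := sum_nonneg fun i _ => hD i
    have h1 : 0 ≤ (m : ℝ) * Wm := by positivity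
    obtain ⟨T, hT, hT1, hT2⟩ := exists_take W hWm (hD m) s hW (by linarith)
    have hsplit := sum_sdiff (f := W) hT
    obtain ⟨f, hf⟩ := exists_assign W hWm D hD hW0 m (s \ T) (fun p hp => hW p (sdiff_subset hp))
      (by linarith)
    refine ⟨fun p => if p ∈ T then m else f p, fun i hi => ?_⟩
    rcases Nat.lt_succ_iff_lt_or_eq.1 hi with hi | rfl
    · refine (hf i hi).trans (le_of_eq (sum_congr ?_ fun _ _ => rfl))
      ext p
      simp only [mem_filter, mem_sdiff]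
      constructor
      · rintro ⟨⟨hp, hpT⟩, he⟩; exact ⟨hp, by rw [if_neg hpT]; exact he⟩
      · rintro ⟨hp, he⟩
        by_cases hpT : p ∈ T
        · rw [if_pos hpT] at he; omega
        · rw [if_neg hpT] at he; exact ⟨⟨hp, hpT⟩, he⟩
    · refine hT1.trans (sum_le_sum_of_subset_of_nonneg (fun p hp => ?_) fun p _ _ => hW0 p)
      exact mem_filter.2 ⟨hT hp, if_pos hp⟩

theorem root_half (hn : 0 < n) : ∃ q : ℝ, 0 < q ∧ q < 1 ∧ q ^ n = 1 / 2 :=
  ⟨(1 / 2 : ℝ) ^ ((n : ℝ)⁻¹), Real.rpow_pos_of_pos (by norm_num) _,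
    Real.rpow_lt_one (by norm_num) (by norm_num) (inv_pos.2 (by exact_mod_cast hn)),
    Real.rpow_inv_natCast_pow (by norm_num) hn.ne'⟩

/-- classes of sizes: `i ↦ q ^ e i`, with `e i = c + n * level` -/
theorem classify (hn : 0 < n) {top : ℝ} (htop : 0 < top) {ι : Type} (r : ι → ℝ)
    (hr : ∀ i, 0 < r i) (hrt : ∀ i, r i < top) :
    ∃ (u : ℕ → ℝ) (kc lev : ι → ℕ), (∀ c < n, top / 2 < u c ∧ u c ≤ top) ∧ (∀ c, 0 < u c) ∧
      (∀ i, kc i < n) ∧ (∀ i, r i < u (kc i) / 2 ^ lev i) ∧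
      ∀ i, (u (kc i) / 2 ^ lev i) ^ n ≤ 2 * r i ^ n := by
  classical
  obtain ⟨q, hq0, hq1, hqn⟩ := root_half hn
  have hex : ∀ i, ∃ k : ℕ, top * q ^ (k + 1) ≤ r i := fun i => by
    obtain ⟨k, hk⟩ := exists_pow_lt_of_lt_one (div_pos (hr i) htop) hq1
    refine ⟨k, ?_⟩
    rw [lt_div_iff₀ htop] at hk
    have : q ^ (k + 1) ≤ q ^ k := pow_le_pow_of_le_one hq0.le hq1.le (Nat.le_succ k)
    nlinarith
  have hB : ∀ k : ℕ, top * q ^ (k % n) / 2 ^ (k / n) = top * q ^ k := fun k => by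
    rw [show q ^ k = q ^ (k % n) * (q ^ n) ^ (k / n) by
      rw [← pow_mul, ← pow_add, Nat.mod_add_div], hqn, one_div, inv_pow]
    ring
  refine ⟨fun c => top * q ^ c, fun i => Nat.find (hex i) % n, fun i => Nat.find (hex i) / n,
    fun c hc => ⟨?_, mul_le_of_le_one_right htop.le (pow_le_one₀ hq0.le hq1.le)⟩,
    fun c => by positivity, fun i => Nat.mod_lt _ hn, fun i => ?_, fun i => ?_⟩
  · have : q ^ n < q ^ c := pow_lt_pow_right_of_lt_one₀ hq0 hq1 hc
    rw [hqn] at this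
    nlinarith
  · simp only [hB]
    rcases hk : Nat.find (hex i) with _ | k
    · simpa using hrt i
    · exact not_le.1 (Nat.find_min (hex i) (show k < Nat.find (hex i) by omega))
  · simp only [hB]
    have h1 := Nat.find_spec (hex i)
    rw [pow_succ, ← mul_assoc, ← le_div_iff₀ hq0] at h1
    refine (pow_le_pow_left₀ (by positivity) h1 n).trans (le_of_eq ?_)
    rw [div_pow, hqn]; ring

/-- units of each class, cut from the cells -/
theorem fills_units {κ : Type} [Fintype κ] {b : κ → Fin n → ℝ} {c₀ Wm : ℝ} (hc₀ : 0 < c₀)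
    (hWm : 0 ≤ Wm) (hb : ∀ p j, 0 < b p j) (hW : ∀ p, c₀ * ∏ j, b p j ≤ Wm) (u : ℕ → ℝ)
    (hu : ∀ c, 0 < u c)
    (heq : ∀ p, ∀ c < n, ∃ N : ℕ, c₀ * ∏ j, b p j / u c ≤ N ∧
      Fills (b p) fun _ : Fin N => fun _ : Fin n => u c)
    (M : ℕ → ℕ)
    (hcap : ∑ c ∈ range n, (M c : ℝ) * u c ^ n + n * Wm ≤ ∑ p, c₀ * ∏ j, b p j) :
    ∃ g : (Σ c : Fin n, Fin (M c)) → κ, ∀ p,
      Fills (b p) fun x : {x // g x = p} => fun _ : Fin n => u (x.1.1 : ℕ) := by
  classical
  obtain ⟨f, hf⟩ := exists_assign (fun p => c₀ * ∏ j, b p j) hWm (fun c => (M c : ℝ) * u c ^ n)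
    (fun c => mul_nonneg (Nat.cast_nonneg _) (pow_nonneg (hu c).le n))
    (fun p => mul_nonneg hc₀.le (prod_nonneg fun j _ => (hb p j).le)) n univ (fun p _ => hW p) hcap
  have hNex : ∀ p, ∃ N : ℕ, (f p < n → c₀ * ∏ j, b p j ≤ N * u (f p) ^ n) ∧
      Fills (b p) fun _ : Fin N => fun _ : Fin n => u (f p) := fun p => by
    by_cases hp : f p < n
    · obtain ⟨N, hN, hF⟩ := heq p _ hp
      refine ⟨N, fun _ => ?_, hF⟩
      rw [prod_div_distrib, prod_const, card_univ, Fintype.card_fin, ← mul_div_assoc,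
        div_le_iff₀ (pow_pos (hu _) n)] at hN
      exact hN
    · exact ⟨0, fun h => absurd h hp, fills_empty _ _⟩
  choose N hN hF using hNex
  have hemb : ∀ c : Fin n,
      Nonempty (Fin (M c) ↪ Σ p : {p // f p = (c : ℕ)}, Fin (N p.1)) := fun c => by
    refine Function.Embedding.nonempty_of_card_le ?_
    rw [Fintype.card_fin, Fintype.card_sigma]
    simp only [Fintype.card_fin]
    rw [← sum_subtype (univ.filter fun p => f p = (c : ℕ)) (p := fun p => f p = (c : ℕ))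
      (by simp) fun p => N p]
    have key : (M c : ℝ) * u c ^ n
        ≤ (∑ p ∈ univ.filter (fun p => f p = (c : ℕ)), (N p : ℝ)) * u c ^ n := by
      refine (hf c c.2).trans ?_
      rw [sum_mul]
      refine sum_le_sum fun p hp => ?_
      have e := (mem_filter.1 hp).2
      rw [← e]
      exact hN p (e ▸ c.2)
    exact_mod_cast le_of_mul_le_mul_right key (pow_pos (hu c) n)
  let em := fun c => (hemb c).some
  have hinj : Function.Injective fun x : Σ c : Fin n, Fin (M c) =>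
      (⟨(em x.1 x.2).1.1, (em x.1 x.2).2⟩ : Σ p, Fin (N p)) := by
    rintro ⟨c, m⟩ ⟨c', m'⟩ he
    simp only at he
    have h1 : (em c m).1.1 = (em c' m').1.1 := congrArg Sigma.fst he
    have hc : c = c' := Fin.ext (by rw [← (em c m).1.2, ← (em c' m').1.2, h1])
    subst hc
    rcases hA : em c m with ⟨⟨q₁, hq₁⟩, x₁⟩
    rcases hB' : em c m' with ⟨⟨q₂, hq₂⟩, x₂⟩
    rw [hA, hB'] at he
    obtain ⟨rfl, he⟩ := Sigma.mk.inj_iff.1 he
    obtain rfl := eq_of_heq he
    rw [(em c).injective (hA.trans hB'.symm)]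
  refine ⟨fun x => (em x.1 x.2).1.1, fun p => ?_⟩
  refine ((hF p).sub (e := fun x => Fin.cast (congrArg N x.2) (em x.1.1 x.1.2).2) ?_).congr
    fun x => ?_
  · rintro ⟨x, hx⟩ ⟨y, hy⟩ he
    refine Subtype.ext (hinj (Sigma.ext (hx.trans hy.symm) ?_))
    exact (Fin.heq_ext_iff (congrArg N (hx.trans hy.symm))).2 (by simpa [Fin.ext_iff] using he)
  · obtain ⟨⟨c, m⟩, h⟩ := x
    simp only [Function.comp_apply]
    funext _
    rw [← (em c m).1.2]
    exact congrArg (fun p => u (f p)) h.symm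

/-- balls of all sizes below `top`, given cells that pack every size in `(top / 2, top]` -/
theorem fills_alloc_cells (hn : 0 < n) {κ : Type} [Fintype κ] {b : κ → Fin n → ℝ}
    {top c₀ Wm : ℝ} (htop : 0 < top) (hc₀ : 0 < c₀) (hWm : 0 ≤ Wm)
    (hb : ∀ p j, 0 < b p j) (hW : ∀ p, c₀ * ∏ j, b p j ≤ Wm)
    (heq : ∀ p u, top / 2 < u → u ≤ top → ∃ N : ℕ, c₀ * ∏ j, b p j / u ≤ N ∧
      Fills (b p) fun _ : Fin N => fun _ : Fin n => u)
    {ι : Type} [Fintype ι] (r : ι → ℝ) (hr : ∀ i, 0 < r i) (hrt : ∀ i, r i < top)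
    (hcap : 4 * ∑ i, r i ^ n + n * (top ^ n + Wm) ≤ c₀ * ∑ p, ∏ j, b p j) :
    ∃ (B : ι → ℝ) (g : ι → κ), (∀ i, r i < B i) ∧
      ∀ p, Fills (b p) fun i : {i // g i = p} => fun _ : Fin n => B i.1 := by
  classical
  obtain ⟨u, kc, lev, hu', hu, hkc, hBr, hBn⟩ := classify hn htop r hr hrt
  let w : ι → ℝ := fun i => ((2 ^ n : ℝ)⁻¹) ^ lev i
  have hw : ∀ i, u (kc i) ^ n * w i = (u (kc i) / 2 ^ lev i) ^ n := fun i => by
    show u (kc i) ^ n * ((2 ^ n : ℝ)⁻¹) ^ lev i = _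
    rw [div_pow, inv_pow, ← pow_mul, ← pow_mul, mul_comm n (lev i), div_eq_mul_inv]
  have hbins := fun c : ℕ => exists_bins_two w (univ.filter fun i => kc i = c)
    (fun i _ => by positivity) fun i _ => pow_le_one₀ (by positivity)
      (inv_le_one_of_one_le₀ (one_le_pow₀ one_le_two))
  choose fb Mb hfb hload hcnt using hbins
  have h1 : ∀ c ∈ range n, ((Mb c + 1 : ℕ) : ℝ) * u c ^ n
      ≤ 4 * ∑ i ∈ univ.filter (fun i => kc i = c), r i ^ n + top ^ n := by
    intro c hc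
    have hut : u c ^ n ≤ top ^ n := pow_le_pow_left₀ (hu c).le (hu' c (mem_range.1 hc)).2 n
    have h2 : (Mb c : ℝ) ≤ 2 * ∑ i ∈ univ.filter (fun i => kc i = c), w i := by
      have : 0 ≤ ∑ i ∈ (univ.filter fun i => kc i = c).filter (fb c · = Mb c), w i :=
        sum_nonneg fun i _ => by positivity
      linarith [hcnt c]
    have h3 : (∑ i ∈ univ.filter (fun i => kc i = c), w i) * u c ^ n
        ≤ 2 * ∑ i ∈ univ.filter (fun i => kc i = c), r i ^ n := by
      rw [sum_mul, mul_sum]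
      refine sum_le_sum fun i hi => ?_
      rw [← (mem_filter.1 hi).2, mul_comm (w i), hw]
      exact hBn i
    have h4 := mul_le_mul_of_nonneg_right h2 (pow_nonneg (hu c).le n)
    push_cast
    linarith
  have h5 := sum_le_sum h1
  rw [sum_add_distrib, sum_const, card_range, nsmul_eq_mul, ← mul_sum,
    sum_fiberwise_of_maps_to (fun i _ => mem_range.2 (hkc i))] at h5
  obtain ⟨gU, hunits⟩ := fills_units hc₀ hWm hb hW u hu (fun p c hc => heq p _ (hu' c hc).1 (hu' c hc).2)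
    (fun c => Mb c + 1) (by rw [← mul_sum]; linarith)
  have hbin : ∀ x : Σ c : Fin n, Fin (Mb c + 1), Fills (fun _ : Fin n => u (x.1 : ℕ))
      fun i : {i // kc i = (x.1 : ℕ) ∧ fb x.1 i = (x.2 : ℕ)} =>
        fun _ : Fin n => u (kc i) / 2 ^ lev i := by
    rintro ⟨c, m⟩
    refine (fills_dyadic hn (hu c) (fun i : {i // kc i = (c : ℕ) ∧ fb c i = (m : ℕ)} => lev i.1)
      ?_).congr fun i => ?_
    · rw [← sum_subtype ((univ.filter fun i => kc i = (c : ℕ)).filter fun i => fb c i = (m : ℕ))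
        (p := fun i => kc i = (c : ℕ) ∧ fb c i = (m : ℕ)) (by simp) fun i => w i]
      exact hload c m
    · rw [i.2.1]
  have hmem : ∀ i, fb (kc i) i < Mb (kc i) + 1 := fun i =>
    Nat.lt_succ_of_le (hfb (kc i) i (mem_filter.2 ⟨mem_univ i, rfl⟩))
  let unit : ι → Σ c : Fin n, Fin (Mb c + 1) := fun i => ⟨⟨kc i, hkc i⟩, ⟨fb (kc i) i, hmem i⟩⟩
  refine ⟨fun i => u (kc i) / 2 ^ lev i, fun i => gU (unit i), hBr, fun p => ?_⟩
  have hall := Fills.trans (c := fun q : Σ x : {x // gU x = p},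
      {i // kc i = (x.1.1 : ℕ) ∧ fb x.1.1 i = (x.1.2 : ℕ)} =>
        fun _ : Fin n => u (kc q.2.1) / 2 ^ lev q.2.1) (hunits p) fun x => hbin x.1
  refine (hall.sub (e := fun i => ⟨⟨unit i.1, i.2⟩, ⟨i.1, rfl, rfl⟩⟩) fun i j he => ?_).congr
    fun _ => rfl
  exact Subtype.ext (congrArg (fun q : Σ x : {x // gU x = p},
      {i // kc i = (x.1.1 : ℕ) ∧ fb x.1.1 i = (x.1.2 : ℕ)} => q.2.1) he)

/-- the balls inside the ambient ellipsoid, next to any further pieces -/
theorem fills_of_cells {κ₀ κ ι : Type} {a : Fin n → ℝ} {e₀ : κ₀ → Fin n → ℝ}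
    {b : κ → Fin n → ℝ} (he₀ : ∀ x j, 0 < e₀ x j) (h : Fills a (Sum.elim e₀ b))
    {c : ι → Fin n → ℝ} (g : ι → κ) (hg : ∀ p, Fills (b p) fun i : {i // g i = p} => c i.1) :
    Fills a (Sum.elim e₀ c) := by
  have hall := Fills.trans
    (κ := fun x : κ₀ ⊕ κ => match x with
      | Sum.inl _ => Unit
      | Sum.inr p => {i // g i = p})
    (c := fun q => match q with
      | ⟨Sum.inl x, _⟩ => e₀ x
      | ⟨Sum.inr _, i⟩ => c i.1)
    h fun x => match x with
      | Sum.inl x => fills_incl (he₀ x) fun _ => le_rfl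
      | Sum.inr p => hg p
  refine (hall.sub (e := Sum.elim (fun x => ⟨Sum.inl x, ()⟩)
    fun i => ⟨Sum.inr (g i), ⟨i, rfl⟩⟩) ?_).congr ?_
  · rintro (x | i) (y | j) he <;> simp [Sigma.mk.inj_iff] at he
    · rw [he]
    · obtain ⟨h1, h2⟩ := he
      exact congrArg Sum.inr (Subtype.heq_iff_coe_eq (fun _ => by rw [h1]) |>.1 h2)
  · rintro (x | i) <;> rfl

/-- balls of all sizes below `top`, given cells that pack every size in `(top / 2, top]` -/
theorem fills_alloc (hn : 0 < n) {κ : Type} [Fintype κ] {a : Fin n → ℝ} {b : κ → Fin n → ℝ}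
    (h : Fills a b) {top c₀ Wm : ℝ} (htop : 0 < top) (hc₀ : 0 < c₀) (hWm : 0 ≤ Wm)
    (hb : ∀ p j, 0 < b p j) (hW : ∀ p, c₀ * ∏ j, b p j ≤ Wm)
    (heq : ∀ p u, top / 2 < u → u ≤ top → ∃ N : ℕ, c₀ * ∏ j, b p j / u ≤ N ∧
      Fills (b p) fun _ : Fin N => fun _ : Fin n => u)
    {ι : Type} [Fintype ι] (r : ι → ℝ) (hr : ∀ i, 0 < r i) (hrt : ∀ i, r i < top)
    (hcap : 4 * ∑ i, r i ^ n + n * (top ^ n + Wm) ≤ c₀ * ∑ p, ∏ j, b p j) :
    ∃ B : ι → ℝ, (∀ i, r i < B i) ∧ Fills a fun i => fun _ : Fin n => B i := by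
  obtain ⟨B, g, hB, hg⟩ := fills_alloc_cells hn htop hc₀ hWm hb hW heq r hr hrt hcap
  have hall := Fills.trans (c := fun q : Σ p, {i // g i = p} => fun _ : Fin n => B q.2.1) h hg
  exact ⟨B, hB, (hall.sub (e := fun i => ⟨g i, ⟨i, rfl⟩⟩) fun i j he =>
    congrArg (fun q : Σ p, {i // g i = p} => q.2.1) he).congr fun _ => rfl⟩

end Vale.Agent.P209
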