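import Mathlib
import Vale.Agent.P209.Simplices

/-!
The two main packing theorems.
-/

namespace Vale.Agent.P209

open Matrix Finset
open scoped Topology

variable {n k : ℕ}

theorem packs_few (hk : k ≤ 2 ^ n) {R : ℝ} {Rs : Fin k → ℝ} (hR : 0 < R)
    (hpos : ∀ i, 0 < Rs i) (hvol : ∑ i, Rs i ^ n < R ^ n)
    (hpair : ∀ i j, i < j → Rs i + Rs j < R) : Packs n k R Rs := by
  classical
  rcases Nat.eq_zero_or_pos k with rfl | hkpos
  · exact ⟨fun i => i.elim0, fun i => i.elim0, fun i => i.elim0⟩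
  have hn : 0 < n := by
    rcases Nat.eq_zero_or_pos n with rfl | h
    · exfalso
      simp at hvol hk
      omega
    · exact h
  have : Nonempty (Fin k) := ⟨⟨0, hkpos⟩⟩
  obtain ⟨i₀, hi₀⟩ := Finite.exists_max Rs
  have hpair' : ∀ i, i ≠ i₀ → Rs i + Rs i₀ < R := fun i hi => by
    rcases lt_or_gt_of_ne hi with h | h
    · exact hpair _ _ h
    · linarith [hpair _ _ h]
  have hlt : Rs i₀ < R := lt_of_pow_lt_pow_left₀ n hR.le
    (lt_of_le_of_lt (single_le_sum (fun j _ => (pow_pos (hpos j) n).le) (mem_univ i₀)) hvol)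
  have hc : max (R / 2) (Rs i₀) < R := max_lt (by linarith) hlt
  have hev : ∀ᶠ a in 𝓝[>] max (R / 2) (Rs i₀), a < R ∧ ∀ i, i ≠ i₀ → Rs i < R - a := by
    refine nhdsWithin_le_nhds ((eventually_lt_nhds hc).and (Filter.eventually_all.2 fun i => ?_))
    by_cases hi : i = i₀
    · exact Filter.Eventually.of_forall fun a h => absurd hi h
    · have h1 : max (R / 2) (Rs i₀) < R - Rs i := by
        have := hpair' i hi; have := hi₀ i
        exact max_lt (by linarith) (by linarith)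
      filter_upwards [eventually_lt_nhds h1] with a ha _
      linarith
  obtain ⟨a, ⟨haR, ha⟩, hac⟩ := (hev.and self_mem_nhdsWithin).exists
  have ha2 : R / 2 < a := lt_of_le_of_lt (le_max_left _ _) hac
  have ha0 : Rs i₀ < a := lt_of_le_of_lt (le_max_right _ _) hac
  set d := R - a with hd
  let e : Fin k → (Fin n → Fin 2) := fun i => finFunctionFinEquiv.symm
    ((Equiv.swap (Fin.castLE hk i₀) ⟨0, by positivity⟩) (Fin.castLE hk i))
  have he : Function.Injective e := fun i j h => Fin.castLE_injective hk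
    ((Equiv.swap _ _).injective (finFunctionFinEquiv.symm.injective h))
  have he0 : ∀ i, i ≠ i₀ → ∃ p, e i p = 1 := fun i hi => by
    by_contra hp
    simp only [not_exists] at hp
    have h0 : ∀ p, e i p = 0 := fun p => by have := hp p; omega
    refine hi (he (funext fun p => ?_))
    rw [h0]
    have hfun : finFunctionFinEquiv (0 : Fin n → Fin 2) = ⟨0, by positivity⟩ := by
      ext; simp
    have : e i₀ = 0 := by
      simp only [e, Equiv.swap_apply_left, ← hfun, Equiv.symm_apply_apply]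
    rw [this]; rfl
  let shift : UMap n := ⟨1, by simp, Pi.single ⟨0, hn⟩ (R - 2 * d)⟩
  have hshift : ∀ y, shift.app y = y + Pi.single ⟨0, hn⟩ (R - 2 * d) := fun y => by
    simp [shift, UMap.app, UMap.lin, Matrix.map_one]
  let T : Fin k → UMap n := fun i => if i = i₀ then UMap.id n else shift.comp (cell d (e i))
  have hT : ∀ i, i ≠ i₀ → ∀ y ∈ (T i).app '' osimp n d, y ∈ osimp n R ∧ a < ∑ j, y j := by
    rintro i hi _ ⟨y, hy, rfl⟩
    simp only [T, if_neg hi, UMap.comp_app, hshift]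
    set z := (cell d (e i)).app y with hz
    have hzm : z ∈ osimp n (((2 : ℕ) : ℝ) * d) := cell_maps hn (e i) ⟨y, hy, rfl⟩
    simp only [Nat.cast_ofNat] at hzm
    have hb := (psum_mem hy).2
    obtain ⟨p, hp⟩ := he0 i hi
    obtain ⟨q, rfl⟩ := (ord (e i)).surjective p
    have hq : psum z q = psum y (ord (e i) q) + d * (e i (ord (e i) q) : ℕ) := by
      rw [hz, psum_cell]
    rw [hp] at hq
    simp at hq
    have hle : psum z q ≤ ∑ j, z j :=
      sum_le_sum_of_subset_of_nonneg (by simp) fun j _ _ => (hzm.1 j).le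
    have hsum : ∑ j, (z + Pi.single ⟨0, hn⟩ (R - 2 * d) : Fin n → ℝ) j =
        ∑ j, z j + (R - 2 * d) := by
      simp [sum_add_distrib, Finset.sum_pi_single']
    refine ⟨⟨fun j => ?_, ?_⟩, ?_⟩
    · have := hzm.1 j
      simp only [Pi.add_apply, Pi.single_apply]
      split <;> linarith
    · rw [hsum]; linarith [hzm.2]
    · rw [hsum]; linarith [(hb (ord (e i) q)).1]
  have hi0img : ∀ y ∈ (T i₀).app '' osimp n a, y ∈ osimp n R ∧ ∑ j, y j < a := by
    rintro _ ⟨y, hy, rfl⟩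
    simp only [T, if_pos, UMap.id_app]
    exact ⟨⟨hy.1, hy.2.trans haR⟩, hy.2⟩
  let R' : Fin k → ℝ := fun i => if i = i₀ then a else d
  refine packs_of_simplices R' T (fun i => ?_) (fun i => ?_) fun i j hij => ?_
  · simp only [R']
    split
    next h => rw [h]; exact ha0
    next h => exact ha i h
  · by_cases hi : i = i₀
    · subst hi; simp only [R', if_pos]; exact fun y hy => (hi0img y hy).1
    · simp only [R', if_neg hi]; exact fun y hy => (hT i hi y hy).1
  · refine Set.disjoint_left.2 fun y hyi hyj => ?_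
    by_cases hi : i = i₀
    · subst hi
      simp only [R', if_pos] at hyi
      simp only [R', if_neg hij.symm] at hyj
      linarith [(hi0img y hyi).2, (hT j hij.symm y hyj).2]
    · by_cases hj : j = i₀
      · subst hj
        simp only [R', if_pos] at hyj
        simp only [R', if_neg hi] at hyi
        linarith [(hi0img y hyj).2, (hT i hi y hyi).2]
      · simp only [R', T, if_neg hi] at hyi
        simp only [R', T, if_neg hj] at hyj
        obtain ⟨u, hu, rfl⟩ := hyi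
        obtain ⟨v, hv, e'⟩ := hyj
        simp only [UMap.comp_app] at e'
        exact Set.disjoint_left.1 (cell_disjoint (he.ne hij)) ⟨u, hu, rfl⟩
          ⟨v, hv, shift.app_injective e'⟩

/-- geometric tail bound -/
theorem sum_Icc_half_pow_le (a b : ℕ) : ∑ l ∈ Icc a b, ((1 : ℝ) / 2) ^ l ≤ 2 * (1 / 2) ^ a := by
  have hsub : Icc a b ⊆ (range (b + 1)).image (fun i => a + i) := fun l hl => by
    simp at hl ⊢
    exact ⟨l - a, by omega, by omega⟩
  refine (sum_le_sum_of_subset_of_nonneg hsub fun i _ _ => by positivity).trans ?_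
  rw [sum_image (by simp)]
  simp only [pow_add, ← mul_sum]
  rw [mul_comm (2 : ℝ)]
  exact mul_le_mul_of_nonneg_left (sum_geometric_two_le _) (by positivity)

theorem exists_size {q l₀ : ℕ} (hq : 0 < q) {X : ℝ} (hX : (q : ℝ) * 2 ^ (l₀ + 1) ≤ X) :
    ∃ l m : ℕ, l₀ ≤ l ∧ q ≤ m ∧ m < 2 * q ∧ (m : ℝ) * 2 ^ l < X ∧ X ≤ ((m : ℝ) + 1) * 2 ^ l := by
  have hq' : (0 : ℝ) < q := by exact_mod_cast hq
  have hex : ∃ l : ℕ, X ≤ (q : ℝ) * 2 ^ (l + 1) := by
    obtain ⟨l, hl⟩ := pow_unbounded_of_one_lt (X / q) (show (1 : ℝ) < 2 by norm_num)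
    refine ⟨l, ?_⟩
    rw [div_lt_iff₀ hq'] at hl
    rw [pow_succ]; nlinarith [show (0 : ℝ) < 2 ^ l by positivity]
  set l := Nat.find hex with hl
  have hspec : X ≤ (q : ℝ) * 2 ^ (l + 1) := Nat.find_spec hex
  have hl0 : l₀ ≤ l := by
    by_contra h
    have h' : (2 : ℝ) ^ (l + 1) ≤ 2 ^ l₀ := pow_le_pow_right₀ (by norm_num) (by omega)
    rw [pow_succ] at hX
    nlinarith [show (0 : ℝ) < 2 ^ l₀ by positivity]
  have hlow : (q : ℝ) * 2 ^ l < X := by
    rcases Nat.eq_zero_or_pos l with h0 | h0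
    · rw [h0] at hl0 ⊢
      obtain rfl : l₀ = 0 := by omega
      simp at hX ⊢; linarith
    · have := Nat.find_min hex (m := l - 1) (by omega)
      rwa [not_le, Nat.sub_add_cancel h0] at this
  have h2 : (0 : ℝ) < 2 ^ l := by positivity
  set c := ⌈X / 2 ^ l⌉₊ with hc
  have hc1 : q < c := by
    have : (q : ℝ) < c := lt_of_lt_of_le (by rw [lt_div_iff₀ h2]; exact hlow) (Nat.le_ceil _)
    exact_mod_cast this
  have hc2 : c ≤ 2 * q := Nat.ceil_le.2 (by
    rw [div_le_iff₀ h2]; rw [pow_succ] at hspec; push_cast; linarith)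
  refine ⟨l, c - 1, hl0, by omega, by omega, ?_, ?_⟩
  · have : c - 1 < ⌈X / 2 ^ l⌉₊ := by omega
    rwa [Nat.lt_ceil, lt_div_iff₀ h2] at this
  · rw [show ((c - 1 : ℕ) : ℝ) + 1 = (c : ℝ) by rw [Nat.cast_sub (by omega)]; simp,
      ← div_le_iff₀ h2]
    exact Nat.le_ceil _

/-- the word of the `r`-th sub cell -/
def word (n m : ℕ) (hm : 0 < m) (r : ℕ) : Fin n → Fin m :=
  finFunctionFinEquiv.symm ⟨r % m ^ n, Nat.mod_lt _ (pow_pos hm n)⟩

/-- the `r`-th simplex of size `R / (2 ^ l * m)` in a dyadic cell -/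
noncomputable def subcell (R : ℝ) (l j m : ℕ) (hm : 0 < m) (r : ℕ) : UMap n :=
  (dy n R l j).comp (cell (R / (2 ^ l * m)) (word n m hm r))

theorem subcell_disjoint (R : ℝ) {l l' j j' m m' : ℕ} (hl : l = l') (hmm : m = m') (hm : 0 < m)
    (hm' : 0 < m') (hj : j = j') (r r' : ℕ) (hr : r % m ^ n ≠ r' % m ^ n) :
    Disjoint ((subcell (n := n) R l j m hm r).app '' osimp n (R / (2 ^ l * m)))
      ((subcell (n := n) R l' j' m' hm' r').app '' osimp n (R / (2 ^ l' * m'))) := by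
  subst hl hmm hj
  refine Set.disjoint_left.2 ?_
  rintro _ ⟨u, hu', rfl⟩ ⟨v, hv', e⟩
  simp only [subcell, UMap.comp_app] at e
  refine Set.disjoint_left.1 (cell_disjoint (fun h => hr ?_)) ⟨u, hu', rfl⟩
    ⟨v, hv', (dy n R l j).app_injective e⟩
  exact congrArg Fin.val (finFunctionFinEquiv.symm.injective h)

theorem packs_asymptotic (hn : 0 < n) {ε : ℝ} (hε : 0 < ε) : ∃ η : ℝ, 0 < η ∧
    ∀ (k : ℕ) (R : ℝ) (Rs : Fin k → ℝ), 0 < R → (∀ i, 0 < Rs i) → (∀ i, Rs i ≤ η * R) →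
      ∑ i, Rs i ^ n ≤ (1 - ε) * R ^ n → Packs n k R Rs := by
  classical
  wlog hε1 : ε < 1 generalizing ε
  · obtain ⟨η, hη, h⟩ := this (show (0 : ℝ) < 1 / 2 by norm_num) (by norm_num)
    refine ⟨η, hη, fun k R Rs hR hp hs hv => h k R Rs hR hp hs (hv.trans ?_)⟩
    exact mul_le_mul_of_nonneg_right (by linarith) (by positivity)
  obtain ⟨q, hqε, hq⟩ : ∃ q : ℕ, (1 + 1 / (q : ℝ)) ^ n * (1 - ε) < 1 - ε / 2 ∧ 0 < q := by
    have h1 : Filter.Tendsto (fun q : ℕ => (1 + 1 / (q : ℝ)) ^ n * (1 - ε)) Filter.atTop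
        (𝓝 ((1 + 0) ^ n * (1 - ε))) :=
      ((tendsto_const_nhds.add tendsto_one_div_atTop_nhds_zero_nat).pow n).mul tendsto_const_nhds
    exact ((h1.eventually (gt_mem_nhds (by simp; linarith))).and
      (Filter.eventually_gt_atTop 0)).exists
  have hq' : (0 : ℝ) < q := by exact_mod_cast hq
  obtain ⟨l₀, hl₀⟩ := exists_pow_lt_of_lt_one (show 0 < ε / (4 * q) by positivity)
    (show ((1 : ℝ) / 2) < 1 by norm_num)
  rw [lt_div_iff₀ (by positivity)] at hl₀
  refine ⟨1 / (q * 2 ^ (l₀ + 1)), by positivity, fun k R Rs hR hp hs hv => ?_⟩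
  have hX : ∀ i, (q : ℝ) * 2 ^ (l₀ + 1) ≤ R / Rs i := fun i => by
    have := hs i
    rw [one_div, inv_mul_eq_div, le_div_iff₀ (by positivity)] at this
    rw [le_div_iff₀ (hp i)]; linarith
  choose lv mm h1 h2 h3 h4 h5 using fun i => exists_size hq (hX i)
  let C : Fin k → ℕ × ℕ := fun i => (lv i, mm i)
  let cls : Finset (ℕ × ℕ) := univ.image C
  let cnt : ℕ × ℕ → ℕ := fun c => (univ.filter fun i => C i = c).card
  let rank : Fin k → ℕ := fun i => (univ.filter fun j => C j = C i ∧ j < i).card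
  have hrank : ∀ i, rank i < cnt (C i) := fun i =>
    card_lt_card ⟨fun j hj => by simp at hj ⊢; exact hj.1, fun h => by
      have := h (show i ∈ univ.filter (fun j => C j = C i) by simp)
      simp at this⟩
  have hinj : ∀ i j, C i = C j → rank i = rank j → i = j := by
    intro i j hC hr
    by_contra hne
    wlog hlt : i < j generalizing i j
    · exact this j i hC.symm hr.symm (Ne.symm hne) (lt_of_le_of_ne (not_lt.1 hlt) (Ne.symm hne))
    refine (ne_of_lt ?_) hr
    refine card_lt_card ⟨fun x hx => ?_, fun h => ?_⟩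
    · simp at hx ⊢; exact ⟨hx.1.trans hC, hx.2.trans hlt⟩
    · have := h (show i ∈ univ.filter (fun x => C x = C j ∧ x < j) by simp [hC, hlt])
      simp at this
  let slots := cls.sigma fun c => range ((cnt c - 1) / c.2 ^ n + 1)
  have hslot : ∀ i, (⟨C i, rank i / mm i ^ n⟩ : Σ _ : ℕ × ℕ, ℕ) ∈ slots := fun i => by
    have hmem : C i ∈ cls := mem_image_of_mem C (mem_univ i)
    simp only [slots, mem_sigma, mem_range, hmem, true_and]
    exact Nat.lt_succ_of_le (Nat.div_le_div_right (by have := hrank i; omega))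
  have hu : ∀ l : ℕ, ((2 ^ n : ℝ)⁻¹) ^ l ≤ (1 / 2) ^ l := fun l => by
    refine pow_le_pow_left₀ (by positivity) ?_ l
    rw [one_div]
    exact inv_anti₀ (by norm_num) (le_self_pow₀ (by norm_num) hn.ne')
  have hclsum : ∑ c ∈ cls, ((2 ^ n : ℝ)⁻¹) ^ c.1 ≤ ε / 2 := by
    have hsub : cls ⊆ Icc l₀ (univ.sup lv) ×ˢ Ico q (2 * q) := by
      intro c hc
      obtain ⟨i, -, rfl⟩ := mem_image.1 hc
      simp only [C, mem_product, mem_Icc, mem_Ico]
      exact ⟨⟨h1 i, le_sup (mem_univ i)⟩, h2 i, h3 i⟩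
    refine (sum_le_sum_of_subset_of_nonneg hsub fun c _ _ => by positivity).trans ?_
    rw [sum_product]
    simp only [sum_const, Nat.card_Ico, nsmul_eq_mul, ← mul_sum]
    rw [show 2 * q - q = q by omega]
    have := (sum_le_sum fun l _ => hu l).trans (sum_Icc_half_pow_le l₀ (univ.sup lv))
    nlinarith
  have hmain : ∑ c ∈ cls, (cnt c : ℝ) / (c.2 : ℝ) ^ n * ((2 ^ n : ℝ)⁻¹) ^ c.1 ≤ 1 - ε / 2 := by
    have hfib : ∑ c ∈ cls, (cnt c : ℝ) / (c.2 : ℝ) ^ n * ((2 ^ n : ℝ)⁻¹) ^ c.1 =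
        ∑ i, 1 / (mm i : ℝ) ^ n * ((2 ^ n : ℝ)⁻¹) ^ lv i := by
      rw [← sum_fiberwise_of_maps_to (g := C) (t := cls) (fun i _ => mem_image_of_mem C (mem_univ i))]
      refine sum_congr rfl fun c _ => ?_
      rw [sum_congr rfl (g := fun _ => 1 / (c.2 : ℝ) ^ n * ((2 ^ n : ℝ)⁻¹) ^ c.1) fun i hi => by
        rw [← (mem_filter.1 hi).2]]
      simp [cnt]; ring
    rw [hfib]
    have e : ∀ i, 1 / (mm i : ℝ) ^ n * ((2 ^ n : ℝ)⁻¹) ^ lv i * R ^ n ≤
        (1 + 1 / (q : ℝ)) ^ n * Rs i ^ n := fun i => by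
      have hm : (0 : ℝ) < mm i := by exact_mod_cast lt_of_lt_of_le hq (h2 i)
      rw [inv_pow, ← pow_mul, mul_comm n, pow_mul, ← inv_pow, ← _root_.one_div_pow, ← mul_pow, ← mul_pow,
        ← mul_pow]
      refine pow_le_pow_left₀ (by positivity) ?_ n
      have h5' := h5 i
      rw [div_le_iff₀ (hp i)] at h5'
      rw [show 1 / (mm i : ℝ) * ((2 : ℝ) ^ lv i)⁻¹ * R = R / ((mm i : ℝ) * 2 ^ lv i) by
        field_simp, div_le_iff₀ (by positivity)]
      have hge : (mm i : ℝ) + 1 ≤ (1 + 1 / (q : ℝ)) * mm i := by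
        have : (1 : ℝ) ≤ mm i / q := by rw [le_div_iff₀ hq']; exact_mod_cast (by simpa using h2 i)
        rw [add_mul, one_div_mul_eq_div]; linarith
      calc R ≤ ((mm i : ℝ) + 1) * 2 ^ lv i * Rs i := h5'
        _ ≤ (1 + 1 / (q : ℝ)) * mm i * 2 ^ lv i * Rs i := by gcongr; exact (hp i).le
        _ = _ := by ring
    have hsum := sum_le_sum (s := (univ : Finset (Fin k))) fun i _ => e i
    rw [← sum_mul, ← mul_sum] at hsum
    have h6 : (1 + 1 / (q : ℝ)) ^ n * ∑ i, Rs i ^ n ≤ (1 + 1 / (q : ℝ)) ^ n * ((1 - ε) * R ^ n) :=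
      mul_le_mul_of_nonneg_left hv (by positivity)
    nlinarith [pow_pos hR n]
  have hkraft : ∑ s : slots, ((2 ^ n : ℝ)⁻¹) ^ s.1.1.1 ≤ 1 := by
    rw [sum_coe_sort slots (fun s => ((2 ^ n : ℝ)⁻¹) ^ s.1.1), sum_sigma]
    simp only [sum_const, card_range, nsmul_eq_mul]
    calc ∑ c ∈ cls, (((cnt c - 1) / c.2 ^ n + 1 : ℕ) : ℝ) * ((2 ^ n : ℝ)⁻¹) ^ c.1
        ≤ ∑ c ∈ cls, ((cnt c : ℝ) / (c.2 : ℝ) ^ n * ((2 ^ n : ℝ)⁻¹) ^ c.1 +
            ((2 ^ n : ℝ)⁻¹) ^ c.1) := by
          refine sum_le_sum fun c _ => ?_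
          rw [← add_one_mul]
          refine mul_le_mul_of_nonneg_right ?_ (by positivity)
          push_cast
          gcongr
          refine Nat.cast_div_le.trans ?_
          push_cast
          gcongr
          exact_mod_cast Nat.sub_le (cnt c) 1
      _ ≤ 1 := by rw [sum_add_distrib]; linarith
  clear_value slots rank cnt cls
  obtain ⟨j, hj⟩ := exists_alloc hn R (fun s : slots => s.1.1.1) hkraft
  have hm0 : ∀ i, 0 < mm i := fun i => lt_of_lt_of_le hq (h2 i)
  let T : Fin k → UMap n := fun i => subcell R (lv i) (j ⟨_, hslot i⟩) (mm i) (hm0 i) (rank i)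
  have hsub : ∀ i, (T i).app '' osimp n (R / (2 ^ lv i * mm i)) ⊆
      dyImg n R (lv i) (j ⟨_, hslot i⟩) := by
    rintro i _ ⟨y, hy, rfl⟩
    refine ⟨_, ?_, (UMap.comp_app _ _ y).symm⟩
    have := cell_maps hn (word n (mm i) (hm0 i) (rank i)) ⟨y, hy, rfl⟩
    rwa [show (mm i : ℝ) * (R / (2 ^ lv i * mm i)) = R / 2 ^ lv i by
      have : (mm i : ℝ) ≠ 0 := by exact_mod_cast (hm0 i).ne'
      field_simp] at this
  refine packs_of_simplices (fun i => R / (2 ^ lv i * mm i)) T (fun i => ?_)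
    (fun i => (hsub i).trans (dyImg_subset hn R _ _)) fun i i' hne => ?_
  · have hh := h4 i
    have hm : (0 : ℝ) < mm i := by exact_mod_cast hm0 i
    rw [lt_div_iff₀ (by positivity)]
    rw [lt_div_iff₀ (hp i)] at hh
    linarith
  · by_cases hs' : (⟨_, hslot i⟩ : slots) = ⟨_, hslot i'⟩
    · have hC : C i = C i' := congrArg (fun s : slots => s.1.1) hs'
      have hdiv : rank i / mm i ^ n = rank i' / mm i' ^ n := congrArg (fun s : slots => s.1.2) hs'
      have hl : lv i = lv i' := congrArg Prod.fst hC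
      have hm : mm i = mm i' := congrArg Prod.snd hC
      have hmod : rank i % mm i ^ n ≠ rank i' % mm i' ^ n := fun e => hne (hinj i i' hC (by
        rw [← Nat.div_add_mod (rank i) (mm i ^ n), ← Nat.div_add_mod (rank i') (mm i' ^ n), e, hdiv,
          hm]))
      have hj' := congrArg j hs'
      have hr : rank i % mm i ^ n ≠ rank i' % mm i ^ n := by rw [hm] at hmod ⊢; exact hmod
      exact subcell_disjoint R hl hm (hm0 i) (hm0 i') hj' (rank i) (rank i') hr
    · have hd := hj ⟨_, hslot i⟩ ⟨_, hslot i'⟩ hs'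
      exact Disjoint.mono (hsub i) (hsub i') hd

end Vale.Agent.P209
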