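import Mathlib
import Vale.Agent.P209.HighDim

/-!
Balls of capacity below a third of the target: the volume condition is asymptotically exact,
uniformly in the number of balls.
-/

namespace Vale.Agent.P209

open Finset
open scoped Real

variable {n : ℕ}

theorem prod_update_mul (a : Fin n → ℝ) (i : Fin n) (v : ℝ) :
    (∏ j, Function.update a i v j) * a i = v * ∏ j, a j := by
  rw [← mul_prod_erase univ (Function.update a i v) (mem_univ i),
    ← mul_prod_erase univ a (mem_univ i), Function.update_self,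
    prod_congr rfl fun j hj => Function.update_of_ne (ne_of_mem_erase hj) v a]
  ring

open Classical in
/-- bin packing with one item of waste per bin -/
theorem exists_bins {ι P : Type} [Fintype ι] [Fintype P] [Nonempty P] (w : ι → ℝ) (W : P → ℝ)
    {M : ℝ} (hW : ∀ p, 0 ≤ W p) (hw : ∀ i, 0 ≤ w i ∧ w i ≤ M)
    (h : ∑ i, w i ≤ ∑ p, (W p - M)) :
    ∃ f : ι → P, ∀ p, ∑ i, (if f i = p then w i else 0) ≤ W p := by
  classical
  suffices H : ∀ s : Finset ι, ∃ f : ι → P, ∀ p, ∑ i ∈ s, (if f i = p then w i else 0) ≤ W p from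
    H univ
  intro s
  induction s using Finset.induction_on with
  | empty => exact ⟨fun _ => Classical.arbitrary P, fun p => by simpa using hW p⟩
  | insert i s hi ih =>
    obtain ⟨f, hf⟩ := ih
    obtain ⟨p₀, hp₀⟩ : ∃ p, ∑ j ∈ s, (if f j = p then w j else 0) + w i ≤ W p := by
      by_contra hno
      push Not at hno
      have h1 : ∑ p, (W p - M) < ∑ p, ∑ j ∈ s, (if f j = p then w j else 0) :=
        sum_lt_sum_of_nonempty univ_nonempty fun p _ => by linarith [hno p, (hw i).2]
      have h2 : ∑ p, ∑ j ∈ s, (if f j = p then w j else 0) = ∑ j ∈ s, w j := by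
        rw [sum_comm]; simp
      have h3 : ∑ j ∈ s, w j ≤ ∑ j, w j :=
        sum_le_sum_of_subset_of_nonneg (subset_univ s) fun j _ _ => (hw j).1
      linarith
    refine ⟨Function.update f i p₀, fun p => ?_⟩
    rw [sum_insert hi, Function.update_self,
      sum_congr rfl fun j hj => by rw [Function.update_of_ne fun e : j = i => hi (e ▸ hj)]]
    by_cases hp : p₀ = p
    · subst hp; rw [if_pos rfl]; linarith
    · rw [if_neg hp, zero_add]; exact hf p

/-- growing long axes with no loss of volume -/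
theorem grow {g R : ℝ} (hg : 0 < g) (hR : 3 * g ≤ R) : ∀ (S : List (Fin n)) (L : Fin n)
    (a : Fin n → ℝ), S.Nodup → L ∉ S → (∀ j, g ≤ a j) → (∀ h ∈ S, a h = R) → 3 * g ≤ a L →
    ∃ (P : Type) (_ : Fintype P) (b : P → Fin n → ℝ) (Lp : P → Fin n),
      Fintype.card P ≤ 2 ^ S.length ∧
      (∀ p, Lp p ∈ L :: S ∧ 3 * g ≤ b p (Lp p) ∧ (∀ j, g ≤ b p j) ∧
        ∀ j, j ∉ L :: S → b p j = a j) ∧
      ∑ p, ∏ j, b p j = ∏ j, a j ∧
      ∑ p, (∏ j, b p j) / b p (Lp p) ≤ (8 / 9) ^ S.length * ((∏ j, a j) / a L) ∧ Fills a b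
  | [], L, a, _, _, ha, _, haL =>
    ⟨Unit, inferInstance, fun _ => a, fun _ => L, by simp,
      fun _ => ⟨List.mem_cons_self, haL, ha, fun _ _ => rfl⟩, by simp, by simp,
      fills_incl (fun j => hg.trans_le (ha j)) fun _ => le_rfl⟩
  | h :: S, L, a, hnd, hL, ha, hS, haL => by
    obtain ⟨hh, hnd'⟩ := List.nodup_cons.1 hnd
    simp only [List.mem_cons, not_or] at hL
    obtain ⟨hLh, hLS⟩ := hL
    have hpos : ∀ j, 0 < a j := fun j => hg.trans_le (ha j)
    set q := ⌊a L / g⌋₊ with hq
    have hq3 : 3 ≤ q := Nat.le_floor (by rw [le_div_iff₀ hg]; push_cast; linarith)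
    have hq3' : (3 : ℝ) ≤ q := by exact_mod_cast hq3
    have hq1 : (q : ℝ) * g ≤ a L := by
      rw [← le_div_iff₀ hg]; exact Nat.floor_le (div_pos (hpos L) hg).le
    have hq2 : a L < ((q : ℝ) + 1) * g := by
      rw [← div_lt_iff₀ hg]; exact Nat.lt_floor_add_one _
    set u := a L / q with hu
    have huq : a L = u * q := by rw [hu]; field_simp
    have hug : g ≤ u := by rw [hu, le_div_iff₀ (by linarith)]; linarith
    have hu4 : u ≤ 4 / 3 * g := by rw [hu, div_le_iff₀ (by linarith)]; nlinarith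
    have hah : a h = R := hS h List.mem_cons_self
    have huR : u < a h := by rw [hah]; linarith
    have hu0 : 0 < u := hg.trans_le hug
    have hsl := fills_slant hpos (Ne.symm hLh) hu0 huR (show 0 < q by omega) huq
    set b₁ := Function.update a h u with hb₁
    set v := (a h - u) * q with hv
    set b₂ := Function.update (Function.update a h v) L u with hb₂
    have hv3 : 3 * g ≤ v := by
      rw [hv, hah]
      calc 3 * g ≤ (5 / 3 * g) * 3 := by linarith
        _ ≤ (R - u) * q := by gcongr <;> linarith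
    have hne : ∀ j ∈ S, j ≠ L ∧ j ≠ h :=
      fun j hj => ⟨fun e => hLS (e ▸ hj), fun e => hh (e ▸ hj)⟩
    obtain ⟨P₁, _, c₁, L₁, hc₁, hp₁, hV₁, hF₁', hF₁⟩ := grow hg hR S L b₁ hnd' hLS
      (fun j => by
        rw [hb₁]
        by_cases e : j = h
        · rw [e, Function.update_self]; exact hug
        · rw [Function.update_of_ne e]; exact ha j)
      (fun j hj => by
        rw [hb₁, Function.update_of_ne (hne j hj).2]; exact hS j (List.mem_cons_of_mem _ hj))
      (by rw [hb₁, Function.update_of_ne hLh]; exact haL)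
    obtain ⟨P₂, _, c₂, L₂, hc₂, hp₂, hV₂, hF₂', hF₂⟩ := grow hg hR S h b₂ hnd' hh
      (fun j => by
        rw [hb₂]
        by_cases e : j = L
        · rw [e, Function.update_self]; exact hug
        · rw [Function.update_of_ne e]
          by_cases e' : j = h
          · rw [e', Function.update_self]; linarith
          · rw [Function.update_of_ne e']; exact ha j)
      (fun j hj => by
        rw [hb₂, Function.update_of_ne (hne j hj).1, Function.update_of_ne (hne j hj).2]
        exact hS j (List.mem_cons_of_mem _ hj))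
      (by rw [hb₂, Function.update_of_ne (Ne.symm hLh), Function.update_self]; exact hv3)
    have hR0 : R ≠ 0 := by linarith
    have e₁ : (∏ j, b₁ j) = u * (∏ j, a j) / R := by
      have hR0 : R ≠ 0 := by linarith
      rw [hb₁, eq_div_iff hR0, ← hah, prod_update_mul]
    have e₂ : (∏ j, b₂ j) = (R - u) * (∏ j, a j) / R := by
      have h1 := prod_update_mul (Function.update a h v) L u
      rw [Function.update_of_ne hLh, ← hb₂] at h1
      have h2 := prod_update_mul a h v
      rw [hah] at h2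
      have hR0 : R ≠ 0 := by linarith
      rw [eq_div_iff hR0]
      apply mul_right_cancel₀ (hpos L).ne'
      calc (∏ j, b₂ j) * R * a L = (∏ j, b₂ j) * a L * R := by ring
        _ = u * ((∏ j, Function.update a h v j) * R) := by rw [h1]; ring
        _ = _ := by rw [h2, hv, hah, huq]; ring
    refine ⟨P₁ ⊕ P₂, inferInstance, Sum.elim c₁ c₂, Sum.elim L₁ L₂, ?_, ?_, ?_, ?_,
      Fills.two hsl hF₁ hF₂⟩
    · rw [Fintype.card_sum, List.length_cons, pow_succ]; omega
    · rintro (p | p)
      · refine ⟨?_, (hp₁ p).2.1, (hp₁ p).2.2.1, fun j hj => ?_⟩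
        · have := (hp₁ p).1
          simp only [List.mem_cons] at this ⊢
          tauto
        · simp only [List.mem_cons, not_or] at hj
          rw [Sum.elim_inl, (hp₁ p).2.2.2 j (by simp [hj]), hb₁, Function.update_of_ne hj.2.1]
      · refine ⟨?_, (hp₂ p).2.1, (hp₂ p).2.2.1, fun j hj => ?_⟩
        · have := (hp₂ p).1
          simp only [List.mem_cons] at this ⊢
          tauto
        · simp only [List.mem_cons, not_or] at hj
          rw [Sum.elim_inr, (hp₂ p).2.2.2 j (by simp [hj]), hb₂, Function.update_of_ne hj.1,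
            Function.update_of_ne hj.2.1]
    · simp only [Fintype.sum_sum_type, Sum.elim_inl, Sum.elim_inr, hV₁, hV₂, e₁, e₂]
      field_simp
      ring
    · simp only [Fintype.sum_sum_type, Sum.elim_inl, Sum.elim_inr]
      refine (add_le_add hF₁' hF₂').trans ?_
      rw [hb₁, Function.update_of_ne hLh, ← hb₁, e₁, hb₂, Function.update_of_ne (Ne.symm hLh),
        Function.update_self, ← hb₂, e₂, List.length_cons, pow_succ]
      have hP : 0 ≤ (∏ j, a j) / a L := div_nonneg (prod_nonneg fun j _ => (hpos j).le) (hpos L).le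
      have e₃ : u * (∏ j, a j) / R / a L = u / R * ((∏ j, a j) / a L) := by ring
      have e₄ : (R - u) * (∏ j, a j) / R / v = u / R * ((∏ j, a j) / a L) := by
        have : R - u ≠ 0 := by linarith
        rw [hv, hah, huq]
        field_simp
      rw [e₃, e₄]
      calc (8 / 9 : ℝ) ^ S.length * (u / R * ((∏ j, a j) / a L)) +
            (8 / 9) ^ S.length * (u / R * ((∏ j, a j) / a L))
          = (8 / 9 : ℝ) ^ S.length * (2 * u / R) * ((∏ j, a j) / a L) := by ring
        _ ≤ (8 / 9 : ℝ) ^ S.length * (8 / 9) * ((∏ j, a j) / a L) := by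
          have h5 : 2 * u / R ≤ 8 / 9 := by rw [div_le_iff₀ (by linarith)]; linarith
          exact mul_le_mul_of_nonneg_right (mul_le_mul_of_nonneg_left h5 (by positivity)) hP

/-- balls below `R / 3` and volume below `(1 - δ) R ^ n` -/
theorem packs_small_exact {δ : ℝ} (hδ : 0 < δ) :
    ∃ n₀ : ℕ, ∀ n ≥ n₀, ∀ (k : ℕ) (R : ℝ) (Rs : Fin k → ℝ), 0 < R → (∀ i, 0 < Rs i) →
      (∀ i, Rs i < R / 3) → ∑ i, Rs i ^ n ≤ (1 - δ) * R ^ n → Packs n k R Rs := by
  classical
  set η := min δ 1 / 5 with hηdef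
  have hη : 0 < η := div_pos (lt_min hδ one_pos) (by norm_num)
  have hη1 : η ≤ 1 / 5 := div_le_div_of_nonneg_right (min_le_right _ _) (by norm_num)
  have hηδ : 5 * η ≤ δ := by rw [hηdef]; linarith [min_le_left δ 1]
  obtain ⟨j₁, hj₁⟩ := Filter.eventually_atTop.1
    ((tendsto_self_mul_const_pow_of_lt_one (show (0 : ℝ) ≤ 8 / 9 by norm_num)
      (by norm_num)).eventually (gt_mem_nhds (show (0 : ℝ) < η ^ 3 / 11 by positivity)))
  obtain ⟨j₂, hj₂⟩ := exists_pow_lt_of_lt_one hη (show (2 / 3 : ℝ) < 1 by norm_num)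
  refine ⟨4 * (j₁ + j₂ + 4), fun n hn k R Rs hR hpos hsm hvol => ?_⟩
  rcases Nat.eq_zero_or_pos k with rfl | hk
  · exact ⟨fun i => i.elim0, fun i => i.elim0, fun i => i.elim0⟩
  set d := n / 4 with hd
  have hd4 : 4 ≤ d := by omega
  set g := R / 3 with hgdef
  have hg : 0 < g := by positivity
  let L : Fin n := ⟨0, by omega⟩
  let S : List (Fin n) := List.ofFn fun i : Fin d => ⟨1 + i, by omega⟩
  let M : List (Fin n) := List.ofFn fun i : Fin (n - 1 - d) => ⟨1 + d + i, by omega⟩
  have hSm : ∀ {x}, x ∈ S ↔ 1 ≤ (x : ℕ) ∧ (x : ℕ) < 1 + d := by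
    intro x
    simp only [S, List.mem_ofFn]
    constructor
    · rintro ⟨i, rfl⟩; exact ⟨by simp, by simp⟩
    · intro h; exact ⟨⟨x - 1, by omega⟩, by ext; simp; omega⟩
  have hMm : ∀ {x}, x ∈ M ↔ 1 + d ≤ (x : ℕ) := by
    intro x
    simp only [M, List.mem_ofFn]
    constructor
    · rintro ⟨i, rfl⟩; simp
    · intro h
      have := x.isLt
      exact ⟨⟨x - (1 + d), by omega⟩, by ext; simp; omega⟩
  have hSnd : S.Nodup := List.nodup_ofFn.2 fun i j h => by
    simp [Fin.ext_iff] at h; exact Fin.ext h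
  have hMnd : M.Nodup := List.nodup_ofFn.2 fun i j h => by
    simp [Fin.ext_iff] at h; exact Fin.ext h
  have hSl : S.length = d := List.length_ofFn
  have hMl : M.length = n - 1 - d := List.length_ofFn
  have hLS : L ∉ S := fun e => by have := (hSm.1 e).1; simp [L] at this
  have hLSnd : (L :: S).Nodup := List.nodup_cons.2 ⟨hLS, hSnd⟩
  obtain ⟨P, _, b, Lp, hcard, hp, hV, hPhi, hF⟩ := grow hg (show 3 * g ≤ R by linarith) S L
    (fun _ => R) hSnd hLS (fun _ => by linarith) (fun _ _ => rfl) (by linarith)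
  simp only [prod_const, card_univ, Fintype.card_fin, hSl] at hV hPhi
  set q := 1 - η / n with hqdef
  have hn0 : (0 : ℝ) < n := by exact_mod_cast (show 0 < n by omega)
  have hηn : η / n < 1 := by
    rw [div_lt_one hn0]
    have : (16 : ℝ) ≤ n := by exact_mod_cast (show 16 ≤ n by omega)
    linarith
  have hq0 : 0 < q := by rw [hqdef]; linarith
  have hq1 : q < 1 := by rw [hqdef]; linarith [div_pos hη hn0]
  have hqn : 1 - η ≤ q ^ n := by
    have := one_add_mul_le_pow (a := -(η / n)) (by linarith) n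
    rw [show (n : ℝ) * -(η / n) = -η by field_simp] at this
    rw [hqdef]; simpa [sub_eq_add_neg] using this
  set C₀ := ((1 + (1 / 2 : ℝ)) / (1 / 2) + 1) * (g / (1 - q)) with hC₀
  have hC₀' : C₀ = 4 * g * n / η := by
    rw [hC₀, hqdef, sub_sub_cancel]; field_simp; ring
  set T := C₀ / η with hT
  have hT0 : 0 < T := by rw [hT, hC₀']; positivity
  let good : Finset P := univ.filter fun p => T ≤ b p (Lp p)
  have hbp : ∀ p j, 0 < b p j := fun p j => hg.trans_le ((hp p).2.2.1 j)
  have hVp : ∀ p, 0 ≤ ∏ j, b p j := fun p => prod_nonneg fun j _ => (hbp p j).le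
  have hbad : ∑ p ∈ univ.filter (fun p => ¬ T ≤ b p (Lp p)), ∏ j, b p j ≤ η * R ^ n := by
    calc ∑ p ∈ univ.filter (fun p => ¬ T ≤ b p (Lp p)), ∏ j, b p j
        ≤ ∑ p ∈ univ.filter (fun p => ¬ T ≤ b p (Lp p)), T * ((∏ j, b p j) / b p (Lp p)) := by
          refine sum_le_sum fun p hp' => ?_
          have h1 := not_le.1 (mem_filter.1 hp').2
          rw [mul_div_assoc', le_div_iff₀ (hbp p _), mul_comm T]
          exact mul_le_mul_of_nonneg_left h1.le (hVp p)
      _ ≤ ∑ p, T * ((∏ j, b p j) / b p (Lp p)) :=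
          sum_le_sum_of_subset_of_nonneg (subset_univ _)
            fun p _ _ => mul_nonneg hT0.le (div_nonneg (hVp p) (hbp p _).le)
      _ ≤ T * ((8 / 9) ^ d * (R ^ n / R)) := by rw [← mul_sum]; gcongr
      _ = 4 / (3 * η ^ 2) * ((n : ℝ) * (8 / 9) ^ d) * R ^ n := by
          rw [hT, hC₀', hgdef]; field_simp
      _ ≤ 4 / (3 * η ^ 2) * (8 * (η ^ 3 / 11)) * R ^ n := by
          have h1 : (n : ℝ) * (8 / 9) ^ d ≤ 8 * (η ^ 3 / 11) := by
            have h2 := hj₁ d (by omega)
            have h3 : (n : ℝ) ≤ 8 * d := by exact_mod_cast (show n ≤ 8 * d by omega)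
            have h4 := mul_le_mul_of_nonneg_right h3 (pow_nonneg (show (0 : ℝ) ≤ 8 / 9 by norm_num) d)
            linarith
          exact mul_le_mul_of_nonneg_right (mul_le_mul_of_nonneg_left h1 (by positivity))
            (by positivity)
      _ ≤ η * R ^ n := by
          gcongr
          field_simp
          norm_num
  let W : good → ℝ := fun p => q ^ n * ((∏ j, b p j) * (1 - C₀ / b p (Lp p)))
  have hWge : ∀ p : good, (1 - 2 * η) * ∏ j, b p j ≤ W p := by
    intro p
    have h1 : C₀ / b p (Lp p) ≤ η := by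
      rw [div_le_iff₀ (hbp _ _)]
      have := (mem_filter.1 p.2).2
      rw [hT, div_le_iff₀ hη] at this
      linarith
    calc (1 - 2 * η) * ∏ j, b p j ≤ (1 - η) * ((∏ j, b p j) * (1 - η)) := by
          nlinarith [mul_nonneg (sq_nonneg η) (hVp p)]
      _ ≤ W p := mul_le_mul hqn (mul_le_mul_of_nonneg_left (by linarith) (hVp _))
          (mul_nonneg (hVp _) (by linarith)) (by positivity)
  have hW0 : ∀ p : good, 0 ≤ W p :=
    fun p => (mul_nonneg (by linarith) (hVp _)).trans (hWge p)
  have hwaste : (Fintype.card P : ℝ) * g ^ n ≤ η * R ^ n := by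
    calc (Fintype.card P : ℝ) * g ^ n ≤ 2 ^ n * g ^ n := by
          gcongr
          calc (Fintype.card P : ℝ) ≤ 2 ^ d := by exact_mod_cast (hSl ▸ hcard)
            _ ≤ 2 ^ n := pow_le_pow_right₀ one_le_two (by omega)
      _ = (2 / 3) ^ n * R ^ n := by rw [hgdef, ← mul_pow, ← mul_pow]; ring_nf
      _ ≤ η * R ^ n := by
          gcongr
          exact (pow_le_pow_of_le_one (by norm_num) (by norm_num) (by omega)).trans hj₂.le
  have hsum : ∑ i, Rs i ^ n ≤ ∑ p : good, (W p - g ^ n) := by
    have h1 : ∑ p ∈ good, (∏ j, b p j) + η * R ^ n ≥ R ^ n := by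
      have := sum_filter_add_sum_filter_not univ (fun p => T ≤ b p (Lp p))
        (fun p => ∏ j, b p j)
      rw [hV] at this
      linarith
    rw [sum_sub_distrib, sum_const, card_univ, Fintype.card_coe, nsmul_eq_mul]
    have h2 : (good.card : ℝ) * g ^ n ≤ η * R ^ n :=
      le_trans (by gcongr; exact_mod_cast card_le_univ good) hwaste
    have h3 : (1 - 2 * η) * ∑ p ∈ good, (∏ j, b p j) ≤ ∑ p : good, W p := by
      rw [mul_sum, ← sum_coe_sort good]
      exact sum_le_sum fun p _ => hWge p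
    have h5 := mul_le_mul_of_nonneg_left (sub_le_iff_le_add.2 h1) (show 0 ≤ 1 - 2 * η by linarith)
    have h6 := mul_nonneg (show 0 ≤ δ - 4 * η by linarith) (pow_pos hR n).le
    have h7 := mul_nonneg (sq_nonneg η) (pow_pos hR n).le
    linarith
  have hne : Nonempty good := by
    by_contra h
    rw [not_nonempty_iff] at h
    rw [univ_eq_empty (α := good), sum_empty] at hsum
    have : Nonempty (Fin k) := ⟨⟨0, hk⟩⟩
    exact absurd hsum (not_le.2 (sum_pos (fun i _ => pow_pos (hpos i) n) univ_nonempty))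
  obtain ⟨f, hf⟩ := exists_bins (fun i => Rs i ^ n) W hW0
    (fun i => ⟨(pow_pos (hpos i) n).le, pow_le_pow_left₀ (hpos i).le (hsm i).le n⟩) hsum
  have hlen : (2 : ℝ) ^ (d + 1) ≤ (1 + 1 / 2) ^ M.length := by
    obtain ⟨e, he⟩ : ∃ e, d = e + 4 := ⟨d - 4, by omega⟩
    calc (2 : ℝ) ^ (d + 1) = 2 ^ e * 32 := by rw [he]; ring
      _ ≤ (27 / 8) ^ e * (1 + 1 / 2) ^ 11 := by gcongr <;> norm_num
      _ = (1 + 1 / 2) ^ (3 * e + 11) := by rw [pow_add, pow_mul]; norm_num
      _ ≤ _ := pow_le_pow_right₀ (by norm_num) (by rw [hMl]; omega)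
  have hclass : ∀ p : good, ∃ B : {i // f i = p} → ℝ,
      (∀ i : {i // f i = p}, Rs i < B i) ∧ Fills (b p) fun i => fun _ : Fin n => B i := by
    intro p
    obtain ⟨hpL, hp3, hpg, hpo⟩ := hp p
    have hl : ∀ x, x ∈ L :: S ↔ (x : ℕ) < 1 + d := fun x => by
      rw [List.mem_cons, hSm, Fin.ext_iff]
      show (x : ℕ) = 0 ∨ _ ↔ _
      omega
    have hnm : ∀ {x}, x ∈ (L :: S).erase (Lp p) ↔ x ≠ Lp p ∧ x ∈ L :: S :=
      fun {x} => hLSnd.mem_erase_iff
    have hnd : (M ++ (L :: S).erase (Lp p)).Nodup :=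
      List.nodup_append.2 ⟨hMnd, hLSnd.erase _, fun x hx y hy e => by
        have h1 := hMm.1 hx
        have h2 := (hl y).1 (hnm.1 hy).2
        have := congrArg Fin.val e
        omega⟩
    have hLpM : Lp p ∉ M ++ (L :: S).erase (Lp p) := fun e => by
      rcases List.mem_append.1 e with e | e
      · have := hMm.1 e; have := (hl _).1 hpL; omega
      · exact (hnm.1 e).1 rfl
    have hall : ∀ x, x ≠ Lp p → x ∈ M ++ (L :: S).erase (Lp p) := fun x hx => by
      rw [List.mem_append, hnm, hMm, hl]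
      rcases Nat.lt_or_ge (x : ℕ) (1 + d) with h | h
      · exact Or.inr ⟨hx, h⟩
      · exact Or.inl h
    have hA : ((M ++ (L :: S).erase (Lp p)).map (b p)).prod = (∏ j, b p j) / b p (Lp p) := by
      rw [eq_div_iff (hbp _ _).ne', ← List.prod_toFinset _ hnd,
        show (M ++ (L :: S).erase (Lp p)).toFinset = univ.erase (Lp p) from ext fun x => by
          rw [List.mem_toFinset, mem_erase]
          exact ⟨fun h => ⟨fun e => hLpM (e ▸ h), mem_univ x⟩, fun h => hall x h.1⟩,
        prod_erase_mul _ _ (mem_univ _)]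
    refine fills_classes (δ := 1 / 2) (u₀ := g) (q := q) (by norm_num) hg hq0 hq1 (Lp p) M
      ((L :: S).erase (Lp p)) hnd hLpM hall (b p) (hbp p) (fun x hx => ?_) (fun x _ => hpg x)
      ?_ hA.symm (fun i : {i // f i = p} => Rs i) (fun i => hpos _) (fun i => hsm _) ?_
    · rw [hpo x fun e => by have := (hl x).1 e; have := hMm.1 hx; omega]
      linarith
    · rw [List.length_erase_of_mem hpL, List.length_cons, hSl]
      simpa using hlen
    · have h1 : ∑ i : {i // f i = p}, Rs i ^ n ≤ W p := by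
        rw [← sum_subtype (univ.filter fun i => f i = p) (p := fun i => f i = p) (by simp)
          fun i => Rs i ^ n, sum_filter]
        convert hf p
      simp only [div_pow, ← sum_div]
      rw [← hC₀]
      have hY := hbp p (Lp p)
      have hA0 : 0 < (∏ j, b p j) / b p (Lp p) := div_pos (prod_pos fun j _ => hbp p j) hY
      rw [← le_sub_iff_add_le', div_le_iff₀ hA0, div_le_iff₀ (by positivity)]
      refine h1.trans (le_of_eq ?_)
      simp only [W]
      field_simp
  choose B hB hBF using hclass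
  refine packs_of_fills hR (fun i => B (f i) ⟨i, rfl⟩) hpos (fun i => hB _ ⟨i, rfl⟩) ?_
  refine (((hF.sub (e := fun p : good => (p : P)) Subtype.val_injective).trans
    (κ := fun p : good => {i // f i = p}) (c := fun z => fun _ => B z.1 z.2) fun p => hBF p).sub
      (e := fun i => ⟨f i, i, rfl⟩) ?_).congr fun _ => rfl
  exact fun i j h => congrArg (fun z : Σ p : good, {i // f i = p} => (z.2 : Fin k)) h

end Vale.Agent.P209
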