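import Mathlib
import Vale.Agent.P209.Alloc

/-!
A universal volume constant: in every dimension, the pair conditions and
`∑ R_i ^ n ≤ c R ^ n` suffice for a packing.
-/

namespace Vale.Agent.P209

open Finset
open scoped Real Topology

variable {n : ℕ}

/-- cutting every axis into equal parts -/
theorem fills_split (a : Fin n → ℝ) (ha : ∀ j, 0 < a j) (q : Fin n → ℕ) (hq : ∀ j, 0 < q j) :
    Fills a fun _ : Fin (∏ j, q j) => fun j => a j / q j := by
  classical
  suffices H : ∀ (s : Finset (Fin n)) (a : Fin n → ℝ), (∀ j, 0 < a j) →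
      Fills a fun _ : Fin (∏ j ∈ s, q j) => fun j => if j ∈ s then a j / q j else a j by
    refine (H univ a ha).congr fun i => ?_
    funext j
    rw [if_pos (mem_univ j)]
  intro s
  induction s using Finset.induction_on with
  | empty =>
    intro a ha
    refine ((fills_incl ha fun _ => le_rfl).sub (e := fun _ => ()) fun i j _ => ?_).congr
      fun _ => ?_
    · exact Fin.ext (by have := i.isLt; have := j.isLt; simp at *; omega)
    · funext j; simp only [Function.comp_apply]; simp
  | insert k s hk ih =>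
    intro a ha
    have hq' : (0 : ℝ) < q k := by exact_mod_cast hq k
    have hseg := fills_segments (univ : Finset (Fin (q k))) k (fun _ => a k / q k) a ha
      (fun _ _ => div_pos (ha k) hq') (by
        rw [sum_const, card_univ, Fintype.card_fin, nsmul_eq_mul, mul_div_cancel₀ _ hq'.ne'])
    have hall := Fills.trans (c := fun p : Σ _ : (univ : Finset (Fin (q k))),
        Fin (∏ j ∈ s, q j) => fun j => if j ∈ s then Function.update a k (a k / q k) j / q j
          else Function.update a k (a k / q k) j)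
      hseg fun _ => ih _ (update_pos ha k (div_pos (ha k) hq'))
    let e : Fin (∏ j ∈ insert k s, q j) → Σ _ : (univ : Finset (Fin (q k))), Fin (∏ j ∈ s, q j) :=
      fun i => ⟨⟨(finProdFinEquiv.symm (Fin.cast (prod_insert hk) i)).1, mem_univ _⟩,
        (finProdFinEquiv.symm (Fin.cast (prod_insert hk) i)).2⟩
    refine (hall.sub (e := e) fun i j he => ?_).congr fun i => ?_
    · refine Fin.cast_injective (prod_insert hk) (finProdFinEquiv.symm.injective ?_)
      exact congrArg
        (fun p : Σ _ : (univ : Finset (Fin (q k))), Fin (∏ j ∈ s, q j) => (p.1.1, p.2)) he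
    · funext j
      simp only [Function.comp_apply, mem_insert]
      by_cases hjk : j = k
      · subst hjk; simp [hk]
      · simp [hjk, Function.update_of_ne hjk]

theorem prod_split (a : Fin n → ℝ) (q : Fin n → ℕ) (hq : ∀ j, 0 < q j) :
    ((∏ j, q j : ℕ) : ℝ) * ∏ j, a j / q j = ∏ j, a j := by
  rw [Nat.cast_prod, ← prod_mul_distrib]
  exact prod_congr rfl fun j _ => mul_div_cancel₀ _ (by exact_mod_cast (hq j).ne')

theorem exists_k0 (hn : 0 < n) : ∃ k₀ : ℕ, 4 * n ≤ 2 ^ k₀ ∧ 2 ^ k₀ ≤ 8 * n ∧ k₀ ≤ n + 2 := by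
  refine ⟨Nat.log 2 n + 3, ?_, ?_, ?_⟩
  · have := Nat.lt_pow_succ_log_self one_lt_two n
    rw [pow_succ] at this
    rw [pow_add]; omega
  · have := Nat.pow_log_le_self 2 hn.ne'
    rw [pow_add]; omega
  · have := Nat.log_lt_self 2 hn.ne'
    omega

theorem pieces_slab {R s : ℝ} (hs : 0 < s) (hsR : s < R) :
    ∀ j ≤ n, Fills (fun _ : Fin n => R) (Sum.elim
      (fun i : Fin j => fun k : Fin n => if (k : ℕ) < i then s else if (k : ℕ) = i then R - s else R)
      (fun _ : Unit => fun k : Fin n => if (k : ℕ) < j then s else R)) ∧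
      (∑ i : Fin j, ∏ k : Fin n,
        (if (k : ℕ) < i then s else if (k : ℕ) = i then R - s else R))
        + ∏ k : Fin n, (if (k : ℕ) < j then s else R) = R ^ n := by
  intro j
  induction j with
  | zero =>
    intro _
    refine ⟨((fills_incl (fun _ => hs.trans hsR) fun _ => le_rfl).sub (e := fun _ => ())
      fun x y _ => ?_).congr fun x => ?_, by simp⟩
    · rcases x with x | x
      · exact x.elim0
      · rcases y with y | y
        · exact y.elim0
        · rfl
    · rcases x with x | x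
      · exact x.elim0
      · simp
  | succ j ih =>
    intro hj
    obtain ⟨hF, hsum⟩ := ih (by omega)
    let K : Fin n := ⟨j, by omega⟩
    set v : Fin n → ℝ := fun k => if (k : ℕ) < j then s else R with hv
    have hvpos : ∀ k, 0 < v k := fun k => by
      simp only [hv]; split_ifs
      · exact hs
      · exact hs.trans hsR
    have hvK : v K = R := by simp [hv, K]
    set p₂ : Fin n → ℝ := fun k => if (k : ℕ) < j then s else if (k : ℕ) = j then R - s else R
      with hp₂
    have e₁ : Function.update v K s = fun k : Fin n => if (k : ℕ) < j + 1 then s else R := by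
      funext k
      by_cases hk : k = K
      · subst hk; simp [K]
      · have hkj : (k : ℕ) ≠ j := fun e => hk (Fin.ext e)
        rw [Function.update_of_ne hk]
        simp only [hv]
        split_ifs <;> first | rfl | omega
    have e₂ : Function.update v K (v K - s) = p₂ := by
      funext k
      by_cases hk : k = K
      · subst hk; rw [Function.update_self, hvK]; simp [hp₂, K]
      · have hkj : (k : ℕ) ≠ j := fun e => hk (Fin.ext e)
        rw [Function.update_of_ne hk]
        simp [hv, hp₂, hkj]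
    refine ⟨?_, ?_⟩
    · have hcut := fills_cut hvpos K hs (show s < v K by rw [hvK]; exact hsR)
      rw [e₁, e₂] at hcut
      have hall := Fills.trans
        (κ := fun x : Fin j ⊕ Unit => match x with
          | Sum.inl _ => Unit
          | Sum.inr _ => Bool)
        (c := fun p => match p with
          | ⟨Sum.inl i, _⟩ => fun k : Fin n =>
              if (k : ℕ) < i then s else if (k : ℕ) = i then R - s else R
          | ⟨Sum.inr _, q⟩ => if q then p₂ else fun k : Fin n => if (k : ℕ) < j + 1 then s else R)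
        hF fun x => match x with
          | Sum.inl i => fills_incl (fun k => by
              split_ifs <;> linarith) fun _ => le_rfl
          | Sum.inr _ => hcut
      refine (hall.sub (e := Sum.elim (fun i : Fin (j + 1) =>
        if h : (i : ℕ) < j then ⟨Sum.inl ⟨i, h⟩, ()⟩ else ⟨Sum.inr (), true⟩)
        fun _ => ⟨Sum.inr (), false⟩) ?_).congr ?_
      · rintro (a | a) (b | b) he <;> simp only [Sum.elim_inl, Sum.elim_inr] at he
        · split_ifs at he with h1 h2 <;> simp [Sigma.mk.inj_iff] at he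
          · exact congrArg Sum.inl (Fin.ext he)
          · exact congrArg Sum.inl (Fin.ext (by have := a.isLt; have := b.isLt; omega))
        · split_ifs at he <;> simp [Sigma.mk.inj_iff] at he
        · split_ifs at he <;> simp [Sigma.mk.inj_iff] at he
        · rfl
      · rintro (i | i)
        · simp only [Function.comp_apply, Sum.elim_inl]
          by_cases h : (i : ℕ) < j
          · rw [dif_pos h]
          · rw [dif_neg h]
            have : (i : ℕ) = j := by have := i.isLt; omega
            simp [hp₂, this]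
        · rfl
    · rw [Fin.sum_univ_castSucc]
      simp only [Fin.val_castSucc, Fin.val_last]
      rw [add_assoc]
      refine Eq.trans ?_ hsum
      congr 1
      rw [← e₁, show (fun _ => _) = p₂ from rfl, ← e₂, prod_update_of_mem (mem_univ K),
        prod_update_of_mem (mem_univ K), ← add_mul]
      rw [show v K - s + s = v K by ring]
      rw [← prod_update_of_mem (mem_univ K), Function.update_eq_self]

/-- equal radii estimate for the units -/
theorem eventually_units (c₀ : ℝ) (hc₀ : 0 < c₀) :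
    ∀ᶠ n : ℕ in Filter.atTop, (n : ℝ) * ((1 : ℝ) / 2) ^ n ≤ c₀ :=
  (tendsto_self_mul_const_pow_of_lt_one (by norm_num) (by norm_num)).eventually
    (eventually_le_nhds hc₀)

/-- case of a moderately large big ball -/
theorem case_wide {c₀ : ℝ} (hc₀ : 0 < c₀)
    (heq : ∀ (u R : ℝ) (a : Fin n → ℝ) (K : Finset (Fin n)), 0 < u → 2 * u ≤ R → R ≤ 8 * u →
      (2 : ℝ) ^ K.card ≤ 1024 * (n : ℝ) ^ 2 → (∀ j ∈ K, u ≤ a j ∧ 2 * a j ≤ R) →
      (∀ j ∉ K, a j = R) →
      ∃ N : ℕ, c₀ * ∏ j, a j / u ≤ N ∧ Fills a fun _ : Fin N => fun _ : Fin n => u)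
    (hn : 12 ≤ n) (hev : (n : ℝ) * ((1 : ℝ) / 2) ^ n ≤ c₀ / 16)
    {R d' : ℝ} (hR : 0 < R) (hd : R / 4 ≤ d') (hdR : d' < R)
    {ι : Type} [Fintype ι] (r : ι → ℝ) (hr : ∀ i, 0 < r i) (hrd : ∀ i, r i < d')
    (hr2 : ∀ i, r i < R / 2) (hvol : ∑ i, r i ^ n ≤ c₀ / 64 * R ^ n) :
    ∃ B : ι → ℝ, (∀ i, r i < B i) ∧
      Fills (Function.update (fun _ => R) (⟨0, by omega⟩ : Fin n) d') fun i => fun _ => B i := by
  classical
  let d : Fin n := ⟨0, by omega⟩
  set D := min d' (R / 2) with hD
  have hD4 : R / 4 ≤ D := le_min hd (by linarith)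
  have hD0 : 0 < D := by linarith
  have hD2 : D ≤ R / 2 := min_le_right _ _
  obtain ⟨k₀, hk1, hk2, hk3⟩ := exists_k0 (n := n) (by omega)
  obtain ⟨K₀, hK₀, hK₀c⟩ : ∃ K₀ ⊆ univ.erase d, K₀.card = min k₀ (n - 1) :=
    exists_subset_card_eq (by simp)
  have hmin : K₀.card = k₀ := by
    rw [hK₀c]
    refine min_eq_left ?_
    by_contra h
    push Not at h
    have : 2 ^ n ≤ 2 ^ k₀ := Nat.pow_le_pow_right two_pos (by omega)
    have : 8 * n < 2 ^ n := by
      clear * - hn
      induction n, hn using Nat.le_induction with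
      | base => norm_num
      | succ m hm ih => rw [pow_succ]; omega
    omega
  have hdK : d ∉ K₀ := fun h => (mem_erase.1 (hK₀ h)).1 rfl
  let a : Fin n → ℝ := Function.update (fun _ => R) d D
  have ha : ∀ j, 0 < a j := update_pos (fun _ => hR) d hD0
  let q : Fin n → ℕ := fun j => if j ∈ K₀ then 2 else 1
  have hq : ∀ j, 0 < q j := fun j => by dsimp only [q]; split_ifs <;> norm_num
  have hN : ∏ j, q j = 2 ^ k₀ := by
    simp only [q, prod_ite_mem, univ_inter, prod_const, hmin]
  have hprod : ∏ j, a j = D * R ^ (n - 1) := by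
    simp only [a]
    rw [prod_update_of_mem (mem_univ d), prod_const, card_sdiff_of_subset (by simp)]
    simp
  have htot := prod_split a q hq
  have hcell : ∀ j, 0 < a j / q j := fun j => div_pos (ha j) (by exact_mod_cast hq j)
  have h2k : (0 : ℝ) < 2 ^ k₀ := by positivity
  have hW : ∀ _p : Fin (∏ j, q j), c₀ * ∏ j, a j / q j ≤ c₀ * (D * R ^ (n - 1)) / 2 ^ k₀ :=
    fun _ => by
      rw [← hprod, ← htot, hN]
      push_cast
      field_simp
      exact le_rfl
  have hfill := (fills_split a ha q hq)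
  obtain ⟨B, hB, hF⟩ := fills_alloc (b := fun _ : Fin (∏ j, q j) => fun j => a j / q j)
    (by omega) hfill hD0 hc₀ (Wm := c₀ * (D * R ^ (n - 1)) / 2 ^ k₀) (by positivity)
    (fun _ => hcell) hW
    (fun _ u hu hu' => heq u R _ (insert d K₀) (by linarith) (by linarith) (by linarith)
      (by
        rw [card_insert_of_notMem hdK, hmin, pow_succ]
        have h1 : (2 : ℝ) ^ k₀ ≤ 8 * n := by exact_mod_cast hk2
        have h2 : (1 : ℝ) ≤ n := by exact_mod_cast (by omega : 1 ≤ n)
        nlinarith)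
      (fun j hj => by
        rcases mem_insert.1 hj with rfl | hj
        · simp only [a, q, if_neg hdK, Function.update_self, Nat.cast_one, div_one]
          exact ⟨hu', by linarith⟩
        · simp only [a, q, if_pos hj, Function.update_of_ne (fun e : j = d => hdK (e ▸ hj))]
          push_cast
          exact ⟨by linarith, by linarith⟩)
      fun j hj => by
        simp only [mem_insert, not_or] at hj
        simp only [a, q, if_neg hj.2, Function.update_of_ne hj.1, Nat.cast_one, div_one])
    r hr (fun i => lt_min (hrd i) (hr2 i)) (by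
      rw [sum_const, card_univ, Fintype.card_fin, nsmul_eq_mul, htot, hprod]
      have hpow : R ^ n = R * R ^ (n - 1) := by rw [← pow_succ', Nat.sub_add_cancel (by omega)]
      have hRn : 0 < R ^ (n - 1) := by positivity
      have hV : R ^ n / 4 ≤ D * R ^ (n - 1) := by rw [hpow]; nlinarith
      have hV0 : 0 < D * R ^ (n - 1) := by positivity
      have h1 : (n : ℝ) * D ^ n ≤ c₀ / 16 * R ^ n := by
        calc (n : ℝ) * D ^ n ≤ n * (R / 2) ^ n := by gcongr
          _ = n * ((1 : ℝ) / 2) ^ n * R ^ n := by rw [← mul_one (R / 2), div_mul_comm, mul_pow]; ring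
          _ ≤ _ := by gcongr
      have h2 : (n : ℝ) * (c₀ * (D * R ^ (n - 1)) / 2 ^ k₀) ≤ c₀ * (D * R ^ (n - 1)) / 4 := by
        have : 4 * (n : ℝ) ≤ 2 ^ k₀ := by exact_mod_cast hk1
        rw [← mul_div_assoc, div_le_div_iff₀ h2k (by norm_num)]
        nlinarith [mul_pos hc₀ hV0]
      have h3 : c₀ * (R ^ n / 4) ≤ c₀ * (D * R ^ (n - 1)) := by gcongr
      have h4 := mul_pos hc₀ hV0
      rw [mul_add]
      linarith)
  exact ⟨B, hB, hF.mono ha fun j => by
    by_cases hj : j = d
    · subst hj; simp [a, hD, d]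
    · simp [a, Function.update_of_ne hj, d] at hj ⊢⟩

/-- case of a very large big ball -/
theorem case_thin {c₀ : ℝ} (hc₀ : 0 < c₀)
    (heq : ∀ (u : ℝ) (a : Fin n → ℝ) (K : Finset (Fin n)), 0 < u →
      (2 : ℝ) ^ K.card ≤ 1024 * (n : ℝ) ^ 2 → (∀ j ∈ K, u ≤ a j ∧ a j ≤ 16 * u) →
      (∀ j ∉ K, 3 * u ≤ a j ∧ a j ≤ 16 * u) →
      ∃ N : ℕ, c₀ * ∏ j, a j / u ≤ N ∧ Fills a fun _ : Fin N => fun _ : Fin n => u)
    (hn : 12 ≤ n) (hev : (n : ℝ) * ((1 : ℝ) / 2) ^ n ≤ c₀ / 16)
    {R d' : ℝ} (hd0 : 0 < d') (hd : d' ≤ R / 4) (hs : (R - d') ^ n ≤ R ^ n / 4)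
    {ι : Type} [Fintype ι] (r : ι → ℝ) (hr : ∀ i, 0 < r i) (hrd : ∀ i, r i < d')
    (hvol : ∑ i, r i ^ n ≤ c₀ / 64 * R ^ n) :
    ∃ B : Unit ⊕ ι → ℝ, (∀ i, r i < B (Sum.inr i)) ∧ B (Sum.inl ()) = R - d' ∧
      Fills (fun _ : Fin n => R) fun i => fun _ => B i := by
  classical
  obtain ⟨k₀, hk1, hk2, hk3⟩ := exists_k0 (n := n) (by omega)
  have hk0n : k₀ ≤ n - 1 := by
    by_contra h
    push Not at h
    have : 2 ^ n ≤ 2 ^ k₀ := Nat.pow_le_pow_right two_pos (by omega)
    have : 8 * n < 2 ^ n := by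
      clear * - hn
      induction n, hn using Nat.le_induction with
      | base => norm_num
      | succ m hm ih => rw [pow_succ]; omega
    omega
  have hR : 0 < R := by linarith
  have hs0 : 0 < R - d' := by linarith
  obtain ⟨hF, hsum⟩ := pieces_slab (n := n) hs0 (by linarith : R - d' < R) n le_rfl
  set P : Fin n → Fin n → ℝ := fun i k =>
    if (k : ℕ) < i then R - d' else if (k : ℕ) = i then R - (R - d') else R with hP
  have hcorner : (fun k : Fin n => if (k : ℕ) < n then R - d' else R) = fun _ => R - d' := by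
    funext k; rw [if_pos k.isLt]
  have hlong : ∀ i k : Fin n, k ≠ i → 3 * d' ≤ P i k := fun i k hk => by
    simp only [hP, if_neg (fun e : (k : ℕ) = i => hk (Fin.ext e))]
    split_ifs <;> linarith
  have hshort : ∀ i : Fin n, P i i = d' := fun i => by simp [hP]
  have hPpos : ∀ i k, 0 < P i k := fun i k => by
    by_cases hk : k = i
    · subst hk; rw [hshort]; exact hd0
    · linarith [hlong i k hk]
  have hK : ∀ i : Fin n, ∃ K₀ ⊆ univ.erase i, K₀.card = k₀ :=
    fun i => exists_subset_card_eq (by simp; omega)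
  choose K₀ hK₀ hK₀c using hK
  have hiK : ∀ i, i ∉ K₀ i := fun i h => (mem_erase.1 (hK₀ i h)).1 rfl
  let q : Fin n → Fin n → ℕ := fun i k =>
    if k = i then 1 else if k ∈ K₀ i then 2 * ⌊P i k / (3 * d')⌋₊ else ⌊P i k / (3 * d')⌋₊
  have hfl : ∀ i k, k ≠ i → 1 ≤ ⌊P i k / (3 * d')⌋₊ := fun i k hk =>
    Nat.floor_pos.2 ((one_le_div (by linarith)).2 (hlong i k hk))
  have hq : ∀ i k, 0 < q i k := fun i k => by
    dsimp only [q]
    split_ifs with h1 h2
    · exact one_pos
    · have := hfl i k h1; omega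
    · exact hfl i k h1
  have hseg : ∀ i k, k ≠ i → 3 * d' ≤ P i k / (⌊P i k / (3 * d')⌋₊ : ℕ) ∧
      P i k / (⌊P i k / (3 * d')⌋₊ : ℕ) ≤ 6 * d' := fun i k hk => by
    have h1 : (1 : ℝ) ≤ (⌊P i k / (3 * d')⌋₊ : ℕ) := by exact_mod_cast hfl i k hk
    have h2 := Nat.floor_le (div_pos (hPpos i k) (by linarith : (0 : ℝ) < 3 * d')).le
    have h3 := Nat.lt_floor_add_one (P i k / (3 * d'))
    rw [le_div_iff₀ (by linarith)] at h2
    rw [div_lt_iff₀ (by linarith)] at h3
    constructor
    · rw [le_div_iff₀ (by linarith)]; linarith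
    · rw [div_le_iff₀ (by linarith)]; nlinarith
  have hNlow : ∀ i, 2 ^ k₀ ≤ ∏ k, q i k := fun i => by
    calc 2 ^ k₀ = ∏ k, if k ∈ K₀ i then 2 else 1 := by
          rw [prod_ite_mem, univ_inter, prod_const, hK₀c]
      _ ≤ _ := prod_le_prod' fun k _ => by
          split_ifs with h
          · have hki : k ≠ i := (mem_erase.1 (hK₀ i h)).1
            simp only [q, if_neg hki, if_pos h]
            have := hfl i k hki; omega
          · exact hq i k
  set V := ∑ i : Fin n, ∏ k, P i k with hVdef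
  have hV : V = R ^ n - (R - d') ^ n := by
    rw [hcorner, prod_const, card_univ, Fintype.card_fin] at hsum
    linarith
  have hV0 : 0 ≤ V := sum_nonneg fun i _ => prod_nonneg fun k _ => (hPpos i k).le
  rw [hcorner] at hF
  have hslab : Fills (fun _ : Fin n => R) (Sum.elim (fun _ : Unit => fun _ : Fin n => R - d')
      fun p : Σ i : Fin n, Fin (∏ k, q i k) => fun k => P p.1 k / q p.1 k) := by
    have hall := Fills.trans
      (κ := fun x : Fin n ⊕ Unit => match x with
        | Sum.inl i => Fin (∏ k, q i k)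
        | Sum.inr _ => Unit)
      (c := fun p => match p with
        | ⟨Sum.inl i, _⟩ => fun k => P i k / q i k
        | ⟨Sum.inr _, _⟩ => fun _ => R - d')
      hF fun x => match x with
        | Sum.inl i => fills_split (P i) (hPpos i) (q i) (hq i)
        | Sum.inr _ => fills_incl (fun _ => hs0) fun _ => le_rfl
    refine (hall.sub (e := Sum.elim (fun _ => ⟨Sum.inr (), ()⟩) fun p => ⟨Sum.inl p.1, p.2⟩)
      ?_).congr ?_
    · rintro (a | ⟨a, x⟩) (b | ⟨b, y⟩) he <;> simp [Sigma.mk.inj_iff] at he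
      · rfl
      · obtain ⟨rfl, he⟩ := he; rw [eq_of_heq he]
    · rintro (a | ⟨a, x⟩) <;> rfl
  -- the cells alone
  have hid : Fills (fun _ : Fin n => R) fun p : Σ i : Fin n, Fin (∏ k, q i k) =>
      fun k => P p.1 k / q p.1 k := hslab.sub Sum.inr_injective
  have hcellW : ∀ p : Σ i : Fin n, Fin (∏ k, q i k),
      c₀ * ∏ k, P p.1 k / q p.1 k ≤ c₀ * V / 2 ^ k₀ := by
    rintro ⟨i, x⟩
    rw [mul_div_assoc]
    refine mul_le_mul_of_nonneg_left ?_ hc₀.le
    rw [le_div_iff₀ (by positivity)]
    have h1 : (2 : ℝ) ^ k₀ ≤ ((∏ k, q i k : ℕ) : ℝ) := by exact_mod_cast hNlow i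
    have h2 : ∏ k, P i k ≤ V :=
      single_le_sum (f := fun i => ∏ k, P i k) (fun i _ => prod_nonneg fun k _ => (hPpos i k).le)
        (mem_univ i)
    calc (∏ k, P i k / q i k) * 2 ^ k₀ ≤ (∏ k, P i k / q i k) * ((∏ k, q i k : ℕ) : ℝ) :=
          mul_le_mul_of_nonneg_left h1 (prod_nonneg fun k _ =>
            (div_pos (hPpos i k) (by exact_mod_cast hq i k)).le)
      _ = ∏ k, P i k := by rw [mul_comm, prod_split _ _ (hq i)]
      _ ≤ V := h2
  have hcap : 4 * ∑ i, r i ^ n + n * (d' ^ n + c₀ * V / 2 ^ k₀)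
      ≤ c₀ * ∑ p : Σ i : Fin n, Fin (∏ k, q i k), ∏ k, P p.1 k / q p.1 k := by
    have e : ∑ p : Σ i : Fin n, Fin (∏ k, q i k), ∏ k, P p.1 k / q p.1 k = V := by
      rw [Fintype.sum_sigma]
      refine sum_congr rfl fun i _ => ?_
      show ∑ _y : Fin (∏ k, q i k), (∏ k, P i k / q i k) = _
      rw [sum_const, card_univ, Fintype.card_fin, nsmul_eq_mul, prod_split _ _ (hq i)]
    rw [e]
    have h1 : (n : ℝ) * d' ^ n ≤ c₀ / 16 * R ^ n := by
      calc (n : ℝ) * d' ^ n ≤ n * (R / 2) ^ n := by gcongr; linarith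
        _ = n * ((1 : ℝ) / 2) ^ n * R ^ n := by rw [← mul_one (R / 2), div_mul_comm, mul_pow]; ring
        _ ≤ _ := by gcongr
    have h2 : (n : ℝ) * (c₀ * V / 2 ^ k₀) ≤ c₀ * V / 4 := by
      have : 4 * (n : ℝ) ≤ 2 ^ k₀ := by exact_mod_cast hk1
      rw [← mul_div_assoc, div_le_div_iff₀ (by positivity) (by norm_num)]
      nlinarith [mul_nonneg hc₀.le hV0]
    have h3 : c₀ * (3 / 4 * R ^ n) ≤ c₀ * V := by gcongr; linarith
    have hRn : 0 ≤ c₀ * R ^ n := by positivity
    rw [mul_add]
    linarith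
  -- allocate, keeping the big ball in its corner
  have hb : ∀ (p : Σ i : Fin n, Fin (∏ k, q i k)) k, 0 < P p.1 k / q p.1 k := fun p k =>
    div_pos (hPpos p.1 k) (by exact_mod_cast hq p.1 k)
  have hcells : ∀ (p : Σ i : Fin n, Fin (∏ k, q i k)) u, d' / 2 < u → u ≤ d' → ∃ N : ℕ,
      c₀ * ∏ k, (P p.1 k / q p.1 k) / u ≤ N ∧
      Fills (fun k => P p.1 k / q p.1 k) fun _ : Fin N => fun _ : Fin n => u := by
    rintro ⟨i, x⟩ u hu hu'
    refine heq u _ (insert i (K₀ i)) (by linarith) ?_ (fun k hk => ?_) fun k hk => ?_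
    · rw [card_insert_of_notMem (hiK i), hK₀c, pow_succ]
      have h1 : (2 : ℝ) ^ k₀ ≤ 8 * n := by exact_mod_cast hk2
      have h2 : (1 : ℝ) ≤ n := by exact_mod_cast (by omega : 1 ≤ n)
      nlinarith
    · rcases mem_insert.1 hk with rfl | hk
      · simp only [q, if_pos, Nat.cast_one, div_one, hshort]
        constructor <;> linarith
      · have hki : k ≠ i := (mem_erase.1 (hK₀ i hk)).1
        obtain ⟨h1, h2⟩ := hseg i k hki
        simp only [q, if_neg hki, if_pos hk]
        push_cast
        rw [mul_comm (2 : ℝ), ← div_div]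
        constructor <;> linarith
    · simp only [mem_insert, not_or] at hk
      obtain ⟨h1, h2⟩ := hseg i k hk.1
      simp only [q, if_neg hk.1, if_neg hk.2]
      constructor <;> linarith
  obtain ⟨B, g, hB, hg⟩ := fills_alloc_cells (by omega) hd0 hc₀ (Wm := c₀ * V / 2 ^ k₀)
    (by positivity) hb hcellW hcells r hr hrd hcap
  have hFB := fills_of_cells (c := fun i => fun _ : Fin n => B i) (fun _ _ => hs0) hslab g hg
  exact ⟨Sum.elim (fun _ => R - d') B, hB, rfl, hFB.congr fun x => by cases x <;> rfl⟩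

/-- **Universal volume constant.** -/
theorem packs_uniform : ∃ c : ℝ, 0 < c ∧ ∀ (n k : ℕ) (R : ℝ) (Rs : Fin k → ℝ), 0 < R →
    (∀ i, 0 < Rs i) → ∑ i, Rs i ^ n ≤ c * R ^ n → (∀ i j, i < j → Rs i + Rs j < R) →
    Packs n k R Rs := by
  obtain ⟨c₁, hc₁, n₁, hnear⟩ := equal_near
  obtain ⟨c₂, hc₂, n₂, hfar⟩ := equal_far
  obtain ⟨n₃, hn₃⟩ := Filter.eventually_atTop.1
    ((eventually_units (c₁ / 16) (by positivity)).and (eventually_units (c₂ / 16) (by positivity)))
  set n₀ := n₁ + n₂ + n₃ + 12 with hn₀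
  set c := min (min (c₁ / 64) (c₂ / 64)) (min (1 / 8) ((2 : ℝ) ^ (n₀ + 1))⁻¹) with hc
  have hc0 : 0 < c :=
    lt_min (lt_min (by positivity) (by positivity)) (lt_min (by norm_num) (by positivity))
  have hc8 : c ≤ 1 / 8 := (min_le_right _ _).trans (min_le_left _ _)
  refine ⟨c, hc0, fun n k R Rs hR hpos hvol hpair => ?_⟩
  rcases Nat.eq_zero_or_pos k with rfl | hk
  · exact ⟨fun i => i.elim0, fun i => i.elim0, fun i => i.elim0⟩
  rcases Nat.eq_zero_or_pos n with rfl | hnpos
  · exfalso
    simp at hvol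
    have : (1 : ℝ) ≤ k := by exact_mod_cast hk
    linarith
  rcases Nat.lt_or_ge n n₀ with hsmall | hlarge
  · refine packs_of_volume_small_const hnpos hR hpos (lt_of_le_of_lt hvol ?_)
    refine mul_lt_mul_of_pos_right (lt_of_le_of_lt ((min_le_right _ _).trans (min_le_right _ _)) ?_)
      (pow_pos hR n)
    rw [inv_lt_inv₀ (by positivity) (by positivity)]
    exact pow_lt_pow_right₀ one_lt_two (by omega)
  obtain ⟨m, rfl⟩ : ∃ m, n = n₀ + m := ⟨n - n₀, by omega⟩
  set n := n₀ + m with hn
  have : Nonempty (Fin k) := ⟨⟨0, hk⟩⟩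
  obtain ⟨i₀, hi₀⟩ := Finite.exists_max Rs
  have hbig : Rs i₀ ^ n ≤ c * R ^ n :=
    le_trans (single_le_sum (f := fun i => Rs i ^ n) (fun j _ => (pow_pos (hpos j) _).le)
      (mem_univ i₀)) hvol
  have hRn : 0 < R ^ n := pow_pos hR n
  have hr₀R : Rs i₀ < R := lt_of_pow_lt_pow_left₀ n hR.le (by nlinarith)
  have hpair' : ∀ i, i ≠ i₀ → Rs i < R - Rs i₀ ∧ Rs i < R / 2 := fun i hi => by
    have h1 : Rs i + Rs i₀ < R := by
      rcases lt_or_gt_of_ne hi with h | h
      · exact hpair _ _ h
      · linarith [hpair _ _ h]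
    have := hi₀ i
    constructor <;> linarith
  have hsumv : ∑ i : {i // i ≠ i₀}, Rs i ^ n ≤ c * R ^ n := by
    refine le_trans ?_ hvol
    rw [← sum_subtype (univ.erase i₀) (p := fun i => i ≠ i₀) (by simp) fun i => Rs i ^ n]
    exact sum_le_sum_of_subset_of_nonneg (erase_subset _ _) fun i _ _ => (pow_pos (hpos i) _).le
  obtain ⟨hev₁, hev₂⟩ := hn₃ n (by omega)
  set d := R - Rs i₀ with hd
  -- a value of `d'` slightly below `d`
  have hev : ∀ᶠ x in 𝓝[<] d, 0 < x ∧ (∀ i, i ≠ i₀ → Rs i < x) ∧ (R / 4 < d → R / 4 ≤ x) ∧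
      (R - x) ^ n ≤ R ^ n / 4 := by
    refine nhdsWithin_le_nhds ((eventually_gt_nhds (by linarith)).and
      ((Filter.eventually_all.2 fun i => ?_).and (Filter.Eventually.and ?_ ?_)))
    · by_cases hi : i = i₀
      · exact Filter.Eventually.of_forall fun x h => absurd hi h
      · filter_upwards [eventually_gt_nhds (hpair' i hi).1] with x hx _ using hx
    · by_cases h : R / 4 < d
      · filter_upwards [eventually_gt_nhds h] with x hx _ using hx.le
      · exact Filter.Eventually.of_forall fun x h' => absurd h' h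
    · have hcont : Continuous fun x : ℝ => (R - x) ^ n := by fun_prop
      refine (hcont.tendsto d).eventually (eventually_le_nhds ?_)
      rw [hd, sub_sub_cancel]
      nlinarith
  obtain ⟨d', ⟨hd'0, hd'i, hd'4, hd's⟩, hd'd⟩ := (hev.and self_mem_nhdsWithin).exists
  have hd'd' : d' < d := hd'd
  have hB0 : Rs i₀ < R - d' := by linarith
  rcases lt_or_ge (R / 4) d with hwide | hthin
  · obtain ⟨B, hB, hF⟩ := case_wide hc₁ (hnear n (by omega)) (by omega) hev₁ hR (hd'4 hwide)
      (by linarith [hpos i₀]) (fun i : {i // i ≠ i₀} => Rs i) (fun i => hpos _)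
      (fun i => hd'i _ i.2) (fun i => (hpair' _ i.2).2)
      (hsumv.trans (mul_le_mul_of_nonneg_right ((min_le_left _ _).trans (min_le_left _ _)) hRn.le))
    have hcut := fills_cut (a := fun _ : Fin n => R) (fun _ => hR) ⟨0, by omega⟩
      (s := R - d') (by linarith [hpos i₀]) (by linarith)
    rw [sub_sub_cancel] at hcut
    have hbig' : Fills (Function.update (fun _ => R) (⟨0, by omega⟩ : Fin n) (R - d'))
        fun _ : Unit => fun _ => R - d' :=
      fills_incl (fun _ => by linarith [hpos i₀]) fun j => by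
        by_cases hj : j = ⟨0, by omega⟩
        · subst hj; simp
        · rw [Function.update_of_ne hj]; linarith
    have h := Fills.two hcut hbig' hF
    refine packs_of_fills hR (fun i => if hi : i = i₀ then R - d' else B ⟨i, hi⟩) hpos (fun i => ?_)
      ((h.sub (e := fun i => if hi : i = i₀ then Sum.inl () else Sum.inr ⟨i, hi⟩) ?_).congr ?_)
    · by_cases hi : i = i₀
      · rw [dif_pos hi, hi]; exact hB0
      · rw [dif_neg hi]; exact hB ⟨i, hi⟩
    · intro i j he
      simp only at he
      split_ifs at he with h1 h2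
      · exact h1.trans h2.symm
      · simpa using he
    · intro i
      simp only [Function.comp_apply]
      split_ifs <;> rfl
  · obtain ⟨B, hB, hB', hF⟩ := case_thin hc₂ (hfar n (by omega)) (by omega) hev₂ hd'0
      (by linarith) hd's (fun i : {i // i ≠ i₀} => Rs i) (fun i => hpos _) (fun i => hd'i _ i.2)
      (hsumv.trans (mul_le_mul_of_nonneg_right ((min_le_left _ _).trans (min_le_right _ _)) hRn.le))
    refine packs_of_fills hR (fun i => if hi : i = i₀ then R - d' else B (Sum.inr ⟨i, hi⟩)) hpos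
      (fun i => ?_)
      ((hF.sub (e := fun i => if hi : i = i₀ then Sum.inl () else Sum.inr ⟨i, hi⟩) ?_).congr ?_)
    · by_cases hi : i = i₀
      · rw [dif_pos hi, hi]; exact hB0
      · rw [dif_neg hi]; exact hB ⟨i, hi⟩
    · intro i j he
      simp only at he
      split_ifs at he with h1 h2
      · exact h1.trans h2.symm
      · simpa using he
    · intro i
      simp only [Function.comp_apply]
      split_ifs
      · rw [hB']
      · rfl

end Vale.Agent.P209
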